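import Vale.Agent.P085Z.Basic

set_option autoImplicit false

open scoped InnerProductSpace Topology
open Filter

namespace Vale.Agent.P085Z

open Vale.Agent.P085 Vale.Agent.P085.H551

variable {H : Type*} [NormedAddCommGroup H] [InnerProductSpace ℂ H] [CompleteSpace H]

theorem ev_true {A : Type*} [CStarAlgebra A] (a b : A) :
    ev a b (FreeAlgebra.ι ℂ true) = a := by
  simp [ev]

theorem ev_false {A : Type*} [CStarAlgebra A] (a b : A) :
    ev a b (FreeAlgebra.ι ℂ false) = b := by
  simp [ev]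

theorem map_ev {A B F : Type*} [CStarAlgebra A] [CStarAlgebra B] [FunLike F A B]
    [AlgHomClass F ℂ A B] (φ : F) (a b : A) (q : FreeAlgebra ℂ Bool) :
    φ (ev a b q) = ev (φ a) (φ b) q := by
  induction q using FreeAlgebra.induction with
  | grade0 r => rw [AlgHom.commutes, AlgHom.commutes, AlgHomClass.commutes]
  | grade1 s => cases s <;> simp only [ev_true, ev_false]
  | mul x y hx hy => rw [map_mul, map_mul, map_mul, hx, hy]
  | add x y hx hy => rw [map_add, map_add, map_add, hx, hy]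

theorem ev_mem {A : Type*} [CStarAlgebra A] (S : Subalgebra ℂ A) {a b : A} (ha : a ∈ S)
    (hb : b ∈ S) (q : FreeAlgebra ℂ Bool) : ev a b q ∈ S := by
  induction q using FreeAlgebra.induction with
  | grade0 r => rw [AlgHom.commutes]; exact S.algebraMap_mem r
  | grade1 s => cases s <;> simp only [ev_true, ev_false, ha, hb]
  | mul x y hx hy => rw [map_mul]; exact S.mul_mem hx hy
  | add x y hx hy => rw [map_add]; exact S.add_mem hx hy

/-- locality with respect to a central idempotent -/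
theorem ev_local {A : Type*} [CStarAlgebra A] {z a b a' b' : A} (hz : z * z = z)
    (hc : ∀ y, y * z = z * y) (ha : z * a = z * a') (hb : z * b = z * b')
    (q : FreeAlgebra ℂ Bool) : z * ev a b q = z * ev a' b' q := by
  have key : ∀ x y : A, z * (x * y) = (z * x) * (z * y) := by
    intro x y
    rw [mul_assoc z x, ← mul_assoc x z, hc x, mul_assoc z x, ← mul_assoc z z, hz]
  induction q using FreeAlgebra.induction with
  | grade0 r => rw [AlgHom.commutes, AlgHom.commutes]
  | grade1 s => cases s <;> simp only [ev_true, ev_false, ha, hb]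
  | mul x y hx hy => rw [map_mul, map_mul, key, key (ev a' b' x), hx, hy]
  | add x y hx hy => rw [map_add, map_add, mul_add, mul_add, hx, hy]

theorem n2_mul_le' {A : Type*} [CStarAlgebra A] {τ : A →ₗ[ℂ] ℂ} (hτ : IsTrS τ) (x y : A) :
    n2 τ (x * y) ≤ n2 τ x * ‖y‖ := by
  rw [← n2_star hτ, star_mul, ← n2_star hτ x, ← norm_star y, mul_comm]
  exact n2_mul_le hτ _ _

theorem norm_one_le' {A : Type*} [CStarAlgebra A] : ‖(1 : A)‖ ≤ 1 :=
  norm_unitary_le (by rw [star_one, one_mul])

theorem ev_lip_aux {A : Type*} [CStarAlgebra A] {τ : A →ₗ[ℂ] ℂ} (hτ : IsTrS τ)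
    (q : FreeAlgebra ℂ Bool) : ∃ C : ℝ, 0 ≤ C ∧
      (∀ a b : A, ‖a‖ ≤ 1 → ‖b‖ ≤ 1 → ‖ev a b q‖ ≤ C) ∧
      ∀ a b a' b' : A, ‖a‖ ≤ 1 → ‖b‖ ≤ 1 → ‖a'‖ ≤ 1 →
      ‖b'‖ ≤ 1 → n2 τ (ev a b q - ev a' b' q) ≤ C * (n2 τ (a - a') + n2 τ (b - b')) := by
  induction q using FreeAlgebra.induction with
  | grade0 r =>
    refine ⟨‖r‖, norm_nonneg _, fun a b _ _ => ?_, fun a b a' b' _ _ _ _ => ?_⟩
    · rw [AlgHom.commutes, Algebra.algebraMap_eq_smul_one, norm_smul]
      exact mul_le_of_le_one_right (norm_nonneg _) norm_one_le'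
    · rw [AlgHom.commutes, AlgHom.commutes, sub_self, n2_zero]
      exact mul_nonneg (norm_nonneg _) (add_nonneg (n2_nonneg _) (n2_nonneg _))
  | grade1 s =>
    refine ⟨1, zero_le_one, fun a b ha hb => ?_, fun a b a' b' _ _ _ _ => ?_⟩
    · cases s <;> simp only [ev_true, ev_false, ha, hb]
    · have h1 := n2_nonneg (τ := τ) (a - a')
      have h2 := n2_nonneg (τ := τ) (b - b')
      cases s <;> simp only [ev_true, ev_false] <;> linarith
  | mul x y hx hy =>
    obtain ⟨C, hC, hC1, hC2⟩ := hx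
    obtain ⟨D, hD, hD1, hD2⟩ := hy
    refine ⟨2 * (C * D), by positivity, fun a b ha hb => ?_, fun a b a' b' ha hb ha' hb' => ?_⟩
    · rw [map_mul]
      have h1 := (norm_mul_le (ev a b x) (ev a b y)).trans
        (mul_le_mul (hC1 a b ha hb) (hD1 a b ha hb) (norm_nonneg _) hC)
      nlinarith [mul_nonneg hC hD]
    · have e : ev a b (x * y) - ev a' b' (x * y) =
          ev a b x * (ev a b y - ev a' b' y) + (ev a b x - ev a' b' x) * ev a' b' y := by
        rw [map_mul, map_mul]
        noncomm_ring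
      rw [e]
      have h0 : 0 ≤ n2 τ (a - a') + n2 τ (b - b') := add_nonneg (n2_nonneg _) (n2_nonneg _)
      have h1 := (n2_mul_le hτ (ev a b x) (ev a b y - ev a' b' y)).trans
        (mul_le_mul (hC1 a b ha hb) (hD2 a b a' b' ha hb ha' hb') (n2_nonneg _) hC)
      have h2 := (n2_mul_le' hτ (ev a b x - ev a' b' x) (ev a' b' y)).trans
        (mul_le_mul (hC2 a b a' b' ha hb ha' hb') (hD1 a' b' ha' hb') (norm_nonneg _)
          (mul_nonneg hC h0))
      refine (n2_add_le hτ _ _).trans ?_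
      nlinarith
  | add x y hx hy =>
    obtain ⟨C, hC, hC1, hC2⟩ := hx
    obtain ⟨D, hD, hD1, hD2⟩ := hy
    refine ⟨C + D, by positivity, fun a b ha hb => ?_, fun a b a' b' ha hb ha' hb' => ?_⟩
    · rw [map_add]
      exact (norm_add_le _ _).trans (add_le_add (hC1 a b ha hb) (hD1 a b ha hb))
    · have e : ev a b (x + y) - ev a' b' (x + y) =
          (ev a b x - ev a' b' x) + (ev a b y - ev a' b' y) := by
        rw [map_add, map_add]
        abel
      rw [e, add_mul]
      exact (n2_add_le hτ _ _).trans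
        (add_le_add (hC2 a b a' b' ha hb ha' hb') (hD2 a b a' b' ha hb ha' hb'))

/-- polynomials are Lipschitz for the 2-norm on contractions -/
theorem ev_lip {A : Type*} [CStarAlgebra A] {τ : A →ₗ[ℂ] ℂ} (hτ : IsTrS τ)
    (q : FreeAlgebra ℂ Bool) : ∃ C : ℝ, 0 ≤ C ∧ ∀ a b a' b' : A, ‖a‖ ≤ 1 → ‖b‖ ≤ 1 → ‖a'‖ ≤ 1 →
      ‖b'‖ ≤ 1 → n2 τ (ev a b q - ev a' b' q) ≤ C * (n2 τ (a - a') + n2 τ (b - b')) := by
  obtain ⟨C, hC, _, h⟩ := ev_lip_aux hτ q
  exact ⟨C, hC, h⟩

/-- elements of the von Neumann algebra generated by two self-adjoint operators are approximated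
at one vector by polynomials -/
theorem exists_poly_approx {M : VonNeumannAlgebra H} {a b : H →L[ℂ] H} (has : star a = a)
    (hbs : star b = b) (hg : Gen2 M a b) {y : H →L[ℂ] H} (hy : y ∈ M) (Ω : H) {ε : ℝ}
    (hε : 0 < ε) : ∃ q : FreeAlgebra ℂ Bool, ‖y Ω - ev a b q Ω‖ ≤ ε := by
  set S : Set H := Set.range fun q : FreeAlgebra ℂ Bool => ev a b q Ω with hS
  obtain ⟨p, hps, _, hfix, _, hcomm, hcl⟩ := exists_proj S
  have hmul : ∀ s : Bool, ∀ v ∈ S, p ((ev a b (FreeAlgebra.ι ℂ s)) v) =
      (ev a b (FreeAlgebra.ι ℂ s)) v := by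
    rintro s v ⟨q, rfl⟩
    refine hfix _ ⟨FreeAlgebra.ι ℂ s * q, ?_⟩
    simp only [map_mul, mul_apply_eq_comp]
  have ha : a * p = p * a := by
    have h := hmul true
    rw [ev_true] at h
    exact hcomm a h (by rw [has]; exact h)
  have hb : b * p = p * b := by
    have h := hmul false
    rw [ev_false] at h
    exact hcomm b h (by rw [hbs]; exact h)
  have hstar : ∀ s ∈ ({p} : Set (H →L[ℂ] H)), star s ∈ ({p} : Set (H →L[ℂ] H)) := by
    rintro s rfl
    exact hps
  have hN := hg (commVN {p} hstar) (mem_commVN.2 (by rintro s rfl; exact ha.symm))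
    (mem_commVN.2 (by rintro s rfl; exact hb.symm)) hy
  have hyp : p * y = y * p := mem_commVN.1 hN p rfl
  have hΩ : p Ω = Ω := hfix _ ⟨1, by simp⟩
  have h1 : y Ω = p (y Ω) := by
    have := congrArg (fun T : H →L[ℂ] H => T Ω) hyp
    simp only [mul_apply_eq_comp, hΩ] at this
    exact this.symm
  have h2 := hcl (y Ω)
  rw [← h1] at h2
  obtain ⟨w, hw, hd⟩ := Metric.mem_closure_iff.1 h2 ε hε
  have h3 : ∀ w ∈ Submodule.span ℂ S, w ∈ S := by
    intro w hw
    induction hw using Submodule.span_induction with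
    | mem x hx => exact hx
    | zero => exact ⟨0, by simp⟩
    | add x y _ _ hx hy =>
      obtain ⟨q, rfl⟩ := hx
      obtain ⟨r, rfl⟩ := hy
      exact ⟨q + r, by simp⟩
    | smul c x _ hx =>
      obtain ⟨q, rfl⟩ := hx
      exact ⟨c • q, by simp⟩
  obtain ⟨q, hq⟩ := h3 w hw
  refine ⟨q, ?_⟩
  rw [dist_eq_norm, ← hq] at hd
  exact hd.le

theorem re_tr_le {B : Type*} [CStarAlgebra B] {τ : B →ₗ[ℂ] ℂ} (hτ : IsTrS τ) {g s : B}
    (hs : star s = s) (hg : ‖g‖ ≤ 1) : (τ (g * (s * s))).re ≤ (τ (s * s)).re := by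
  have h1 : τ (g * (s * s)) = τ (star s * (g * s)) := by
    rw [hs, hτ.comm s (g * s), mul_assoc]
  have h2 := norm_tr_star_mul_le hτ s (g * s)
  have h3 := n2_mul_le hτ g s
  have h4 := n2_sq hτ s
  rw [hs] at h4
  have h5 := Complex.re_le_norm (τ (star s * (g * s)))
  have h6 := n2_nonneg (τ := τ) s
  rw [h1, ← h4]
  have h7 : n2 τ (g * s) ≤ n2 τ s := h3.trans (mul_le_of_le_one_left h6 hg)
  nlinarith [mul_le_mul_of_nonneg_left h7 h6]

theorem exists_clip_sa {A : Type*} [CStarAlgebra A] {a : A} (ha : star a = a) :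
    ∃ c s r : A, star c = c ∧ star s = s ∧ star r = r ∧ ‖c‖ ≤ 1 ∧ a = c + s * s - r * r ∧
      c * (s * s) = s * s ∧ c * (r * r) = -(r * r) := by
  have ha' : IsSelfAdjoint a := ha
  let f : ℝ → ℝ := fun x => max (-1) (min x 1)
  let u : ℝ → ℝ := fun x => Real.sqrt (x - 1)
  let w : ℝ → ℝ := fun x => Real.sqrt (-x - 1)
  have hf : Continuous f := by fun_prop
  have hu : Continuous u := by fun_prop
  have hw : Continuous w := by fun_prop
  have hu2 : ∀ x, u x * u x = max (x - 1) 0 := by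
    intro x
    rcases le_total (x - 1) 0 with h | h
    · simp only [u, Real.sqrt_eq_zero'.2 h, mul_zero, max_eq_right h]
    · simp only [u, Real.mul_self_sqrt h, max_eq_left h]
  have hw2 : ∀ x, w x * w x = max (-x - 1) 0 := by
    intro x
    rcases le_total (-x - 1) 0 with h | h
    · simp only [w, Real.sqrt_eq_zero'.2 h, mul_zero, max_eq_right h]
    · simp only [w, Real.mul_self_sqrt h, max_eq_left h]
  have huu : Continuous fun x => u x * u x := hu.mul hu
  have hww : Continuous fun x => w x * w x := hw.mul hw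
  have hfu : Continuous fun x => f x + u x * u x := hf.add huu
  have eu : cfc u a * cfc u a = cfc (fun x => u x * u x) a :=
    (cfc_mul u u a hu.continuousOn hu.continuousOn).symm
  have ew : cfc w a * cfc w a = cfc (fun x => w x * w x) a :=
    (cfc_mul w w a hw.continuousOn hw.continuousOn).symm
  refine ⟨cfc f a, cfc u a, cfc w a, cfc_predicate f a, cfc_predicate u a, cfc_predicate w a,
    ?_, ?_, ?_, ?_⟩
  · refine norm_cfc_le zero_le_one fun x _ => ?_
    rw [Real.norm_eq_abs, abs_le]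
    exact ⟨le_max_left _ _, max_le (by norm_num) (min_le_right _ _)⟩
  · rw [eu, ew, ← cfc_add (a := a) f _ hf.continuousOn huu.continuousOn,
      ← cfc_sub (a := a) _ _ hfu.continuousOn hww.continuousOn]
    have e : (fun x => f x + u x * u x - w x * w x) = fun x : ℝ => x := by
      funext x
      rw [hu2, hw2]
      simp only [f, max_def, min_def]
      split_ifs <;> linarith
    rw [e, cfc_id' ℝ a]
  · rw [eu, ← cfc_mul f _ a hf.continuousOn huu.continuousOn]
    congr 1
    funext x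
    rw [hu2]
    simp only [f, max_def, min_def]
    split_ifs <;> linarith
  · rw [ew, ← cfc_mul f _ a hf.continuousOn hww.continuousOn, ← cfc_neg]
    congr 1
    funext x
    rw [hw2]
    simp only [f, max_def, min_def]
    split_ifs <;> linarith

/-- the tracial form of the density theorem of Kaplansky: the nearest self-adjoint contraction -/
theorem exists_clip {A B : Type*} [CStarAlgebra A] [CStarAlgebra B] (φ : A →⋆ₐ[ℂ] B)
    {τ : B →ₗ[ℂ] ℂ} (hτ : IsTrS τ) (a : A) {g : B} (hgs : star g = g) (hg : ‖g‖ ≤ 1) :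
    ∃ c : A, star c = c ∧ ‖c‖ ≤ 1 ∧ n2 τ (φ c - g) ≤ n2 τ (φ a - g) := by
  set a1 : A := (1 / 2 : ℂ) • (a + star a) with ha1
  have h1 : star a1 = a1 := by
    rw [ha1, star_smul, star_add, star_star, add_comm]
    simp
  obtain ⟨c, s, r, hc, hs, hr, hn, hdec, hcs, hcr⟩ := exists_clip_sa h1
  refine ⟨c, hc, hn, ?_⟩
  have h2 : n2 τ (φ a1 - g) ≤ n2 τ (φ a - g) := by
    have e : φ a1 - g = (1 / 2 : ℂ) • ((φ a - g) + star (φ a - g)) := by
      rw [ha1, map_smul, map_add, map_star, star_sub, hgs]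
      module
    rw [e, n2_smul hτ]
    have h3 := n2_add_le hτ (φ a - g) (star (φ a - g))
    rw [n2_star hτ] at h3
    have h4 : ‖(1 / 2 : ℂ)‖ = 1 / 2 := by simp
    rw [h4]
    linarith
  refine le_trans ?_ h2
  have hS : star (φ s) = φ s := by rw [← map_star, hs]
  have hR : star (φ r) = φ r := by rw [← map_star, hr]
  have hC : star (φ c) = φ c := by rw [← map_star, hc]
  have eS : φ c * (φ s * φ s) = φ s * φ s := by rw [← map_mul, ← map_mul, hcs]
  have eR : φ c * (φ r * φ r) = -(φ r * φ r) := by rw [← map_mul, ← map_mul, hcr, map_neg]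
  have e : φ a1 - g = (φ c - g) - (φ r * φ r - φ s * φ s) := by
    rw [hdec, map_sub, map_add, map_mul, map_mul]
    abel
  have h5 := n2_sub_sq hτ (φ c - g) (φ r * φ r - φ s * φ s)
  rw [← e] at h5
  have e2 : star (φ c - g) * (φ r * φ r - φ s * φ s) =
      ((-g) * (φ r * φ r) - φ r * φ r) + (g * (φ s * φ s) - φ s * φ s) := by
    rw [star_sub, hC, hgs, sub_mul, mul_sub (φ c), eS, eR]
    noncomm_ring
  have h6 := re_tr_le hτ hS hg
  have h7 := re_tr_le hτ (g := -g) hR (by rw [norm_neg]; exact hg)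
  rw [e2, map_add, map_sub, map_sub] at h5
  simp only [Complex.add_re, Complex.sub_re] at h5
  refine le_of_sq_le_sq ?_ (n2_nonneg _)
  nlinarith [sq_nonneg (n2 τ (φ r * φ r - φ s * φ s))]

theorem avgL_sub {A : Type*} [CStarAlgebra A] (l : List A) (a b : A) :
    avgL l (a - b) = avgL l a - avgL l b := by
  induction l generalizing a b with
  | nil => rfl
  | cons u l ih =>
    simp only [avgL]
    rw [← ih]
    congr 1
    rw [← smul_sub]
    congr 1
    noncomm_ring

theorem n2_avgL_le {A : Type*} [CStarAlgebra A] {τ : A →ₗ[ℂ] ℂ} (hτ : IsTrS τ) {l : List A}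
    (hl : ∀ u ∈ l, star u * u = 1 ∧ u * star u = 1) (a : A) : n2 τ (avgL l a) ≤ n2 τ a := by
  induction l generalizing a with
  | nil => exact le_rfl
  | cons u l ih =>
    simp only [avgL]
    refine (ih (fun v hv => hl v (List.mem_cons_of_mem _ hv)) _).trans ?_
    have hu := (hl u List.mem_cons_self).1
    rw [n2_smul hτ]
    have h3 := n2_add_le hτ a (u * a * star u)
    rw [n2_mul_unitary hτ (by rw [star_star]; exact hu), n2_unitary_mul hu] at h3
    have h4 : ‖(1 / 2 : ℂ)‖ = 1 / 2 := by simp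
    rw [h4]
    linarith

theorem map_avgL {A B : Type*} [CStarAlgebra A] [CStarAlgebra B] (φ : A →⋆ₐ[ℂ] B) (l : List A)
    (a : A) : φ (avgL l a) = avgL (l.map φ) (φ a) := by
  induction l generalizing a with
  | nil => rfl
  | cons u l ih =>
    simp only [avgL, List.map_cons]
    rw [ih, map_smul, map_add, map_mul, map_mul, map_star]

theorem avgL_central {A : Type*} [CStarAlgebra A] {l : List A}
    (hl : ∀ u ∈ l, u * star u = 1) {z : A} (hz : ∀ u ∈ l, u * z = z * u) : avgL l z = z := by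
  induction l with
  | nil => rfl
  | cons u l ih =>
    simp only [avgL]
    have e : (1 / 2 : ℂ) • (z + u * z * star u) = z := by
      rw [hz u List.mem_cons_self, mul_assoc, hl u List.mem_cons_self, mul_one]
      module
    rw [e]
    exact ih (fun v hv => hl v (List.mem_cons_of_mem _ hv))
      (fun v hv => hz v (List.mem_cons_of_mem _ hv))

end Vale.Agent.P085Z
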