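import Vale.Agent.P085Z.FP
import Vale.Agent.P085Z.Poly

set_option autoImplicit false

open scoped InnerProductSpace Topology
open Filter

namespace Vale.Agent.P085Z

open Vale.Agent.P085 Vale.Agent.P085.H551

variable {H : Type*} [NormedAddCommGroup H] [InnerProductSpace ℂ H] [CompleteSpace H]

theorem norm_le_of_sc' {c : ℝ} (hc : 0 ≤ c) {x : H →L[ℂ] H} (hx : star x = x)
    (h1 : 0 ≤ sc H c - x) (h2 : 0 ≤ sc H c + x) : ‖x‖ ≤ c := by
  refine le_of_forall_pos_le_add fun ε hε => ?_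
  refine norm_le_of_sc (by linarith) hx ?_ ?_
  · rw [sc_add, add_sub_right_comm]
    exact add_nonneg h1 (sc_nonneg hε.le)
  · rw [sc_add, add_right_comm]
    exact add_nonneg h2 (sc_nonneg hε.le)

/-- the symmetry exchanging two orthogonal equivalent projections -/
theorem swap_alg {R : Type*} [Ring R] {v s : R} (h1 : v * (s * v) = v) (h2 : s * (v * s) = s)
    (h3 : v * v = 0) (h4 : s * s = 0) :
    (1 - s * v - v * s + v + s) * (1 - s * v - v * s + v + s) = 1 ∧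
    (1 - s * v - v * s + v + s) * (s * v) * (1 - s * v - v * s + v + s) = v * s := by
  have h3' : ∀ x, v * (v * x) = 0 := fun x => by rw [← mul_assoc, h3, zero_mul]
  have h4' : ∀ x, s * (s * x) = 0 := fun x => by rw [← mul_assoc, h4, zero_mul]
  constructor
  · simp only [mul_add, add_mul, mul_sub, sub_mul, mul_one, one_mul, mul_assoc, h1, h2, h3, h4,
      h3', h4', mul_zero]
    abel
  · simp only [mul_add, add_mul, mul_sub, sub_mul, mul_one, one_mul, mul_assoc, h1, h2, h3,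
      h3', h4', mul_zero]
    abel

theorem dix_half {a p w v : H →L[ℂ] H} {t : ℝ} (has : star a = a) (ht : ‖a‖ ≤ t)
    (hap : 0 ≤ (t : ℂ) • p - a) (hpp : p * p = p)
    (hws : star w = w) (hww : w * w = w) (haw : a * w = w * a) (hpw : p * w = w * p)
    (hv : star v * v = p * w) (hpv : p * v = 0) (hwv : w * v = v) (hvw : v * w = v) :
    ∃ u : H →L[ℂ] H, u = 1 - star v * v - v * star v + v + star v ∧ star u = u ∧ u * u = 1 ∧
      ‖((1 / 2 : ℂ) • (a + u * a * star u) + ((t / 4 : ℝ) : ℂ) • 1) * w‖ ≤ 3 / 4 * t := by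
  have ht0 : 0 ≤ t := (norm_nonneg _).trans ht
  have hee : p * w * (p * w) = p * w := by
    rw [mul_assoc, ← mul_assoc w, ← hpw, mul_assoc p, hww, ← mul_assoc, hpp]
  have h1 : v * (star v * v) = v := by
    have h : star (v - v * (star v * v)) * (v - v * (star v * v)) = 0 := by
      have e1 : star (v - v * (star v * v)) * (v - v * (star v * v)) =
          star v * v - star v * v * (star v * v) - star v * v * (star v * v) +
            star v * v * (star v * v) * (star v * v) := by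
        simp only [star_sub, star_mul, star_star, mul_sub, sub_mul, mul_assoc]
        abel
      rw [e1, hv, hee, hee]
      abel
    exact (sub_eq_zero.1 ((CStarRing.star_mul_self_eq_zero_iff _).1 h)).symm
  have h2 : star v * (v * star v) = star v := by
    have := congrArg star h1
    simpa only [star_mul, star_star, mul_assoc] using this
  have h3 : v * v = 0 := by
    calc v * v = v * (star v * v) * v := by rw [h1]
      _ = v * (p * (w * v)) := by rw [hv]; simp only [mul_assoc]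
      _ = 0 := by rw [hwv, hpv, mul_zero]
  have h4 : star v * star v = 0 := by rw [← star_mul, h3, star_zero]
  have hwv' : w * star v = star v := by
    have := congrArg star hvw
    rwa [star_mul, hws] at this
  have hvw' : star v * w = star v := by
    have := congrArg star hwv
    rwa [star_mul, hws] at this
  obtain ⟨k1, k2⟩ := swap_alg h1 h2 h3 h4
  obtain ⟨u, hu⟩ : ∃ u : H →L[ℂ] H, u = 1 - star v * v - v * star v + v + star v := ⟨_, rfl⟩
  rw [← hu] at k1 k2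
  have hus : star u = u := by
    rw [hu]
    simp only [star_add, star_sub, star_one, star_mul, star_star]
    abel
  have huw : u * w = w * u := by
    rw [hu]
    simp only [mul_add, add_mul, mul_sub, sub_mul, mul_one, one_mul, mul_assoc, hvw, hvw', hwv,
      hwv']
    rw [← mul_assoc w, hwv', ← mul_assoc w, hwv]
  refine ⟨u, hu, hus, k1, ?_⟩
  rw [hus]
  have hcj : ∀ x : H →L[ℂ] H, 0 ≤ x → x * w = w * x → 0 ≤ u * x * u * w := by
    intro x hx hxw
    refine nonneg_mul_proj ?_ hws hww ?_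
    · have := star_left_conjugate_nonneg hx u
      rwa [hus] at this
    · rw [mul_assoc, huw, ← mul_assoc, mul_assoc u, hxw, ← mul_assoc, huw]
      simp only [mul_assoc]
  have hupu : u * p * u * w = v * star v := by
    rw [← k2, hv, mul_assoc, huw]
    simp only [mul_assoc]
  have hg : 0 ≤ w - p * w - u * p * u * w := by
    rw [hupu, ← hv]
    apply proj_nonneg
    · simp only [star_sub, star_mul, star_star, hws]
    · have h3' : ∀ x, v * (v * x) = 0 := fun x => by rw [← mul_assoc, h3, zero_mul]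
      have h4' : ∀ x, star v * (star v * x) = 0 := fun x => by rw [← mul_assoc, h4, zero_mul]
      have h5 : ∀ x, w * (v * x) = v * x := fun x => by rw [← mul_assoc, hwv]
      have h6 : ∀ x, w * (star v * x) = star v * x := fun x => by rw [← mul_assoc, hwv']
      simp only [mul_sub, sub_mul, mul_assoc, h1, h2, h3', h4', h5, h6, hww, hvw, hvw',
        mul_zero]
      abel
  have hw1 : 0 ≤ 1 - w := by
    apply proj_nonneg
    · rw [star_sub, star_one, hws]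
    · simp only [mul_sub, sub_mul, mul_one, one_mul, hww]
      abel
  have hc1 : ((t : ℂ) • p - a) * w = w * ((t : ℂ) • p - a) := by
    rw [sub_mul, mul_sub, smul_mul_assoc, mul_smul_comm, hpw, haw]
  have hta : 0 ≤ sc H t + a := sc_add_nonneg has ht
  have hc2 : (sc H t + a) * w = w * (sc H t + a) := by
    rw [add_mul, mul_add, sc_comm, haw]
  refine norm_le_of_sc' (by positivity) ?_ ?_ ?_
  · have e1 : u * (a * (u * w)) = w * (u * (a * u)) := by
      rw [huw, ← mul_assoc a, haw, mul_assoc w, ← mul_assoc u, huw, mul_assoc]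
    rw [star_mul, hws]
    simp only [star_add, star_smul, star_mul, hus, has, star_one, RCLike.star_def,
      Complex.conj_ofReal, map_div₀, map_one, map_ofNat, add_mul, mul_add, smul_mul_assoc,
      mul_smul_comm, one_mul, mul_one, haw, e1, mul_assoc]
  · have e1 : sc H (3 / 4 * t) -
        ((1 / 2 : ℂ) • (a + u * a * u) + ((t / 4 : ℝ) : ℂ) • 1) * w =
        ((3 / 4 * t : ℝ) : ℂ) • (1 - w) + ((1 / 2 : ℝ) : ℂ) • (((t : ℂ) • p - a) * w +
          u * ((t : ℂ) • p - a) * u * w + (t : ℂ) • (w - p * w - u * p * u * w)) := by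
      simp only [sc, add_mul, mul_sub, sub_mul, smul_mul_assoc, mul_smul_comm, one_mul]
      push_cast
      module
    rw [e1]
    exact add_nonneg (smul_nonneg' (by positivity) hw1) (smul_nonneg' (by norm_num)
      (add_nonneg (add_nonneg (nonneg_mul_proj hap hws hww hc1) (hcj _ hap hc1))
        (smul_nonneg' ht0 hg)))
  · have e0 : u * u * w = w := by rw [k1, one_mul]
    have e1 : sc H (3 / 4 * t) +
        ((1 / 2 : ℂ) • (a + u * a * u) + ((t / 4 : ℝ) : ℂ) • 1) * w =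
        ((3 / 4 * t : ℝ) : ℂ) • (1 - w) + ((1 / 2 : ℝ) : ℂ) • ((sc H t + a) * w +
          u * (sc H t + a) * u * w) := by
      simp only [sc, add_mul, mul_add, smul_mul_assoc, mul_smul_comm, one_mul, mul_one, e0]
      push_cast
      module
    rw [e1]
    exact add_nonneg (smul_nonneg' (by positivity) hw1) (smul_nonneg' (by norm_num)
      (add_nonneg (nonneg_mul_proj hta hws hww hc2) (hcj _ hta hc2)))

/-- one step of the local averaging argument -/
theorem exists_dix_step (M : VonNeumannAlgebra H) {a : H →L[ℂ] H} (ha : a ∈ M)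
    (has : star a = a) {t : ℝ} (ht : ‖a‖ ≤ t) :
    ∃ w, CP M w ∧ ∃ u₁ ∈ M, ∃ u₂ ∈ M, star u₁ * u₁ = 1 ∧ u₁ * star u₁ = 1 ∧
      star u₂ * u₂ = 1 ∧ u₂ * star u₂ = 1 ∧
      ‖((1 / 2 : ℂ) • (a + u₁ * a * star u₁) + ((t / 4 : ℝ) : ℂ) • 1) * w‖ ≤ 3 / 4 * t ∧
      ‖((1 / 2 : ℂ) • (a + u₂ * a * star u₂) - ((t / 4 : ℝ) : ℂ) • 1) * (1 - w)‖ ≤ 3 / 4 * t := by
  obtain ⟨p, hps, hpp, hpM, hap, hp1, hp2⟩ := exists_spec has
  have hpM' : p ∈ M := hpM M ha
  have hqs : star (1 - p) = 1 - p := by rw [star_sub, star_one, hps]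
  have hqq : (1 - p) * (1 - p) = 1 - p := by
    simp only [mul_sub, sub_mul, mul_one, one_mul, hpp]
    abel
  have hqM : 1 - p ∈ M := sub_mem (one_mem M) hpM'
  obtain ⟨v, hvM, -, hvp, hqv, -, w₀, hw₀, hw1, hw2, -⟩ :=
    exists_cmp M (e := p) (f := 1 - p) ⟨hpM', hps, hpp⟩ ⟨hqM, hqs, hqq⟩
  have hvM' : star v ∈ M := star_mem hvM
  have hw : CP M (1 - w₀) := by
    refine ⟨⟨sub_mem (one_mem M) hw₀.mem, by rw [star_sub, star_one, hw₀.sa], ?_⟩, fun y hy => ?_⟩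
    · simp only [mul_sub, sub_mul, mul_one, one_mul, hw₀.idem]
      abel
    · rw [mul_sub, sub_mul, mul_one, one_mul, hw₀.comm y hy]
  have hpv : p * v = 0 := by
    rw [sub_mul, one_mul] at hqv
    exact sub_eq_self.1 hqv
  have hqv' : (1 - p) * star v = 0 := by
    have := congrArg star hvp
    rw [star_mul, hps] at this
    rw [sub_mul, one_mul, this, sub_self]
  have A1 : 0 ≤ (t : ℂ) • p - a := by
    have e1 : (t : ℂ) • p - a = (sc H t - a) * p + -(a * (1 - p)) := by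
      rw [sub_mul, sc_mul, mul_sub, mul_one]
      abel
    rw [e1]
    refine add_nonneg (nonneg_mul_proj (sc_sub_nonneg has ht) hps hpp ?_) (neg_nonneg.2 hp2)
    rw [sub_mul, mul_sub, sc_comm, hap]
  have A2 : 0 ≤ (t : ℂ) • (1 - p) - -a := by
    have e1 : (t : ℂ) • (1 - p) - -a = (sc H t + a) * (1 - p) + a * p := by
      rw [add_mul, sc_mul, mul_sub, mul_one]
      abel
    rw [e1]
    refine add_nonneg (nonneg_mul_proj (sc_add_nonneg has ht) hqs hqq ?_) hp1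
    rw [add_mul, mul_add, sc_comm, mul_sub a, sub_mul _ p a, hap, mul_one, one_mul]
  obtain ⟨u₁, hu₁, hs₁, hm₁, hn₁⟩ := dix_half (v := v * (1 - w₀)) has ht A1 hpp hw.sa hw.idem
    (hw.comm a ha) (hw.comm p hpM') (by
      have e1 : (p - star v * v) * (1 - w₀) = 0 := by
        rw [mul_sub, mul_one, hw₀.comm _ (sub_mem hpM' (mul_mem hvM' hvM)), hw2, sub_self]
      rw [sub_mul, sub_eq_zero] at e1
      rw [e1, star_mul, hw.sa, mul_assoc, ← mul_assoc (star v), ← mul_assoc,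
        ← hw.comm _ (mul_mem hvM' hvM), mul_assoc, hw.idem])
    (by rw [← mul_assoc, hpv, zero_mul])
    (by rw [← mul_assoc, ← hw.comm v hvM, mul_assoc, hw.idem]) (by rw [mul_assoc, hw.idem])
  obtain ⟨u₂, hu₂, hs₂, hm₂, hn₂⟩ := dix_half (a := -a) (v := star v * w₀)
    (by rw [star_neg, has]) (by rwa [norm_neg]) A2 hqq hw₀.sa hw₀.idem
    (hw₀.comm _ (neg_mem ha)) (hw₀.comm _ hqM) (by
      rw [sub_mul, sub_eq_zero] at hw1
      rw [hw1, star_mul, hw₀.sa, star_star, mul_assoc, ← mul_assoc v, ← mul_assoc,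
        ← hw₀.comm _ (mul_mem hvM hvM'), mul_assoc, hw₀.idem])
    (by rw [← mul_assoc, hqv', zero_mul])
    (by rw [← mul_assoc, ← hw₀.comm _ hvM', mul_assoc, hw₀.idem]) (by rw [mul_assoc, hw₀.idem])
  have hmem : ∀ x ∈ M, 1 - star x * x - x * star x + x + star x ∈ M := fun x hx =>
    add_mem (add_mem (sub_mem (sub_mem (one_mem M) (mul_mem (star_mem hx) hx))
      (mul_mem hx (star_mem hx))) hx) (star_mem hx)
  refine ⟨1 - w₀, hw, u₁, hu₁ ▸ hmem _ (mul_mem hvM hw.mem), u₂,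
    hu₂ ▸ hmem _ (mul_mem hvM' hw₀.mem), by rw [hs₁, hm₁], by rw [hs₁, hm₁], by rw [hs₂, hm₂],
    by rw [hs₂, hm₂], hn₁, ?_⟩
  have e1 : (1 / 2 : ℂ) • (-a + u₂ * -a * star u₂) + ((t / 4 : ℝ) : ℂ) • (1 : H →L[ℂ] H) =
      -((1 / 2 : ℂ) • (a + u₂ * a * star u₂) - ((t / 4 : ℝ) : ℂ) • 1) := by
    rw [mul_neg, neg_mul]
    module
  rw [e1, neg_mul, norm_neg] at hn₂
  rwa [sub_sub_cancel]

/-- limits of tracial states along ultrafilters -/
theorem exists_ultra_lim {A ι : Type*} [CStarAlgebra A] (U : Ultrafilter ι)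
    (σ : ι → (A →ₗ[ℂ] ℂ)) (hσ : ∀ i, IsTrS (σ i)) :
    ∃ τ : A →ₗ[ℂ] ℂ, IsTrS τ ∧ ∀ x, Tendsto (fun i => σ i x) U (𝓝 (τ x)) := by
  have hex : ∀ x : A, ∃ c : ℂ, Tendsto (fun i => σ i x) U (𝓝 c) := by
    intro x
    obtain ⟨c, -, hc⟩ := (isCompact_closedBall (0 : ℂ) ‖x‖).ultrafilter_le_nhds
      (U.map fun i => σ i x) (by
        rw [le_principal_iff, Ultrafilter.coe_map, mem_map]
        exact Eventually.of_forall fun i => mem_closedBall_zero_iff.2 ((hσ i).norm_le x))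
    exact ⟨c, hc⟩
  choose f hf using hex
  let τ : A →ₗ[ℂ] ℂ :=
    { toFun := f
      map_add' := fun x y => tendsto_nhds_unique (hf (x + y))
        (((hf x).add (hf y)).congr fun i => (map_add _ _ _).symm)
      map_smul' := fun c x => tendsto_nhds_unique (hf (c • x))
        (((hf x).const_smul c).congr fun i => (map_smul _ _ _).symm) }
  have hτ : ∀ x, Tendsto (fun i => σ i x) U (𝓝 (τ x)) := hf
  have hre : ∀ x, Tendsto (fun i => (σ i x).re) U (𝓝 (τ x).re) := fun x =>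
    (Complex.continuous_re.tendsto _).comp (hτ x)
  refine ⟨τ, ⟨⟨?_, fun x => ?_, fun x y => ?_, fun x => ?_⟩, fun x => ?_, fun x y => ?_⟩, hτ⟩
  · exact tendsto_nhds_unique (hτ 1) (tendsto_const_nhds.congr fun i => (hσ i).one.symm)
  · exact le_of_tendsto' (hτ x).norm fun i => (hσ i).norm_le x
  · exact tendsto_nhds_unique (hτ _) ((hτ _).congr fun i => (hσ i).comm _ _)
  · exact tendsto_nhds_unique (hτ _) (((Complex.continuous_conj.tendsto _).comp (hτ x)).congr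
      fun i => ((hσ i).star_eq x).symm)
  · exact ge_of_tendsto' (hre _) fun i => (hσ i).nonneg x
  · exact le_of_tendsto_of_tendsto' (hre _) ((hre _).const_mul _) fun i => (hσ i).mul_le x y

/-- central projections of a C*-algebra -/
structure CPA {A : Type*} [CStarAlgebra A] (z : A) : Prop where
  sa : star z = z
  idem : z * z = z
  comm : ∀ y, y * z = z * y

theorem CPA.mul {A : Type*} [CStarAlgebra A] {z w : A} (hz : CPA z) (hw : CPA w) : CPA (z * w) :=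
  ⟨by rw [star_mul, hz.sa, hw.sa, hz.comm],
    by rw [mul_assoc, ← mul_assoc w, hz.comm w, mul_assoc, hw.idem, ← mul_assoc, hz.idem],
    fun y => by rw [← mul_assoc, hz.comm, mul_assoc, hw.comm, mul_assoc]⟩

theorem CPA.compl {A : Type*} [CStarAlgebra A] {w : A} (hw : CPA w) : CPA (1 - w) :=
  ⟨by rw [star_sub, star_one, hw.sa],
    by simp only [mul_sub, sub_mul, mul_one, one_mul, hw.idem]; abel,
    fun y => by rw [mul_sub, sub_mul, mul_one, one_mul, hw.comm]⟩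

theorem CPA.norm_le {A : Type*} [CStarAlgebra A] {w : A} (hw : CPA w) : ‖w‖ ≤ 1 := by
  have h : ‖w‖ * ‖w‖ = ‖w‖ := by rw [← CStarRing.norm_star_mul_self, hw.sa, hw.idem]
  by_contra hc
  push Not at hc
  nlinarith only [h, hc]

theorem avgL_mul_central {A : Type*} [CStarAlgebra A] (l : List A) {w : A}
    (hw : ∀ y, y * w = w * y) (a : A) : avgL l (a * w) = avgL l a * w := by
  induction l generalizing a with
  | nil => rfl
  | cons u l ih =>
    change avgL l _ = avgL l _ * w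
    rw [← ih]
    congr 1
    rw [smul_mul_assoc, add_mul, mul_assoc _ (star u), hw (star u)]
    simp only [mul_assoc]

/-- a maximal multiplicative family of nonzero central projections -/
theorem exists_ultra_family {A : Type*} [CStarAlgebra A] {z₀ : A} (hz : CPA z₀) (hz0 : z₀ ≠ 0) :
    ∃ S : Set A, z₀ ∈ S ∧ (∀ z ∈ S, CPA z ∧ z ≠ 0 ∧ z * z₀ = z) ∧ (∀ a ∈ S, ∀ b ∈ S, a * b ∈ S) ∧
      ∀ w, CPA w → (∃ s ∈ S, w * s = s) ∨ ∃ s ∈ S, (1 - w) * s = s := by
  obtain ⟨S, hS0, hS⟩ := zorn_subset_nonempty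
    {S : Set A | (∀ z ∈ S, CPA z ∧ z ≠ 0 ∧ z * z₀ = z) ∧ ∀ a ∈ S, ∀ b ∈ S, a * b ∈ S}
    (fun c hc hch _ => by
      refine ⟨⋃₀ c, ⟨fun z ⟨s, hs, hz⟩ => (hc hs).1 z hz,
        fun a ⟨s, hs, ha⟩ b ⟨t, ht, hb⟩ => ?_⟩, fun s hs => Set.subset_sUnion_of_mem hs⟩
      rcases hch.total hs ht with h | h
      · exact ⟨t, ht, (hc ht).2 a (h ha) b hb⟩
      · exact ⟨s, hs, (hc hs).2 a ha b (h hb)⟩) {z₀}
    ⟨fun z h => by rw [Set.mem_singleton_iff.1 h]; exact ⟨hz, hz0, hz.idem⟩,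
      fun a ha b hb => by
        rw [Set.mem_singleton_iff.1 ha, Set.mem_singleton_iff.1 hb, hz.idem]; rfl⟩
  have h0 : z₀ ∈ S := hS0 rfl
  obtain ⟨h1, h2⟩ := hS.prop
  refine ⟨S, h0, h1, h2, fun w hw => ?_⟩
  by_cases hc : ∃ s ∈ S, w * s = 0
  · obtain ⟨s, hs, hws⟩ := hc
    exact Or.inr ⟨s, hs, by rw [sub_mul, one_mul, hws, sub_zero]⟩
  · push Not at hc
    have h3 : S ∪ {x | ∃ s ∈ S, x = w * s} ⊆ S := by
      refine hS.le_of_ge ⟨?_, ?_⟩ Set.subset_union_left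
      · rintro z (hz | ⟨s, hs, rfl⟩)
        · exact h1 z hz
        · exact ⟨hw.mul (h1 s hs).1, hc s hs, by rw [mul_assoc, (h1 s hs).2.2]⟩
      · rintro a (ha | ⟨s, hs, rfl⟩) b (hb | ⟨t, ht, rfl⟩)
        · exact Or.inl (h2 a ha b hb)
        · exact Or.inr ⟨a * t, h2 a ha t ht, by rw [← mul_assoc, hw.comm, mul_assoc]⟩
        · exact Or.inr ⟨s * b, h2 s hs b hb, by rw [mul_assoc]⟩
        · exact Or.inr ⟨s * t, h2 s hs t ht, by
            rw [mul_assoc, ← mul_assoc s, hw.comm s, mul_assoc, ← mul_assoc, hw.idem]⟩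
    exact Or.inl ⟨w * z₀, h3 (Or.inr ⟨z₀, h0, rfl⟩), by rw [← mul_assoc, hw.idem]⟩

/-- iteration of the averaging step along a maximal family -/
theorem exists_dix_iter {A : Type*} [CStarAlgebra A]
    (hstep : ∀ a : A, star a = a → ∀ t : ℝ, ‖a‖ ≤ t → ∃ w, CPA w ∧ ∃ u₁ u₂ : A,
      star u₁ * u₁ = 1 ∧ u₁ * star u₁ = 1 ∧ star u₂ * u₂ = 1 ∧ u₂ * star u₂ = 1 ∧
      ‖((1 / 2 : ℂ) • (a + u₁ * a * star u₁) + ((t / 4 : ℝ) : ℂ) • 1) * w‖ ≤ 3 / 4 * t ∧
      ‖((1 / 2 : ℂ) • (a + u₂ * a * star u₂) - ((t / 4 : ℝ) : ℂ) • 1) * (1 - w)‖ ≤ 3 / 4 * t)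
    {S : Set A} (hne : S.Nonempty) (h1 : ∀ z ∈ S, CPA z) (h2 : ∀ a ∈ S, ∀ b ∈ S, a * b ∈ S)
    (h3 : ∀ w, CPA w → (∃ s ∈ S, w * s = s) ∨ ∃ s ∈ S, (1 - w) * s = s) (n : ℕ) :
    ∀ a : A, star a = a → ∀ t : ℝ, ‖a‖ ≤ t → ∃ l : List A,
      (∀ u ∈ l, star u * u = 1 ∧ u * star u = 1) ∧ ∃ c : ℂ, ∃ z ∈ S,
        ‖(avgL l a - c • (1 : A)) * z‖ ≤ (3 / 4) ^ n * t := by
  induction n with
  | zero =>
    intro a _ t ht
    obtain ⟨z, hz⟩ := hne
    refine ⟨[], by simp, 0, z, hz, ?_⟩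
    rw [zero_smul, sub_zero, pow_zero, one_mul]
    calc ‖avgL [] a * z‖ ≤ ‖a‖ * ‖z‖ := norm_mul_le _ _
      _ ≤ t * 1 := by
          gcongr
          · exact (norm_nonneg _).trans ht
          · exact (h1 z hz).norm_le
      _ = t := mul_one t
  | succ n ih =>
    intro a has t ht
    have key : ∀ (w u : A) (r : ℝ), CPA w → (∃ s ∈ S, w * s = s) → star u * u = 1 →
        u * star u = 1 →
        ‖((1 / 2 : ℂ) • (a + u * a * star u) - (r : ℂ) • 1) * w‖ ≤ 3 / 4 * t →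
        ∃ l : List A, (∀ u ∈ l, star u * u = 1 ∧ u * star u = 1) ∧ ∃ c : ℂ, ∃ z ∈ S,
          ‖(avgL l a - c • (1 : A)) * z‖ ≤ (3 / 4) ^ (n + 1) * t := by
      rintro w u r hw ⟨s, hs, hws⟩ hu1 hu2 hn
      obtain ⟨l, hl, c, z, hz, hb⟩ := ih _ (by
        rw [star_mul, hw.sa, ← hw.comm]
        congr 1
        simp only [star_sub, star_add, star_smul, star_mul, star_star, has, star_one,
          RCLike.star_def, Complex.conj_ofReal, map_div₀, map_one, map_ofNat, mul_assoc]) _ hn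
      refine ⟨u :: l, ?_, c + r, z * s, h2 z hz s hs, ?_⟩
      · intro x hx
        rcases List.mem_cons.1 hx with rfl | hx
        · exact ⟨hu1, hu2⟩
        · exact hl x hx
      · rw [avgL_mul_central l hw.comm, avgL_sub,
          avgL_central (z := (r : ℂ) • (1 : A)) (fun x hx => (hl x hx).2)
          (fun x _ => by rw [mul_smul_comm, smul_mul_assoc, mul_one, one_mul])] at hb
        have e1 : (avgL (u :: l) a - (c + r) • (1 : A)) * (z * s) =
            ((avgL l ((1 / 2 : ℂ) • (a + u * a * star u)) - (r : ℂ) • 1) * w - c • 1) * z * s := by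
          have e2 : w * (z * s) = z * s := by rw [← mul_assoc, ← hw.comm, mul_assoc, hws]
          rw [mul_assoc _ z s, sub_mul _ (c • (1 : A)), mul_assoc _ w, e2, ← sub_mul, add_smul]
          congr 1
          change avgL l _ - _ = _
          abel
        rw [e1]
        calc _ ≤ ‖((avgL l ((1 / 2 : ℂ) • (a + u * a * star u)) - (r : ℂ) • 1) * w - c • 1) * z‖ *
              ‖s‖ := norm_mul_le _ _
          _ ≤ ((3 / 4) ^ n * (3 / 4 * t)) * 1 :=
              mul_le_mul hb (h1 s hs).norm_le (norm_nonneg _) ((norm_nonneg _).trans hb)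
          _ = _ := by ring
    obtain ⟨w, hw, u₁, u₂, a1, a2, a3, a4, b1, b2⟩ := hstep a has t ht
    rcases h3 w hw with h | h
    · refine key w u₁ (-(t / 4)) hw h a1 a2 ?_
      rw [Complex.ofReal_neg, neg_smul, sub_neg_eq_add]
      exact b1
    · exact key (1 - w) u₂ (t / 4) hw.compl h a3 a4 b2

theorem exists_fibre_abs {A : Type*} [CStarAlgebra A]
    (hstep : ∀ a : A, star a = a → ∀ t : ℝ, ‖a‖ ≤ t → ∃ w, CPA w ∧ ∃ u₁ u₂ : A,
      star u₁ * u₁ = 1 ∧ u₁ * star u₁ = 1 ∧ star u₂ * u₂ = 1 ∧ u₂ * star u₂ = 1 ∧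
      ‖((1 / 2 : ℂ) • (a + u₁ * a * star u₁) + ((t / 4 : ℝ) : ℂ) • 1) * w‖ ≤ 3 / 4 * t ∧
      ‖((1 / 2 : ℂ) • (a + u₂ * a * star u₂) - ((t / 4 : ℝ) : ℂ) • 1) * (1 - w)‖ ≤ 3 / 4 * t)
    {τ : A →ₗ[ℂ] ℂ} (hτ : IsTrS τ) {z₀ : A} (hz : CPA z₀) (hz0 : z₀ ≠ 0)
    (hpos : ∀ z : A, CPA z → z ≠ 0 → z * z₀ = z → 0 < (τ z).re) :
    ∃ σ : A →ₗ[ℂ] ℂ, IsTrS σ ∧ Dix σ ∧ ∀ (x : A) (r : ℝ), (σ x).re < r →
      ∃ z : A, CPA z ∧ z ≠ 0 ∧ z * z₀ = z ∧ (τ (z * x)).re < r * (τ z).re := by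
  obtain ⟨S, h0, h1, h2, h3⟩ := exists_ultra_family hz hz0
  have : Nonempty S := ⟨⟨z₀, h0⟩⟩
  have hF : (⨅ z : S, 𝓟 {z' : S | z'.1 * z.1 = z'.1}).NeBot := by
    refine iInf_neBot_of_directed' (fun a b => ⟨⟨a.1 * b.1, h2 _ a.2 _ b.2⟩, ?_, ?_⟩) fun z => ?_
    · refine principal_mono.2 fun x hx => ?_
      have hx' : x.1 * (a.1 * b.1) = x.1 := hx
      change x.1 * a.1 = x.1
      rw [← hx', mul_assoc, mul_assoc, (h1 _ a.2).1.comm b.1, ← mul_assoc a.1, (h1 _ a.2).1.idem]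
    · refine principal_mono.2 fun x hx => ?_
      have hx' : x.1 * (a.1 * b.1) = x.1 := hx
      change x.1 * b.1 = x.1
      rw [← hx', mul_assoc, mul_assoc, (h1 _ b.2).1.idem]
    · exact principal_neBot_iff.2 ⟨z, (h1 _ z.2).1.idem⟩
  obtain ⟨U, hU⟩ := Ultrafilter.exists_le (⨅ z : S, 𝓟 {z' : S | z'.1 * z.1 = z'.1})
  have hev : ∀ z : S, ∀ᶠ z' : S in U, z'.1 * z.1 = z'.1 := fun z =>
    le_principal_iff.1 (hU.trans (iInf_le _ z))
  have hp : ∀ z : S, 0 < (τ z.1).re := fun z => hpos _ (h1 _ z.2).1 (h1 _ z.2).2.1 (h1 _ z.2).2.2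
  obtain ⟨σ, hσ⟩ : ∃ σ : S → (A →ₗ[ℂ] ℂ), ∀ z x,
      σ z x = ((((τ z.1).re)⁻¹ : ℝ) : ℂ) * τ (z.1 * x) :=
    ⟨fun z => ((((τ z.1).re)⁻¹ : ℝ) : ℂ) • (τ ∘ₗ LinearMap.mulLeft ℂ z.1), fun z x => rfl⟩
  have hσT : ∀ z, IsTrS (σ z) := by
    intro z
    have hz := (h1 _ z.2).1
    refine isTrS_of_pos _ ?_ (fun x => ?_) fun x y => ?_
    · have e1 : τ z.1 = ((τ z.1).re : ℂ) := by
        have e2 := tr_star_mul_self hτ z.1
        rw [hz.sa, hz.idem] at e2
        rw [e2, Complex.ofReal_re]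
      rw [hσ, mul_one]
      nth_rewrite 2 [e1]
      rw [← Complex.ofReal_mul, inv_mul_cancel₀ (hp z).ne', Complex.ofReal_one]
    · have e1 : z.1 * (star x * x) = star (x * z.1) * (x * z.1) := by
        rw [star_mul, hz.sa, mul_assoc, ← mul_assoc (star x), hz.comm, ← mul_assoc z.1 z.1,
          hz.idem]
      rw [hσ, e1, tr_star_mul_self hτ, ← Complex.ofReal_mul]
      have := hp z
      exact Complex.zero_le_real.2 (by positivity)
    · rw [hσ, hσ, ← mul_assoc, hτ.comm, ← mul_assoc, hz.comm, mul_assoc]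
  obtain ⟨ρ, hρ, hlim⟩ := exists_ultra_lim U σ hσT
  have hre : ∀ x, Tendsto (fun i => (σ i x).re) U (𝓝 (ρ x).re) := fun x =>
    (Complex.continuous_re.tendsto _).comp (hlim x)
  have hn2 : ∀ y : A, ∀ z ∈ S, n2 ρ y ≤ ‖y * z‖ := by
    intro y z hz
    have hz' := (h1 _ hz).1
    apply Real.sqrt_le_iff.2 ⟨norm_nonneg _, ?_⟩
    refine le_of_tendsto (hre _) ((hev ⟨z, hz⟩).mono fun z' hz'' => ?_)
    have e0 : z'.1 * z = z'.1 := hz''
    have e1 : σ z' (star y * y) = σ z' (star (y * z) * (y * z)) := by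
      rw [hσ, hσ, star_mul, hz'.sa, mul_assoc z, ← mul_assoc (star y), hz'.comm,
        ← mul_assoc z z, hz'.idem, ← mul_assoc _ z, e0]
    rw [e1, ← n2_sq (hσT z')]
    gcongr
    · exact n2_nonneg _
    · exact n2_le_norm (hσT z') _
  refine ⟨ρ, hρ, fun a has ε hε => ?_, fun x r hr => ?_⟩
  · obtain ⟨n, hn⟩ := exists_pow_lt_of_lt_one (x := ε / (‖a‖ + 1)) (y := (3 / 4 : ℝ))
      (by positivity) (by norm_num)
    obtain ⟨l, hl, c, z, hz, hb⟩ := exists_dix_iter hstep ⟨z₀, h0⟩ (fun z hz => (h1 z hz).1) h2 h3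
      n a has (‖a‖ + 1) (by linarith)
    refine ⟨l, hl, c, (hn2 _ z hz).trans (hb.trans ?_)⟩
    rw [lt_div_iff₀ (by positivity)] at hn
    exact hn.le
  · obtain ⟨z, hz⟩ := ((hre x).eventually (gt_mem_nhds hr)).exists
    refine ⟨z.1, (h1 _ z.2).1, (h1 _ z.2).2.1, (h1 _ z.2).2.2, ?_⟩
    rw [hσ, Complex.re_ofReal_mul, inv_mul_lt_iff₀ (hp z), mul_comm] at hz
    exact hz

theorem cpa_iff {M : VonNeumannAlgebra H} {z : Alg M} : CPA z ↔ CP M z.1 :=
  ⟨fun h => ⟨⟨z.2, congrArg Subtype.val h.sa, congrArg Subtype.val h.idem⟩,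
      fun y hy => congrArg Subtype.val (h.comm ⟨y, hy⟩)⟩,
    fun h => ⟨Subtype.ext h.sa, Subtype.ext h.idem, fun y => Subtype.ext (h.comm y.1 y.2)⟩⟩

/-- a fibre of the trace over a point of the spectrum of the centre -/
theorem exists_fibre (M : VonNeumannAlgebra H) {τ : Alg M →ₗ[ℂ] ℂ} (hτ : IsTrS τ) {z₀ : Alg M}
    (hz : CP M z₀.1) (hz0 : z₀ ≠ 0)
    (hpos : ∀ z : Alg M, CP M z.1 → z ≠ 0 → z * z₀ = z → 0 < (τ z).re) :
    ∃ σ : Alg M →ₗ[ℂ] ℂ, IsTrS σ ∧ Dix σ ∧ ∀ (x : Alg M) (r : ℝ), (σ x).re < r →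
      ∃ z : Alg M, CP M z.1 ∧ z ≠ 0 ∧ z * z₀ = z ∧ (τ (z * x)).re < r * (τ z).re := by
  obtain ⟨σ, h1, h2, h3⟩ := exists_fibre_abs (A := Alg M) (fun a has t ht => by
    obtain ⟨w, hw, u₁, hu₁, u₂, hu₂, a1, a2, a3, a4, b1, b2⟩ :=
      exists_dix_step M (a := a.1) a.2 (congrArg Subtype.val has) (t := t) ht
    exact ⟨⟨w, hw.mem⟩, cpa_iff.2 hw, ⟨u₁, hu₁⟩, ⟨u₂, hu₂⟩, Subtype.ext a1, Subtype.ext a2,
      Subtype.ext a3, Subtype.ext a4, b1, b2⟩) hτ (cpa_iff.2 hz) hz0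
    (fun z hz' => hpos z (cpa_iff.1 hz'))
  refine ⟨σ, h1, h2, fun x r hr => ?_⟩
  obtain ⟨z, c1, c2, c3, c4⟩ := h3 x r hr
  exact ⟨z, cpa_iff.1 c1, c2, c3, c4⟩

end Vale.Agent.P085Z
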