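import Vale.Agent.P085Z.Local
import Vale.Agent.P085Z.Fibre

set_option autoImplicit false

open scoped InnerProductSpace Topology
open Filter

namespace Vale.Agent.P085Z

open Vale.Agent.P085

variable {H : Type*} [NormedAddCommGroup H] [InnerProductSpace ℂ H] [CompleteSpace H]

/-- the Baire category theorem for a complete pseudo-metric -/
theorem baire_abs {X ι : Type*} [Countable ι] [Nonempty X] (d : X → X → ℝ) (h1 : ∀ x, d x x = 0)
    (h2 : ∀ x y, d x y = d y x) (h3 : ∀ x y z, d x z ≤ d x y + d y z)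
    (hc : ∀ u : ℕ → X, (∀ ε : ℝ, 0 < ε → ∃ N, ∀ m ≥ N, ∀ n ≥ N, d (u m) (u n) < ε) →
      ∃ x, ∀ ε : ℝ, 0 < ε → ∃ N, ∀ n ≥ N, d (u n) x < ε)
    (U : ι → Set X) (ho : ∀ i, ∀ x ∈ U i, ∃ ε : ℝ, 0 < ε ∧ ∀ y, d y x < ε → y ∈ U i)
    (hd : ∀ i x (ε : ℝ), 0 < ε → ∃ y ∈ U i, d x y < ε) : ∃ x, ∀ i, x ∈ U i := by
  let _ : PseudoMetricSpace X :=
    { dist := d
      dist_self := h1
      dist_comm := h2
      dist_triangle := h3 }
  have : CompleteSpace X := Metric.complete_of_cauchySeq_tendsto fun u hu => by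
    obtain ⟨x, hx⟩ := hc u (Metric.cauchySeq_iff.1 hu)
    exact ⟨x, Metric.tendsto_atTop.2 hx⟩
  have h4 : Dense (⋂ i, U i) := dense_iInter_of_isOpen
    (fun i => Metric.isOpen_iff.2 fun x hx => ho i x hx)
    (fun i => Metric.dense_iff.2 fun x ε hε => by
      obtain ⟨y, hy, hxy⟩ := hd i x ε hε
      exact ⟨y, Metric.mem_ball'.2 hxy, hy⟩)
  obtain ⟨x, hx⟩ := h4.nonempty
  exact ⟨x, Set.mem_iInter.1 hx⟩

section abstract

variable {A : Type*} [CStarAlgebra A] {τ : A →ₗ[ℂ] ℂ}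

theorem n2_mul_le_right (hτ : IsTrS τ) (x m : A) : n2 τ (x * m) ≤ ‖m‖ * n2 τ x := by
  rw [← n2_star hτ, star_mul, ← n2_star hτ x, ← norm_star m]
  exact n2_mul_le hτ _ _

theorem norm_proj_le' {z : A} (hs : star z = z) (hz : z * z = z) : ‖z‖ ≤ 1 := by
  have h1 : ‖star z * z‖ = ‖z‖ * ‖z‖ := CStarRing.norm_star_mul_self
  rw [hs, hz] at h1
  nlinarith [norm_nonneg z]

theorem n2_glue_sq (hτ : IsTrS τ) {z : A} (hs : star z = z) (hz : z * z = z) (x y : A) :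
    n2 τ (z * x + (1 - z) * y) ^ 2 ≤ n2 τ (z * x) ^ 2 + n2 τ y ^ 2 := by
  have h0 : z * (1 - z) = 0 := by rw [mul_sub, mul_one, hz, sub_self]
  have h0' : (1 - z) * z = 0 := by rw [sub_mul, one_mul, hz, sub_self]
  have hs' : star (1 - z) = 1 - z := by rw [star_sub, star_one, hs]
  have hz' : (1 - z) * (1 - z) = 1 - z := by rw [mul_sub, mul_one, h0', sub_zero]
  have e : star (z * x + (1 - z) * y) * (z * x + (1 - z) * y) =
      star (z * x) * (z * x) + star ((1 - z) * y) * ((1 - z) * y) := by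
    have e1 : star (z * x) * ((1 - z) * y) = 0 := by
      rw [star_mul, hs, mul_assoc, ← mul_assoc z, h0, zero_mul, mul_zero]
    have e2 : star ((1 - z) * y) * (z * x) = 0 := by
      rw [star_mul, hs', mul_assoc, ← mul_assoc (1 - z), h0', zero_mul, mul_zero]
    rw [star_add, add_mul, mul_add, mul_add, e1, e2, add_zero, zero_add]
  rw [n2_sq hτ, e, map_add, Complex.add_re, ← n2_sq hτ, ← n2_sq hτ]
  have h1 : n2 τ ((1 - z) * y) ≤ n2 τ y := by
    have h2 := n2_mul_le hτ (1 - z) y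
    have h3 := norm_proj_le' hs' hz'
    have h4 := n2_nonneg (τ := τ) y
    nlinarith
  have h2 := n2_nonneg (τ := τ) ((1 - z) * y)
  gcongr

end abstract

theorem norm_glue_le {z x y : H →L[ℂ] H} (hs : star z = z) (hz : z * z = z) (hx : z * x = x * z)
    (hy : z * y = y * z) (hx1 : ‖x‖ ≤ 1) (hy1 : ‖y‖ ≤ 1) : ‖z * x + (1 - z) * y‖ ≤ 1 := by
  apply norm_le_one_of_star_mul_self_le
  have h0 : z * (1 - z) = 0 := by rw [mul_sub, mul_one, hz, sub_self]
  have h0' : (1 - z) * z = 0 := by rw [sub_mul, one_mul, hz, sub_self]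
  have hs' : star (1 - z) = 1 - z := by rw [star_sub, star_one, hs]
  have hz' : (1 - z) * (1 - z) = 1 - z := by rw [mul_sub, mul_one, h0', sub_zero]
  have hy' : (1 - z) * y = y * (1 - z) := by rw [sub_mul, mul_sub, one_mul, mul_one, hy]
  have e1 : star (z * x) * ((1 - z) * y) = 0 := by
    rw [star_mul, hs, mul_assoc, ← mul_assoc z, h0, zero_mul, mul_zero]
  have e2 : star ((1 - z) * y) * (z * x) = 0 := by
    rw [star_mul, hs', mul_assoc, ← mul_assoc (1 - z), h0', zero_mul, mul_zero]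
  have k1 := star_left_conjugate_le_conjugate (star_mul_self_le_one hx1) z
  have k2 := star_left_conjugate_le_conjugate (star_mul_self_le_one hy1) (1 - z)
  rw [mul_one, hs, hz] at k1
  rw [mul_one, hs', hz'] at k2
  have e3 : star (z * x) * (z * x) = z * (star x * x) * z := by
    rw [hx, star_mul, hs]; simp only [mul_assoc]
  have e4 : star ((1 - z) * y) * ((1 - z) * y) = (1 - z) * (star y * y) * (1 - z) := by
    rw [hy', star_mul, hs']; simp only [mul_assoc]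
  rw [star_add, add_mul, mul_add, mul_add, e1, e2, add_zero, zero_add, e3, e4]
  calc z * (star x * x) * z + (1 - z) * (star y * y) * (1 - z) ≤ z + (1 - z) := add_le_add k1 k2
    _ = 1 := by abel

/-- self-adjoint contractions -/
def SC {A : Type*} [CStarAlgebra A] (a : A) : Prop := star a = a ∧ ‖a‖ ≤ 1

theorem CP.alg_comm {M : VonNeumannAlgebra H} {z : Alg M} (hz : CP M z.1) (y : Alg M) :
    y * z = z * y := Subtype.ext (hz.comm y.1 y.2)

theorem CP.alg_sa {M : VonNeumannAlgebra H} {z : Alg M} (hz : CP M z.1) : star z = z :=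
  Subtype.ext hz.sa

theorem CP.alg_idem {M : VonNeumannAlgebra H} {z : Alg M} (hz : CP M z.1) : z * z = z :=
  Subtype.ext hz.idem

theorem SC.glue {M : VonNeumannAlgebra H} {z x y : Alg M} (hz : CP M z.1) (hx : SC x)
    (hy : SC y) : SC (z * x + (1 - z) * y) := by
  constructor
  · rw [star_add, star_mul, star_mul, star_sub, star_one, hz.alg_sa, hx.1, hy.1, hz.alg_comm x,
      mul_sub, sub_mul, mul_one, one_mul, hz.alg_comm y]
  · exact norm_glue_le hz.sa hz.idem (hz.comm x.1 x.2).symm (hz.comm y.1 y.2).symm hx.2 hy.2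

/-- admissible functions of a pair of contractions -/
structure Adm2 (M : VonNeumannAlgebra H) (τ : Alg M →ₗ[ℂ] ℂ) (G : Alg M → Alg M → Alg M) :
    Prop where
  lip : ∃ C : ℝ, 0 ≤ C ∧ ∀ a b a' b' : Alg M, ‖a‖ ≤ 1 → ‖b‖ ≤ 1 → ‖a'‖ ≤ 1 → ‖b'‖ ≤ 1 →
    n2 τ (G a b - G a' b') ≤ C * (n2 τ (a - a') + n2 τ (b - b'))
  mem : ∀ N : VonNeumannAlgebra H, (∀ c ∈ Ctr M, c ∈ N) → ∀ a b : Alg M, a.1 ∈ N → b.1 ∈ N →
    (G a b).1 ∈ N
  loc : ∀ z a b a' b' : Alg M, CP M z.1 → z * a = z * a' → z * b = z * b' →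
    z * G a b = z * G a' b'

theorem adm2_zero (M : VonNeumannAlgebra H) (τ : Alg M →ₗ[ℂ] ℂ) : Adm2 M τ fun _ _ => 0 where
  lip := ⟨0, le_rfl, fun _ _ _ _ _ _ _ _ => by rw [sub_self, n2_zero, zero_mul]⟩
  mem N _ _ _ _ _ := zero_mem N
  loc _ _ _ _ _ _ _ _ := rfl

theorem Adm2.glue {M : VonNeumannAlgebra H} {τ : Alg M →ₗ[ℂ] ℂ} (hτ : IsTrS τ)
    {G : Alg M → Alg M → Alg M} (hG : Adm2 M τ G) {z : Alg M} (hz : CP M z.1)
    (q : FreeAlgebra ℂ Bool) : Adm2 M τ fun a b => z * ev a b q + (1 - z) * G a b where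
  lip := by
    obtain ⟨C, hC0, hC⟩ := hG.lip
    obtain ⟨D, hD0, hD⟩ := ev_lip hτ q
    refine ⟨D + C, add_nonneg hD0 hC0, fun a b a' b' h1 h2 h3 h4 => ?_⟩
    have e : z * ev a b q + (1 - z) * G a b - (z * ev a' b' q + (1 - z) * G a' b') =
        z * (ev a b q - ev a' b' q) + (1 - z) * (G a b - G a' b') := by noncomm_ring
    rw [e]
    have k1 := n2_add_le hτ (z * (ev a b q - ev a' b' q)) ((1 - z) * (G a b - G a' b'))
    have k2 := n2_mul_le hτ z (ev a b q - ev a' b' q)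
    have k3 := n2_mul_le hτ (1 - z) (G a b - G a' b')
    have k4 : ‖z‖ ≤ 1 := hz.toPj.norm_le
    have k5 : ‖1 - z‖ ≤ 1 := hz.toPj.one_sub.norm_le
    have k6 := hC a b a' b' h1 h2 h3 h4
    have k7 := hD a b a' b' h1 h2 h3 h4
    have k8 := n2_nonneg (τ := τ) (ev a b q - ev a' b' q)
    have k9 := n2_nonneg (τ := τ) (G a b - G a' b')
    nlinarith
  mem N hN a b ha hb := by
    have hzN : z.1 ∈ N := hN _ ⟨hz.mem, hz.comm⟩
    have h1 : (ev a b q).1 ∈ N :=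
      ev_mem (subN M N).toSubalgebra (a := a) (b := b) ha hb q
    exact add_mem (mul_mem hzN h1) (mul_mem (sub_mem (one_mem N) hzN) (hG.mem N hN a b ha hb))
  loc w a b a' b' hw h1 h2 := by
    have k1 := ev_local hw.alg_idem hw.alg_comm h1 h2 q
    have k2 := hG.loc w a b a' b' hw h1 h2
    rw [mul_add, mul_add, ← mul_assoc, ← mul_assoc, ← mul_assoc, ← mul_assoc, ← hw.alg_comm z,
      ← hw.alg_comm (1 - z), mul_assoc, mul_assoc, mul_assoc, mul_assoc, k1, k2]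

section ntr

variable {M : VonNeumannAlgebra H} {z : H →L[ℂ] H} {τ : Alg M →ₗ[ℂ] ℂ} {k : ℕ} {η : Fin k → H}
  {C : ℝ}

/-- the vectors spanning the support -/
def Sup (M : VonNeumannAlgebra H) {k : ℕ} (η : Fin k → H) : Set H :=
  {v | ∃ m ∈ M, ∃ m' ∈ M.commutant, ∃ i, v = m (m' (η i))}

theorem NTr.bound (h : NTr M z τ η C) {v : H} (hv : v ∈ Sup M η) :
    ∃ K : ℝ, 0 ≤ K ∧ ∀ x : Alg M, ‖x.1 v‖ ≤ K * n2 τ x := by
  obtain ⟨m, hm, m', hm', i, rfl⟩ := hv
  refine ⟨‖m'‖ * (C * ‖m‖), by have := h.pos; positivity, fun x => ?_⟩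
  have h1 : x.1 (m (m' (η i))) = m' ((x * (⟨m, hm⟩ : Alg M)).1 (η i)) :=
    congrArg (fun T : H →L[ℂ] H => T (η i)) (vn_commutes M (mul_mem x.2 hm) hm')
  rw [h1]
  have h2 := h.ge (x * (⟨m, hm⟩ : Alg M)) i
  have h3 : n2 τ (x * (⟨m, hm⟩ : Alg M)) ≤ ‖m‖ * n2 τ x := n2_mul_le_right h.tr x _
  have h4 := h.pos
  calc ‖m' ((x * (⟨m, hm⟩ : Alg M)).1 (η i))‖ ≤ ‖m'‖ * ‖(x * (⟨m, hm⟩ : Alg M)).1 (η i)‖ :=
        m'.le_opNorm _
    _ ≤ ‖m'‖ * (C * (‖m‖ * n2 τ x)) := by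
        gcongr
        exact h2.trans (by gcongr)
    _ = _ := by ring

/-- the support projection -/
structure IsSup (M : VonNeumannAlgebra H) {k : ℕ} (η : Fin k → H) (s : H →L[ℂ] H) : Prop where
  cp : CP M s
  fix : ∀ v ∈ Sup M η, s v = v
  ann : ∀ x : H →L[ℂ] H, (∀ v ∈ Sup M η, x v = 0) → x * s = 0
  cl : ∀ v : H, s v ∈ closure (Submodule.span ℂ (Sup M η) : Set H)

theorem mem_sup (M : VonNeumannAlgebra H) (η : Fin k → H) (i : Fin k) : η i ∈ Sup M η :=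
  ⟨1, one_mem _, 1, one_mem _, i, rfl⟩

theorem exists_isSup (M : VonNeumannAlgebra H) (η : Fin k → H) : ∃ s, IsSup M η s := by
  obtain ⟨s, hs, hss, h1, h2, h3, h4⟩ := exists_proj (Sup M η)
  have k1 : ∀ y ∈ M, ∀ v ∈ Sup M η, s (y v) = y v := by
    rintro y hy v ⟨m, hm, m', hm', i, rfl⟩
    exact h1 _ ⟨y * m, mul_mem hy hm, m', hm', i, rfl⟩
  have k2 : ∀ y ∈ M.commutant, ∀ v ∈ Sup M η, s (y v) = y v := by
    rintro y hy v ⟨m, hm, m', hm', i, rfl⟩
    refine h1 _ ⟨m, hm, y * m', mul_mem hy hm', i, ?_⟩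
    exact (congrArg (fun T : H →L[ℂ] H => T (m' (η i))) (vn_commutes M hm hy)).symm
  exact ⟨s, ⟨⟨vn_mem_of_commutes M fun y hy => h3 y (k2 y hy) (k2 _ (star_mem hy)), hs, hss⟩,
    fun y hy => h3 y (k1 y hy) (k1 _ (star_mem hy))⟩, h1, h2, h4⟩

theorem IsSup.eq_zero {s : H →L[ℂ] H} (hs : IsSup M η s) {ζ : H}
    (h : ∀ u ∈ Sup M η, ⟪ζ, u⟫_ℂ = 0) : s ζ = 0 := by
  have h1 := hs.ann (InnerProductSpace.rankOne ℂ ζ ζ) fun v hv => by
    rw [InnerProductSpace.rankOne_apply, h v hv, zero_smul]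
  have h2 : ⟪ζ, s ζ⟫_ℂ • ζ = 0 := congrArg (fun T : H →L[ℂ] H => T ζ) h1
  rcases smul_eq_zero.1 h2 with h3 | h3
  · have h4 : s (s ζ) = s ζ := congrArg (fun T : H →L[ℂ] H => T ζ) hs.cp.idem
    rw [← h4, ← inner_star_left, hs.cp.sa] at h3
    exact inner_self_eq_zero.1 h3
  · rw [h3, map_zero]

theorem NTr.faithful (h : NTr M z τ η C) {s : H →L[ℂ] H} (hs : IsSup M η s) {x : Alg M}
    (hx : n2 τ x = 0) : x.1 * s = 0 := by
  refine hs.ann _ fun v hv => ?_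
  obtain ⟨K, -, hK⟩ := h.bound hv
  have := hK x
  rwa [hx, mul_zero, norm_le_zero_iff] at this

/-- subalgebras are closed in the 2-norm -/
theorem NTr.mem_of_approx (h : NTr M z τ η C) {s : H →L[ℂ] H} (hs : IsSup M η s)
    {N : VonNeumannAlgebra H} (hsN : s ∈ N) (y : Alg M)
    (hy : ∀ ε : ℝ, 0 < ε → ∃ w : Alg M, w.1 ∈ N ∧ n2 τ (y - w) ≤ ε) : y.1 * s ∈ N := by
  apply vn_mem_of_commutes
  intro n hn
  have hsn : s * n = n * s := vn_commutes N hsN hn
  have hys : y.1 * s = s * y.1 := hs.cp.comm _ y.2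
  have key : ∀ v ∈ Sup M η, ∀ u ∈ Sup M η, ⟪n (y.1 v) - y.1 (n v), u⟫_ℂ = 0 := by
    intro v hv u hu
    obtain ⟨K₁, hK₁, h1⟩ := h.bound hv
    obtain ⟨K₂, hK₂, h2⟩ := h.bound hu
    rw [← norm_le_zero_iff]
    refine le_of_forall_pos_le_add fun ε hε => ?_
    obtain ⟨L, hL⟩ : ∃ L : ℝ, L = ‖n‖ * K₁ * ‖u‖ + ‖n v‖ * K₂ + 1 := ⟨_, rfl⟩
    have hL0 : 0 < L := by rw [hL]; positivity
    obtain ⟨w, hw, hyw⟩ := hy (ε / L) (by positivity)
    have e1 : n (w.1 v) = w.1 (n v) :=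
      (congrArg (fun T : H →L[ℂ] H => T v) (vn_commutes N hw hn)).symm
    have e2 : n (y.1 v) - y.1 (n v) = n ((y - w).1 v) - (y - w).1 (n v) := by
      change _ = n (y.1 v - w.1 v) - (y.1 (n v) - w.1 (n v))
      rw [map_sub, e1]; abel
    rw [e2, inner_sub_left, ← inner_star_right (y - w).1]
    have k1 := h1 (y - w)
    have k2 := h2 (star (y - w))
    rw [n2_star h.tr] at k2
    have k3 : ‖⟪n ((y - w).1 v), u⟫_ℂ‖ ≤ ‖n‖ * (K₁ * (ε / L)) * ‖u‖ := by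
      refine (norm_inner_le_norm _ _).trans ?_
      gcongr
      refine (n.le_opNorm _).trans ?_
      gcongr
      exact k1.trans (by gcongr)
    have k4 : ‖⟪n v, (star (y - w).1) u⟫_ℂ‖ ≤ ‖n v‖ * (K₂ * (ε / L)) := by
      refine (norm_inner_le_norm _ _).trans ?_
      gcongr
      exact le_trans k2 (by gcongr)
    have k5 := norm_sub_le ⟪n ((y - w).1 v), u⟫_ℂ ⟪n v, (star (y - w).1) u⟫_ℂ
    have k6 : ‖n‖ * (K₁ * (ε / L)) * ‖u‖ + ‖n v‖ * (K₂ * (ε / L)) = (L - 1) * (ε / L) := by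
      rw [hL]; ring
    have k7 : (L - 1) * (ε / L) ≤ ε := by
      rw [sub_mul, mul_div_cancel₀ _ hL0.ne']
      have : 0 ≤ ε / L := by positivity
      linarith
    linarith
  have h3 := hs.ann (s * (n * y.1 - y.1 * n)) fun v hv => hs.eq_zero (key v hv)
  have h4 : s * (n * y.1 - y.1 * n) * s = n * (y.1 * s) - y.1 * s * n := by
    have e1 : s * (n * y.1) * s = n * (y.1 * s) := by
      rw [← mul_assoc, hsn, mul_assoc n, ← hys, mul_assoc n, mul_assoc y.1, hs.cp.idem]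
    have e2 : s * (y.1 * n) * s = y.1 * s * n := by
      rw [← mul_assoc, ← hys, mul_assoc (y.1 * s), ← hsn, ← mul_assoc, mul_assoc y.1 s s,
        hs.cp.idem]
    rw [mul_sub, sub_mul, e1, e2]
  rw [h4, sub_eq_zero] at h3
  exact h3

/-- completeness of the self-adjoint unit ball -/
theorem NTr.complete (h : NTr M z τ η C) {s : H →L[ℂ] H} (hs : IsSup M η s) (x : ℕ → Alg M)
    (hx : ∀ n, SC (x n))
    (hc : ∀ ε : ℝ, 0 < ε → ∃ N, ∀ m ≥ N, ∀ n ≥ N, n2 τ (x m - x n) < ε) :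
    ∃ y : Alg M, SC y ∧ Tendsto (fun n => n2 τ (x n - y)) atTop (𝓝 0) := by
  have h1 : ∀ v ∈ Submodule.span ℂ (Sup M η), CauchySeq fun n => (x n).1 v := by
    intro v hv
    induction hv using Submodule.span_induction with
    | mem v hv =>
      obtain ⟨K, hK0, hK⟩ := h.bound hv
      rw [Metric.cauchySeq_iff]
      intro ε hε
      obtain ⟨N, hN⟩ := hc (ε / (K + 1)) (by positivity)
      refine ⟨N, fun m hm n hn => ?_⟩
      have k1 := hK (x m - x n)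
      have k2 := hN m hm n hn
      rw [lt_div_iff₀ (by positivity)] at k2
      have k3 := n2_nonneg (τ := τ) (x m - x n)
      rw [dist_eq_norm]
      change ‖(x m).1 v - (x n).1 v‖ ≤ _ at k1
      nlinarith
    | zero => simpa only [map_zero] using cauchySeq_const (0 : H)
    | add u v _ _ hu hv => simp only [map_add]; exact hu.add hv
    | smul c v _ hv =>
      simp only [map_smul]; exact (uniformContinuous_const_smul c).comp_cauchySeq hv
  have h2 : ∀ v, CauchySeq fun n => ((x n).1 * s) v := by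
    intro v
    rw [Metric.cauchySeq_iff]
    intro ε hε
    obtain ⟨w, hw, hd⟩ := Metric.mem_closure_iff.1 (hs.cl v) (ε / 3) (by positivity)
    obtain ⟨N, hN⟩ := Metric.cauchySeq_iff.1 (h1 w hw) (ε / 3) (by positivity)
    refine ⟨N, fun m hm n hn => ?_⟩
    have k : ∀ j, dist (((x j).1 * s) v) ((x j).1 w) < ε / 3 := by
      intro j
      rw [dist_eq_norm] at hd ⊢
      change ‖(x j).1 (s v) - (x j).1 w‖ < _
      rw [← map_sub]
      have k1 := (x j).1.le_opNorm (s v - w)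
      have k2 : ‖(x j).1‖ ≤ 1 := (hx j).2
      nlinarith [norm_nonneg (s v - w)]
    have k1 := dist_triangle4 (((x m).1 * s) v) ((x m).1 w) ((x n).1 w) (((x n).1 * s) v)
    have k2 := hN m hm n hn
    have k3 := k m
    have k4 := k n
    rw [dist_comm] at k4
    linarith
  obtain ⟨y, hyM, hy1, hy⟩ := exists_strong_lim M (x := fun n => (x n).1 * s)
    (fun n => mul_mem (x n).2 hs.cp.mem) (C := 1) (fun n => by
      have k1 : ‖(x n).1‖ ≤ 1 := (hx n).2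
      have k2 := hs.cp.toPj.norm_le
      have k3 := norm_mul_le (x n).1 s
      nlinarith [norm_nonneg s]) h2
  refine ⟨⟨y, hyM⟩, ⟨Subtype.ext ?_, hy1⟩, ?_⟩
  · change star y = y
    ext v
    refine ext_inner_left ℂ fun u => ?_
    rw [inner_star_right]
    have k1 := (hy u).inner (𝕜 := ℂ) (tendsto_const_nhds (x := v))
    have k2 := (tendsto_const_nhds (x := u)).inner (𝕜 := ℂ) (hy v)
    refine tendsto_nhds_unique k1 (k2.congr fun n => ?_)
    have k3 : star ((x n).1 * s) = (x n).1 * s := by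
      have k4 : star (x n).1 = (x n).1 := congrArg Subtype.val (hx n).1
      rw [star_mul, hs.cp.sa, k4, hs.cp.comm _ (x n).2]
    rw [← inner_star_left, k3]
  · have k1 : Tendsto (fun n => C * ∑ i, ‖((x n).1 * s) (η i) - y (η i)‖) atTop (𝓝 0) := by
      have k2 : Tendsto (fun n => ∑ i, ‖((x n).1 * s) (η i) - y (η i)‖) atTop (𝓝 (∑ _i : Fin k, 0)) :=
        tendsto_finsetSum _ fun i _ => tendsto_iff_norm_sub_tendsto_zero.1 (hy (η i))
      simpa using k2.const_mul C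
    refine squeeze_zero (fun n => n2_nonneg _) (fun n => ?_) k1
    refine (h.le _).trans (le_of_eq ?_)
    congr 1
    refine Finset.sum_congr rfl fun i _ => ?_
    change ‖(x n).1 (η i) - y (η i)‖ = ‖(x n).1 (s (η i)) - y (η i)‖
    rw [hs.fix _ (mem_sup M η i)]

theorem re_tr_proj (hτ : IsTrS τ) {w : Alg M} (hw : CP M w.1) : (τ w).re = n2 τ w ^ 2 := by
  rw [n2_sq hτ, hw.alg_sa, hw.alg_idem]

/-- local approximation on a central projection -/
def LocAp (M : VonNeumannAlgebra H) (τ : Alg M →ₗ[ℂ] ℂ) (a₀ b₀ y : Alg M) (δ : ℝ)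
    (w : Alg M) : Prop :=
  ∃ (a b : Alg M) (q : FreeAlgebra ℂ Bool), SC a ∧ SC b ∧
    n2 τ (w * (a - a₀)) ^ 2 ≤ δ ^ 2 * (τ w).re ∧ n2 τ (w * (b - b₀)) ^ 2 ≤ δ ^ 2 * (τ w).re ∧
    n2 τ (w * (y - ev a b q)) ^ 2 ≤ δ ^ 2 * (τ w).re

theorem NTr.exists_locAp (h : NTr M z τ η C) {s : H →L[ℂ] H} (hs : IsSup M η s)
    {a₀ b₀ : Alg M} (ha : SC a₀) (hb : SC b₀) (y : Alg M) {δ : ℝ} (hδ : 0 < δ)
    {w : H →L[ℂ] H} (hw : CP M w) (hw0 : w ≠ 0) :
    ∃ w', CP M w' ∧ w' ≠ 0 ∧ w' * w = w' ∧ ∃ hm : w' ∈ M, LocAp M τ a₀ b₀ y δ ⟨w', hm⟩ := by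
  have hτ := h.tr
  by_cases hws : w * s = 0
  · refine ⟨w, hw, hw0, hw.idem, hw.mem, a₀, b₀, 0, ha, hb, ?_⟩
    have k1 : ∀ x : Alg M, n2 τ ((⟨w, hw.mem⟩ : Alg M) * x) ^ 2 ≤
        δ ^ 2 * (τ (⟨w, hw.mem⟩ : Alg M)).re := by
      intro x
      have k2 : n2 τ ((⟨w, hw.mem⟩ : Alg M) * x) = 0 := by
        refine le_antisymm ((h.le _).trans (le_of_eq ?_)) (n2_nonneg _)
        rw [Finset.sum_eq_zero, mul_zero]
        intro i _
        have k3 : w * x.1 * s = 0 := by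
          rw [mul_assoc, hs.cp.comm _ x.2, ← mul_assoc, hws, zero_mul]
        have k4 : (w * x.1) (s (η i)) = 0 := congrArg (fun T : H →L[ℂ] H => T (η i)) k3
        rw [hs.fix _ (mem_sup M η i)] at k4
        exact norm_eq_zero.2 k4
      rw [k2, re_tr_proj hτ (w := ⟨w, hw.mem⟩) hw, sq, mul_zero]
      positivity
    exact ⟨k1 _, k1 _, k1 _⟩
  · have hz1 : CP M (w * s) := hw.mul hs.cp
    obtain ⟨σ, hσ, hD, hloc⟩ := exists_fibre M hτ (z₀ := ⟨w * s, hz1.mem⟩) hz1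
      (fun h0 => hws (congrArg Subtype.val h0)) (by
        intro v hv hv0 hvz
        rw [re_tr_proj hτ hv]
        refine pow_pos (lt_of_le_of_ne (n2_nonneg _) fun h0 => hv0 ?_) 2
        have k1 := h.faithful hs h0.symm
        have k2 : v.1 * (w * s) = v.1 := congrArg Subtype.val hvz
        rw [hs.cp.comm w hw.mem, ← mul_assoc, k1, zero_mul] at k2
        exact Subtype.ext k2.symm)
    obtain ⟨a, b, q, h1, h2, h3, h4, h5, h6, h7⟩ := local_gen hσ hD ha.1 ha.2 hb.1 hb.2 y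
      (show 0 < δ / 2 by positivity)
    obtain ⟨v, hv, hv0, hvz, hlt⟩ := hloc (star (a - a₀) * (a - a₀) + star (b - b₀) * (b - b₀) +
      star (y - ev a b q) * (y - ev a b q)) (δ ^ 2) (by
        rw [map_add, map_add, Complex.add_re, Complex.add_re, ← n2_sq hσ, ← n2_sq hσ,
          ← n2_sq hσ]
        have k1 := n2_nonneg (τ := σ) (a - a₀)
        have k2 := n2_nonneg (τ := σ) (b - b₀)
        have k3 := n2_nonneg (τ := σ) (y - ev a b q)
        nlinarith)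
    have e : ∀ x : Alg M, (τ (v * (star x * x))).re = n2 τ (v * x) ^ 2 := by
      intro x
      rw [n2_sq hτ, star_mul, hv.alg_sa, mul_assoc (star x), ← mul_assoc v v, hv.alg_idem,
        ← mul_assoc (star x), hv.alg_comm (star x), mul_assoc]
    rw [mul_add, mul_add, map_add, map_add, Complex.add_re, Complex.add_re, e, e, e] at hlt
    have k2 : v.1 * (w * s) = v.1 := congrArg Subtype.val hvz
    refine ⟨v.1, hv, fun h0 => hv0 (Subtype.ext h0), ?_, v.2, a, b, q, ⟨h1, h2⟩, ⟨h3, h4⟩, ?_⟩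
    · rw [← k2, mul_assoc, mul_assoc, hw.comm s hs.cp.mem, ← mul_assoc w, hw.idem]
    · have k3 := sq_nonneg (n2 τ (v * (a - a₀)))
      have k4 := sq_nonneg (n2 τ (v * (b - b₀)))
      have k5 := sq_nonneg (n2 τ (v * (y - ev a b q)))
      exact ⟨by linarith, by linarith, by linarith⟩

theorem glue_finite (hτ : IsTrS τ) {a₀ b₀ : Alg M} (ha : SC a₀) (hb : SC b₀) (y : Alg M) {δ : ℝ}
    {S : Set (H →L[ℂ] H)} (hS : ∀ w ∈ S, CP M w ∧ ∃ hm : w ∈ M, LocAp M τ a₀ b₀ y δ ⟨w, hm⟩)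
    (horth : S.Pairwise fun a b => a * b = 0) (F : Finset (H →L[ℂ] H))
    (hF : (F : Set (H →L[ℂ] H)) ⊆ S) :
    ∃ (e a b : Alg M) (G : Alg M → Alg M → Alg M), e.1 = ∑ w ∈ F, w ∧ SC a ∧ SC b ∧ Adm2 M τ G ∧
      n2 τ (a - a₀) ^ 2 ≤ δ ^ 2 * (τ e).re ∧ n2 τ (b - b₀) ^ 2 ≤ δ ^ 2 * (τ e).re ∧
      n2 τ (e * y - G a b) ^ 2 ≤ δ ^ 2 * (τ e).re := by
  classical
  induction F using Finset.induction_on with
  | empty =>
    exact ⟨0, a₀, b₀, fun _ _ => 0, by simp, ha, hb, adm2_zero M τ, by simp [n2_zero],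
      by simp [n2_zero], by simp [n2_zero]⟩
  | insert w F hwF ih =>
    rw [Finset.coe_insert] at hF
    have hwS : w ∈ S := hF (Set.mem_insert _ _)
    have hFS : (F : Set (H →L[ℂ] H)) ⊆ S := (Set.subset_insert _ _).trans hF
    obtain ⟨e, a, b, G, he, ha1, hb1, hG, h1, h2, h3⟩ := ih hFS
    obtain ⟨hw, hm, a', b', q, ha2, hb2, k1, k2, k3⟩ := hS w hwS
    obtain ⟨v, hv⟩ : ∃ v : Alg M, v = ⟨w, hm⟩ := ⟨_, rfl⟩
    rw [← hv] at k1 k2 k3
    have hvw : v.1 = w := by rw [hv]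
    have hvc : CP M v.1 := hvw ▸ hw
    have hve : v * e = 0 := by
      apply Subtype.ext
      change v.1 * e.1 = 0
      rw [he, hvw, Finset.mul_sum]
      exact Finset.sum_eq_zero fun x hx => horth hwS (hFS hx) fun e => hwF (e ▸ hx)
    have hv0 : v * (1 - v) = 0 := by rw [mul_sub, mul_one, hvc.alg_idem, sub_self]
    have hv1 : (1 - v) * v = 0 := by rw [sub_mul, one_mul, hvc.alg_idem, sub_self]
    have hv2 : (1 - v) * (1 - v) = 1 - v := by rw [mul_sub, mul_one, hv1, sub_zero]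
    have l1 : ∀ x x' : Alg M, v * (v * x + (1 - v) * x') = v * x := fun x x' => by
      rw [mul_add, ← mul_assoc, ← mul_assoc, hvc.alg_idem, hv0, zero_mul, add_zero]
    have l2 : ∀ x x' : Alg M, (1 - v) * (v * x + (1 - v) * x') = (1 - v) * x' := fun x x' => by
      rw [mul_add, ← mul_assoc, ← mul_assoc, hv1, hv2, zero_mul, zero_add]
    have l3 : ∀ x x' x₀ : Alg M, v * x + (1 - v) * x' - x₀ = v * (x - x₀) + (1 - v) * (x' - x₀) :=
      fun x x' x₀ => by noncomm_ring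
    refine ⟨v + e, v * a' + (1 - v) * a, v * b' + (1 - v) * b,
      fun a b => v * ev a b q + (1 - v) * G a b, ?_, ha2.glue hvc ha1, hb2.glue hvc hb1,
      hG.glue hτ hvc q, ?_, ?_, ?_⟩
    · rw [Finset.sum_insert hwF, ← he, ← hvw]; rfl
    · rw [l3, map_add, Complex.add_re]
      have := n2_glue_sq hτ hvc.alg_sa hvc.alg_idem (a' - a₀) (a - a₀)
      linarith
    · rw [l3, map_add, Complex.add_re]
      have := n2_glue_sq hτ hvc.alg_sa hvc.alg_idem (b' - b₀) (b - b₀)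
      linarith
    · have m1 := ev_local hvc.alg_idem hvc.alg_comm (l1 a' a) (l1 b' b) q
      have m2 := hG.loc (1 - v) _ _ _ _ hvc.one_sub (l2 a' a) (l2 b' b)
      have m3 : (v + e) * y - (v * ev a' b' q + (1 - v) * G a b) =
          v * (y - ev a' b' q) + (1 - v) * (e * y - G a b) := by
        have m4 : (1 - v) * (e * y) = e * y := by
          rw [sub_mul, one_mul, ← mul_assoc, hve, zero_mul, sub_zero]
        rw [mul_sub (1 - v), m4]
        noncomm_ring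
      simp only
      rw [m1, m2, m3, map_add, Complex.add_re]
      have := n2_glue_sq hτ hvc.alg_sa hvc.alg_idem (y - ev a' b' q) (e * y - G a b)
      linarith

/-- the density step -/
theorem NTr.dense_step (h : NTr M z τ η C) {s : H →L[ℂ] H} (hs : IsSup M η s)
    {a₀ b₀ : Alg M} (ha : SC a₀) (hb : SC b₀) (y : Alg M) {ε : ℝ} (hε : 0 < ε) :
    ∃ (a b : Alg M) (G : Alg M → Alg M → Alg M), SC a ∧ SC b ∧ Adm2 M τ G ∧
      n2 τ (a - a₀) ≤ ε ∧ n2 τ (b - b₀) ≤ ε ∧ n2 τ (y - G a b) ≤ ε := by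
  have hτ := h.tr
  have hC := h.pos
  obtain ⟨S, hS, horth, htot⟩ := exists_total M
    (fun w => ∃ hm : w ∈ M, LocAp M τ a₀ b₀ y (ε / 2) ⟨w, hm⟩) fun w hw hw0 =>
      h.exists_locAp hs ha hb y (by positivity) hw hw0
  obtain ⟨L, hL⟩ : ∃ L : ℝ, L = ‖y‖ * C * k + 1 := ⟨_, rfl⟩
  have hL0 : 0 < L := by rw [hL]; positivity
  have hS' : ∀ w ∈ S, star w = w ∧ w * w = w := fun w hw => ⟨(hS w hw).1.sa, (hS w hw).1.idem⟩
  obtain ⟨F, hF, hFη⟩ := exists_finite_approx S hS' horth htot η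
    (show 0 < ε / 2 / L by positivity)
  obtain ⟨e, a, b, G, he, ha1, hb1, hG, h1, h2, h3⟩ := glue_finite hτ ha hb y hS horth F hF
  have he1 : (τ e).re ≤ 1 := by
    obtain ⟨k1, k2⟩ := sum_proj hS' horth hF
    rw [← he] at k1 k2
    have k3 : ‖e‖ ≤ 1 := norm_proj_le_one k1 k2
    exact (Complex.re_le_norm _).trans ((hτ.norm_le e).trans k3)
  have key : ∀ t : ℝ, t ^ 2 ≤ (ε / 2) ^ 2 * (τ e).re → t ≤ ε / 2 := by
    intro t ht
    refine le_of_sq_le_sq ?_ (by positivity)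
    nlinarith [sq_nonneg (ε / 2)]
  refine ⟨a, b, G, ha1, hb1, hG, (key _ h1).trans (by linarith), (key _ h2).trans (by linarith),
    ?_⟩
  have k1 := n2_triangle hτ y (e * y) (G a b)
  have k2 : y - e * y = (1 - e) * y := by rw [sub_mul, one_mul]
  have k3 := n2_mul_le_right hτ (1 - e) y
  have k4 : n2 τ (1 - e) ≤ C * (k * (ε / 2 / L)) := by
    refine (h.le _).trans ?_
    gcongr
    calc ∑ i, ‖(1 - e).1 (η i)‖ ≤ ∑ _i : Fin k, ε / 2 / L := Finset.sum_le_sum fun i _ => by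
            have k5 := hFη i
            rw [← he] at k5
            exact k5
      _ = k * (ε / 2 / L) := by simp
  have k5 : ‖y‖ * n2 τ (1 - e) ≤ ‖y‖ * (C * (k * (ε / 2 / L))) := by gcongr
  have k6 : ‖y‖ * (C * (k * (ε / 2 / L))) = (L - 1) * (ε / 2 / L) := by rw [hL]; ring
  have k7 : (L - 1) * (ε / 2 / L) ≤ ε / 2 := by
    rw [sub_mul, mul_div_cancel₀ _ hL0.ne']
    have : 0 ≤ ε / 2 / L := by positivity
    linarith
  have k8 := key _ h3
  rw [k2] at k1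
  linarith

end ntr

/-- the support of a normal trace is good -/
theorem good_of_ntr {M : VonNeumannAlgebra H} (hs : WSep M) {z : H →L[ℂ] H} (hz : CP M z)
    {τ : Alg M →ₗ[ℂ] ℂ} {k : ℕ} {η : Fin k → H} {C : ℝ} (h : NTr M z τ η C) :
    ∃ z', CP M z' ∧ z' ≠ 0 ∧ z' * z = z' ∧ Good M z' := by
  have hτ := h.tr
  have hC := h.pos
  obtain ⟨s, hsup⟩ := exists_isSup M η
  obtain ⟨y, hyM, hy⟩ := hs.exists_dense η
  have : Nonempty {p : Alg M × Alg M // SC p.1 ∧ SC p.2} :=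
    ⟨⟨(0, 0), ⟨star_zero _, by simp⟩, ⟨star_zero _, by simp⟩⟩⟩
  obtain ⟨⟨⟨a, b⟩, ha, hb⟩, hab⟩ := baire_abs (X := {p : Alg M × Alg M // SC p.1 ∧ SC p.2})
    (ι := ℕ × ℕ) (fun p q => n2 τ (p.1.1 - q.1.1) + n2 τ (p.1.2 - q.1.2))
    (fun p => by simp [n2_zero])
    (fun p q => by rw [n2_sub_comm p.1.1, n2_sub_comm p.1.2])
    (fun p q r => by
      have k1 := n2_triangle hτ p.1.1 q.1.1 r.1.1
      have k2 := n2_triangle hτ p.1.2 q.1.2 r.1.2
      linarith)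
    (by
      intro u hu
      obtain ⟨a, ha, ha'⟩ := h.complete hsup (fun n => (u n).1.1) (fun n => (u n).2.1) (by
        intro ε hε
        obtain ⟨N, hN⟩ := hu ε hε
        refine ⟨N, fun m hm n hn => ?_⟩
        have k1 := hN m hm n hn
        have k2 := n2_nonneg (τ := τ) ((u m).1.2 - (u n).1.2)
        linarith)
      obtain ⟨b, hb, hb'⟩ := h.complete hsup (fun n => (u n).1.2) (fun n => (u n).2.2) (by
        intro ε hε
        obtain ⟨N, hN⟩ := hu ε hε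
        refine ⟨N, fun m hm n hn => ?_⟩
        have k1 := hN m hm n hn
        have k2 := n2_nonneg (τ := τ) ((u m).1.1 - (u n).1.1)
        linarith)
      refine ⟨⟨(a, b), ha, hb⟩, fun ε hε => ?_⟩
      have k1 := ha'.add hb'
      rw [add_zero] at k1
      exact eventually_atTop.1 (k1.eventually (gt_mem_nhds hε)))
    (fun i => {p | ∃ G, Adm2 M τ G ∧
      n2 τ (⟨y i.1, hyM i.1⟩ - G p.1.1 p.1.2) < 1 / ((i.2 : ℝ) + 1)})
    (by
      rintro i p ⟨G, hG, hp⟩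
      obtain ⟨D, hD0, hD⟩ := hG.lip
      obtain ⟨t, ht⟩ : ∃ t : ℝ, t = 1 / ((i.2 : ℝ) + 1) -
        n2 τ (⟨y i.1, hyM i.1⟩ - G p.1.1 p.1.2) := ⟨_, rfl⟩
      have ht0 : 0 < t := by rw [ht]; linarith
      refine ⟨t / (D + 1), by positivity, fun q hq => ⟨G, hG, ?_⟩⟩
      have k1 := n2_triangle hτ ⟨y i.1, hyM i.1⟩ (G p.1.1 p.1.2) (G q.1.1 q.1.2)
      have k2 := hD q.1.1 q.1.2 p.1.1 p.1.2 q.2.1.2 q.2.2.2 p.2.1.2 p.2.2.2
      rw [n2_sub_comm (G p.1.1 p.1.2)] at k1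
      rw [lt_div_iff₀ (by positivity)] at hq
      have k3 := n2_nonneg (τ := τ) (q.1.1 - p.1.1)
      have k4 := n2_nonneg (τ := τ) (q.1.2 - p.1.2)
      nlinarith)
    (by
      intro i p ε hε
      obtain ⟨a, b, G, ha, hb, hG, h1, h2, h3⟩ := h.dense_step hsup p.2.1 p.2.2 ⟨y i.1, hyM i.1⟩
        (show 0 < min (ε / 3) (1 / ((i.2 : ℝ) + 1) / 2) by positivity)
      have k1 := min_le_left (ε / 3) (1 / ((i.2 : ℝ) + 1) / 2)
      have k2 := min_le_right (ε / 3) (1 / ((i.2 : ℝ) + 1) / 2)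
      have k3 : 0 < 1 / ((i.2 : ℝ) + 1) := by positivity
      refine ⟨⟨(a, b), ha, hb⟩, ⟨G, hG, by simp only; linarith⟩, ?_⟩
      simp only
      rw [n2_sub_comm p.1.1, n2_sub_comm p.1.2]
      linarith)
  refine ⟨s, hsup.cp, fun h0 => ?_, ?_, {a.1}, b.1, ?_, ?_, b.2, congrArg Subtype.val hb.1, hb.2,
    fun N hN haN hbN x hx => ?_⟩
  · have k1 := h.le 1
    rw [n2_one hτ, Finset.sum_eq_zero, mul_zero] at k1
    · linarith
    · intro i _
      have k2 := hsup.fix _ (mem_sup M η i)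
      rw [h0] at k2
      rw [← k2]
      simp
  · have k1 := hsup.ann (1 - z) (by
      rintro v ⟨m, hm, m', hm', i, rfl⟩
      have k2 : z * (m * m') = m * m' * z := by
        rw [← mul_assoc, ← hz.comm m hm, mul_assoc, vn_commutes M hz.mem hm', mul_assoc]
      have k3 : z (m (m' (η i))) = m (m' (z (η i))) := congrArg (fun T : H →L[ℂ] H => T (η i)) k2
      rw [sub_apply, one_apply_eq_self, k3, h.supp, sub_self])
    rw [sub_mul, one_mul, sub_eq_zero] at k1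
    rw [hz.comm s hsup.cp.mem, ← k1]
  · rintro x rfl
    exact ⟨a.2, congrArg Subtype.val ha.1⟩
  · rintro x rfl y rfl
    rfl
  · refine h.mem_of_approx hsup (hN _ ⟨hsup.cp.mem, hsup.cp.comm⟩) ⟨x, hx⟩ fun ε hε => ?_
    obtain ⟨n, hn⟩ := hy x hx (ε / 2 / C) (by positivity)
    obtain ⟨m, hm⟩ := exists_nat_one_div_lt (show 0 < ε / 2 by positivity)
    obtain ⟨G, hG, hGa⟩ := hab (n, m)
    refine ⟨G a b, hG.mem N hN a b (haN _ rfl) hbN, ?_⟩
    have k1 := n2_triangle hτ ⟨x, hx⟩ ⟨y n, hyM n⟩ (G a b)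
    have k2 : n2 τ (⟨x, hx⟩ - ⟨y n, hyM n⟩ : Alg M) ≤ C * (ε / 2 / C) := by
      refine (h.le _).trans ?_
      gcongr
      exact hn
    rw [mul_div_cancel₀ _ hC.ne'] at k2
    simp only at hGa
    linarith

end Vale.Agent.P085Z
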