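import Vale.Agent.P085Z.Defs

set_option autoImplicit false

open scoped InnerProductSpace Topology
open Filter

namespace Vale.Agent.P085Z

open Vale.Agent.P085

variable {H : Type*} [NormedAddCommGroup H] [InnerProductSpace ℂ H] [CompleteSpace H]

/-- maximal pairwise related families -/
theorem exists_max_pairwise {α : Type*} (T : Set α) (R : α → α → Prop)
    (hR : ∀ x y, R x y → R y x) {S₀ : Set α} (h0 : S₀ ⊆ T) (h0R : S₀.Pairwise R) :
    ∃ S : Set α, S₀ ⊆ S ∧ S ⊆ T ∧ S.Pairwise R ∧ ∀ x ∈ T, (∀ y ∈ S, R x y) → x ∈ S := by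
  obtain ⟨m, hm0, hm⟩ := zorn_subset_nonempty {S : Set α | S ⊆ T ∧ S.Pairwise R} (by
    intro c hc hchain _
    refine ⟨⋃₀ c, ⟨?_, ?_⟩, fun s hs => Set.subset_sUnion_of_mem hs⟩
    · rintro x ⟨s, hs, hx⟩
      exact (hc hs).1 hx
    · rintro x ⟨s, hs, hx⟩ y ⟨t, ht, hy⟩ hxy
      rcases hchain.total hs ht with h | h
      · exact (hc ht).2 (h hx) hy hxy
      · exact (hc hs).2 hx (h hy) hxy) S₀ ⟨h0, h0R⟩
  refine ⟨m, hm0, hm.1.1, hm.1.2, fun x hx hxR => ?_⟩
  have h1 : insert x m ∈ {S : Set α | S ⊆ T ∧ S.Pairwise R} := by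
    refine ⟨Set.insert_subset hx hm.1.1, ?_⟩
    exact hm.1.2.insert fun y hy _ => ⟨hxR y hy, hR _ _ (hxR y hy)⟩
  exact hm.2 h1 (Set.subset_insert x m) (Set.mem_insert x m)

/-- the projection onto the closed linear span of a set of vectors -/
theorem exists_proj (S : Set H) : ∃ p : H →L[ℂ] H, star p = p ∧ p * p = p ∧ (∀ v ∈ S, p v = v) ∧
    (∀ x : H →L[ℂ] H, (∀ v ∈ S, x v = 0) → x * p = 0) ∧
    (∀ y : H →L[ℂ] H, (∀ v ∈ S, p (y v) = y v) → (∀ v ∈ S, p ((star y) v) = (star y) v) →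
      y * p = p * y) ∧
    ∀ v : H, p v ∈ closure (Submodule.span ℂ S : Set H) := by
  set K : Submodule ℂ H := (Submodule.span ℂ S).topologicalClosure with hK
  have : CompleteSpace K := (Submodule.isClosed_topologicalClosure _).completeSpace_coe
  have hproj : IsStarProjection K.starProjection := isStarProjection_starProjection
  have hs : star K.starProjection = K.starProjection := hproj.isSelfAdjoint
  have h4 : ∀ x : H →L[ℂ] H, (∀ v ∈ S, x v = 0) → x * K.starProjection = 0 := by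
    intro x hx
    ext v
    change x (K.starProjection v) = 0
    have hmem : K.starProjection v ∈ K := Submodule.starProjection_apply_mem _ _
    have hclosed : IsClosed {ζ | x ζ = 0} := isClosed_eq x.continuous continuous_const
    have hsub : (Submodule.span ℂ S : Set H) ⊆ {ζ | x ζ = 0} := by
      intro ζ hζ
      have h1 : Submodule.span ℂ S ≤ LinearMap.ker (x : H →ₗ[ℂ] H) :=
        Submodule.span_le.2 fun v hv => hx v hv
      exact h1 hζ
    exact hclosed.closure_subset_iff.2 hsub hmem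
  refine ⟨K.starProjection, hs, hproj.isIdempotentElem, ?_, h4, ?_, ?_⟩
  · intro v hv
    rw [Submodule.starProjection_eq_self_iff]
    exact Submodule.le_topologicalClosure _ (Submodule.subset_span hv)
  · intro y h1 h2
    have k1 := h4 (y - K.starProjection * y) fun v hv => by
      change y v - K.starProjection (y v) = 0
      rw [h1 v hv, sub_self]
    have k2 := h4 (star y - K.starProjection * star y) fun v hv => by
      change (star y) v - K.starProjection ((star y) v) = 0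
      rw [h2 v hv, sub_self]
    have k3 := congrArg star k2
    rw [star_mul, hs, star_sub, star_mul, star_star, hs, star_zero, mul_sub, sub_eq_zero] at k3
    rw [sub_mul, sub_eq_zero] at k1
    rw [k1, mul_assoc, ← k3]
  · intro v
    exact Submodule.starProjection_apply_mem K v

/-- the spectral projection of a self-adjoint operator for the positive half line -/
theorem exists_spec {a : H →L[ℂ] H} (ha : star a = a) : ∃ p : H →L[ℂ] H, star p = p ∧
    p * p = p ∧ (∀ N : VonNeumannAlgebra H, a ∈ N → p ∈ N) ∧ a * p = p * a ∧ 0 ≤ a * p ∧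
    a * (1 - p) ≤ 0 := by
  have hsa : IsSelfAdjoint a := ha
  have hmem : a⁺ ∈ genVN ({a} : Set (H →L[ℂ] H)) := by
    intro y hy
    have h1 : Commute a y := (hy a rfl).1.symm
    rw [CFC.posPart_def]
    exact (Commute.cfcₙ_real h1 _).symm
  obtain ⟨q, hq, hqs, hqq, hqT, hqS⟩ := exists_range_proj _ hmem
  have h1 : a⁻ * q = 0 := hqS _ (CFC.negPart_mul_posPart a)
  have hps : star a⁺ = a⁺ := (IsSelfAdjoint.of_nonneg (CFC.posPart_nonneg a)).star_eq
  have h2 : a⁺ * q = a⁺ := by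
    have := congrArg star hqT
    rwa [star_mul, hqs, hps] at this
  have h3 : a⁺ - a⁻ = a := CFC.posPart_sub_negPart a hsa
  have h4 : a * q = a⁺ := by
    nth_rw 1 [← h3]
    rw [sub_mul, h1, h2, sub_zero]
  refine ⟨q, hqs, hqq, fun N hN => genVN_le (by rintro x rfl; exact hN) hq, ?_, ?_, ?_⟩
  · have := congrArg star h4
    rw [star_mul, hqs, ha, hps] at this
    rw [h4, this]
  · rw [h4]; exact CFC.posPart_nonneg a
  · rw [mul_sub, mul_one, h4]
    have h5 : a - a⁺ = -a⁻ := by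
      nth_rw 1 [← h3]
      abel
    rw [h5]
    exact neg_nonpos.2 (CFC.negPart_nonneg a)

theorem binary_step {a : H →L[ℂ] H} (h0 : 0 ≤ a) (h1 : a ≤ 1) :
    ∃ p : H →L[ℂ] H, star p = p ∧ p * p = p ∧ (∀ N : VonNeumannAlgebra H, a ∈ N → p ∈ N) ∧
      0 ≤ (2 : ℂ) • a - p ∧ (2 : ℂ) • a - p ≤ 1 := by
  have has : star a = a := (IsSelfAdjoint.of_nonneg h0).star_eq
  have hcs : star ((2 : ℂ) • a - 1) = (2 : ℂ) • a - 1 := by
    rw [star_sub, star_smul, has, star_one]; simp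
  obtain ⟨p, hps, hpp, hpN, hc, hc0, hc1⟩ := exists_spec hcs
  have hap : a * p = p * a := by
    rw [sub_mul, mul_sub, one_mul, mul_one, smul_mul_assoc, mul_smul_comm, sub_left_inj] at hc
    exact smul_right_injective _ (two_ne_zero) hc
  refine ⟨p, hps, hpp, fun N hN => hpN N (sub_mem (vn_smul_mem N _ hN) (one_mem N)), ?_, ?_⟩
  · have k1 : 0 ≤ a * (1 - p) := H551.nonneg_mul_proj h0 (by rw [star_sub, star_one, hps])
      (by rw [mul_sub, mul_one, sub_mul, one_mul, hpp, sub_self, sub_zero])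
      (by rw [mul_sub, sub_mul, mul_one, one_mul, hap])
    have e : (2 : ℂ) • a - p = ((2 : ℂ) • a - 1) * p + (a * (1 - p) + a * (1 - p)) := by
      rw [two_smul]; noncomm_ring
    rw [e]
    exact add_nonneg hc0 (add_nonneg k1 k1)
  · have k1 : 0 ≤ (1 - a) * p := H551.nonneg_mul_proj (sub_nonneg.2 h1) hps hpp
      (by rw [mul_sub, sub_mul, mul_one, one_mul, hap])
    rw [← sub_nonneg]
    have e : 1 - ((2 : ℂ) • a - p) =
        -(((2 : ℂ) • a - 1) * (1 - p)) + ((1 - a) * p + (1 - a) * p) := by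
      rw [two_smul]; noncomm_ring
    rw [e]
    exact add_nonneg (neg_nonneg.2 hc1) (add_nonneg k1 k1)

theorem norm_le_one_of_le {a : H →L[ℂ] H} (h0 : 0 ≤ a) (h1 : a ≤ 1) : ‖a‖ ≤ 1 :=
  (CStarAlgebra.norm_le_one_iff_of_nonneg a h0).2 h1

theorem proj_nonneg {p : H →L[ℂ] H} (hs : star p = p) (hp : p * p = p) : 0 ≤ p := by
  have := star_mul_self_nonneg p
  rwa [hs, hp] at this

theorem norm_proj_le_one {p : H →L[ℂ] H} (hs : star p = p) (hp : p * p = p) : ‖p‖ ≤ 1 := by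
  have h1 : ‖star p * p‖ = ‖p‖ * ‖p‖ := CStarRing.norm_star_mul_self
  rw [hs, hp] at h1
  nlinarith [norm_nonneg p]

/-- binary expansion of a positive contraction -/
theorem exists_binary {a : H →L[ℂ] H} (h0 : 0 ≤ a) (h1 : a ≤ 1) :
    ∃ p : ℕ → (H →L[ℂ] H), (∀ n, star (p n) = p n ∧ p n * p n = p n ∧
      (∀ N : VonNeumannAlgebra H, a ∈ N → p n ∈ N) ∧ p n ≤ ((2 : ℂ) ^ (n + 1)) • a) ∧
      HasSum (fun n => ((1 / 2 : ℂ) ^ (n + 1)) • p n) a := by
  choose! f hf using fun (b : H →L[ℂ] H) (hb : 0 ≤ b ∧ b ≤ 1) => binary_step hb.1 hb.2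
  obtain ⟨r, hr0, hrs⟩ : ∃ r : ℕ → (H →L[ℂ] H), r 0 = a ∧
      ∀ n, r (n + 1) = (2 : ℂ) • r n - f (r n) :=
    ⟨fun n => Nat.rec a (fun _ b => (2 : ℂ) • b - f b) n, rfl, fun _ => rfl⟩
  have hb : ∀ n, 0 ≤ r n ∧ r n ≤ 1 := by
    intro n
    induction n with
    | zero => rw [hr0]; exact ⟨h0, h1⟩
    | succ n ih => rw [hrs]; exact (hf _ ih).2.2.2
  have hN : ∀ N : VonNeumannAlgebra H, a ∈ N → ∀ n, r n ∈ N := by
    intro N ha n
    induction n with
    | zero => rw [hr0]; exact ha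
    | succ n ih => rw [hrs]; exact sub_mem (vn_smul_mem N _ ih) ((hf _ (hb n)).2.2.1 N ih)
  have hle : ∀ n, r n ≤ ((2 : ℂ) ^ n) • a := by
    intro n
    induction n with
    | zero => rw [hr0, pow_zero, one_smul]
    | succ n ih =>
      rw [hrs]
      have k1 : 0 ≤ f (r n) := proj_nonneg (hf _ (hb n)).1 (hf _ (hb n)).2.1
      calc (2 : ℂ) • r n - f (r n) ≤ (2 : ℂ) • r n := sub_le_self _ k1
        _ = r n + r n := two_smul _ _
        _ ≤ ((2 : ℂ) ^ n) • a + ((2 : ℂ) ^ n) • a := add_le_add ih ih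
        _ = ((2 : ℂ) ^ (n + 1)) • a := by rw [← add_smul, pow_succ]; congr 1; ring
  have hsum : ∀ n, ∑ k ∈ Finset.range n, ((1 / 2 : ℂ) ^ (k + 1)) • f (r k) =
      a - ((1 / 2 : ℂ) ^ n) • r n := by
    intro n
    induction n with
    | zero => simp [hr0]
    | succ n ih =>
      rw [Finset.sum_range_succ, ih, hrs, smul_sub, smul_smul]
      have e : (1 / 2 : ℂ) ^ (n + 1) * 2 = (1 / 2 : ℂ) ^ n := by rw [pow_succ]; ring
      rw [e]; abel
  refine ⟨fun n => f (r n), fun n => ⟨(hf _ (hb n)).1, (hf _ (hb n)).2.1,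
    fun N ha => (hf _ (hb n)).2.2.1 N (hN N ha n), ?_⟩, ?_⟩
  · have k1 := (hf _ (hb n)).2.2.2.1
    calc f (r n) ≤ (2 : ℂ) • r n := sub_nonneg.1 k1
      _ = r n + r n := two_smul _ _
      _ ≤ ((2 : ℂ) ^ n) • a + ((2 : ℂ) ^ n) • a := add_le_add (hle n) (hle n)
      _ = ((2 : ℂ) ^ (n + 1)) • a := by rw [← add_smul, pow_succ]; congr 1; ring
  · have hhalf : ‖(1 / 2 : ℂ)‖ = 1 / 2 := by simp
    have hs : Summable fun n => ‖((1 / 2 : ℂ) ^ (n + 1)) • f (r n)‖ := by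
      refine Summable.of_nonneg_of_le (fun n => norm_nonneg _) (fun n => ?_)
        summable_geometric_two
      rw [norm_smul, norm_pow, hhalf]
      have k1 := norm_proj_le_one (hf _ (hb n)).1 (hf _ (hb n)).2.1
      calc (1 / 2 : ℝ) ^ (n + 1) * ‖f (r n)‖ ≤ (1 / 2 : ℝ) ^ (n + 1) * 1 := by gcongr
        _ ≤ (1 / 2 : ℝ) ^ n := by rw [mul_one, pow_succ]; nlinarith [pow_pos (by norm_num : (0 : ℝ) < 1 / 2) n]
    rw [hasSum_iff_tendsto_nat_of_summable_norm hs]
    simp only [hsum]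
    have k2 : Tendsto (fun n => ((1 / 2 : ℂ) ^ n) • r n) atTop (𝓝 0) := by
      rw [tendsto_zero_iff_norm_tendsto_zero]
      refine squeeze_zero (fun n => norm_nonneg _) (fun n => ?_)
        (tendsto_pow_atTop_nhds_zero_of_lt_one (r := (1 / 2 : ℝ)) (by norm_num) (by norm_num))
      rw [norm_smul, norm_pow, hhalf]
      have k1 := norm_le_one_of_le (hb n).1 (hb n).2
      calc (1 / 2 : ℝ) ^ n * ‖r n‖ ≤ (1 / 2 : ℝ) ^ n * 1 := by gcongr
        _ = _ := mul_one _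
    simpa using (tendsto_const_nhds (x := a)).sub k2

/-- a self-adjoint operator lies in the closed span of the projections of the von Neumann algebra
it generates -/
theorem mem_of_proj_mem (V : Submodule ℂ (H →L[ℂ] H)) (hV : IsClosed (V : Set (H →L[ℂ] H)))
    {a : H →L[ℂ] H} (ha : star a = a)
    (h : ∀ p : H →L[ℂ] H, star p = p → p * p = p →
      (∀ N : VonNeumannAlgebra H, a ∈ N → p ∈ N) → p ∈ V) : a ∈ V := by
  obtain ⟨t, ht⟩ : ∃ t : ℝ, t = ‖a‖ + 1 := ⟨_, rfl⟩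
  have ht0 : 0 < t := by rw [ht]; positivity
  have hat : ‖a‖ ≤ t := by rw [ht]; linarith
  have k1 : 0 ≤ H551.sc H t + a := H551.sc_add_nonneg ha hat
  have k2 : 0 ≤ H551.sc H t - a := H551.sc_sub_nonneg ha hat
  obtain ⟨b, hb⟩ : ∃ b : H →L[ℂ] H, b = (((2 * t)⁻¹ : ℝ) : ℂ) • (H551.sc H t + a) := ⟨_, rfl⟩
  have htc : (t : ℂ) ≠ 0 := by exact_mod_cast ht0.ne'
  have hb0 : 0 ≤ b := hb ▸ smul_nonneg' (by positivity) k1
  have hb1 : b ≤ 1 := by
    rw [← sub_nonneg]
    have e : 1 - b = (((2 * t)⁻¹ : ℝ) : ℂ) • (H551.sc H t - a) := by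
      rw [hb, H551.sc]
      push_cast
      have e1 : (1 : H →L[ℂ] H) = ((2 * (t : ℂ))⁻¹ * (2 * t)) • (1 : H →L[ℂ] H) := by
        rw [inv_mul_cancel₀ (by simpa using htc), one_smul]
      nth_rw 1 [e1]
      module
    rw [e]
    exact smul_nonneg' (by positivity) k2
  obtain ⟨p, hp, hsum⟩ := exists_binary hb0 hb1
  have hbN : ∀ N : VonNeumannAlgebra H, a ∈ N → b ∈ N := fun N hN =>
    hb ▸ vn_smul_mem N _ (add_mem (H551.sc_mem N t) hN)
  have hpV : ∀ n, p n ∈ V := fun n =>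
    h _ (hp n).1 (hp n).2.1 fun N hN => (hp n).2.2.1 N (hbN N hN)
  have hbV : b ∈ V := by
    refine hV.mem_of_tendsto hsum.tendsto_sum_nat (Eventually.of_forall fun n => ?_)
    exact V.sum_mem fun k _ => V.smul_mem _ (hpV k)
  have h1V : (1 : H →L[ℂ] H) ∈ V := h 1 (star_one _) (one_mul _) fun N _ => one_mem N
  have e : a = (2 * (t : ℂ)) • b - (t : ℂ) • (1 : H →L[ℂ] H) := by
    rw [hb, H551.sc, smul_smul]
    push_cast
    rw [mul_inv_cancel₀ (by simpa using htc), one_smul]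
    abel
  rw [e]
  exact V.sub_mem (V.smul_mem _ hbV) (V.smul_mem _ h1V)

theorem inner_star_left (y : H →L[ℂ] H) (a b : H) : ⟪(star y) a, b⟫_ℂ = ⟪a, y b⟫_ℂ := by
  rw [ContinuousLinearMap.star_eq_adjoint, ContinuousLinearMap.adjoint_inner_left]

theorem inner_star_right (y : H →L[ℂ] H) (a b : H) : ⟪a, (star y) b⟫_ℂ = ⟪y a, b⟫_ℂ := by
  rw [ContinuousLinearMap.star_eq_adjoint, ContinuousLinearMap.adjoint_inner_right]

/-- von Neumann algebras are closed under weak limits -/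
theorem mem_of_wlim (N : VonNeumannAlgebra H) {ι : Type*} {l : Filter ι} [l.NeBot]
    {y : ι → (H →L[ℂ] H)} (hy : ∀ k, y k ∈ N) {x : H →L[ℂ] H}
    (h : ∀ a b : H, Tendsto (fun k => ⟪a, y k b⟫_ℂ) l (𝓝 ⟪a, x b⟫_ℂ)) : x ∈ N := by
  apply vn_mem_of_commutes
  intro m hm
  ext v
  refine ext_inner_left ℂ fun u => ?_
  change ⟪u, m (x v)⟫_ℂ = ⟪u, x (m v)⟫_ℂ
  have h1 := h ((star m) u) v
  have h2 := h u (m v)
  rw [inner_star_left] at h1
  refine tendsto_nhds_unique h1 (h2.congr fun k => ?_)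
  rw [inner_star_left]
  have h3 := congrArg (fun A : H →L[ℂ] H => A v) (vn_commutes N (hy k) hm)
  exact congrArg _ h3

/-- strong limits -/
theorem exists_strong_lim (M : VonNeumannAlgebra H) {x : ℕ → (H →L[ℂ] H)} (hx : ∀ n, x n ∈ M)
    {C : ℝ} (hC : ∀ n, ‖x n‖ ≤ C) (hc : ∀ v, CauchySeq fun n => x n v) :
    ∃ y ∈ M, ‖y‖ ≤ C ∧ ∀ v, Tendsto (fun n => x n v) atTop (𝓝 (y v)) := by
  choose g hg using fun v => cauchySeq_tendsto_of_complete (hc v)
  have hC0 : 0 ≤ C := (norm_nonneg _).trans (hC 0)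
  let L : H →ₗ[ℂ] H :=
    { toFun := g
      map_add' := fun u v => by
        refine tendsto_nhds_unique (hg (u + v)) ?_
        simpa only [map_add] using (hg u).add (hg v)
      map_smul' := fun c v => by
        refine tendsto_nhds_unique (hg (c • v)) ?_
        simpa only [map_smul, RingHom.id_apply] using (hg v).const_smul c }
  have hL : ∀ v, ‖L v‖ ≤ C * ‖v‖ := by
    intro v
    refine le_of_tendsto' (hg v).norm fun n => ?_
    exact ((x n).le_opNorm v).trans (by gcongr; exact hC n)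
  refine ⟨L.mkContinuous C hL, ?_, L.mkContinuous_norm_le hC0 hL, hg⟩
  refine mem_of_wlim M (l := atTop) hx fun a b => ?_
  exact (tendsto_const_nhds (x := a)).inner (hg b)

theorem Pj.one_sub {M : VonNeumannAlgebra H} {p : H →L[ℂ] H} (hp : Pj M p) : Pj M (1 - p) where
  mem := sub_mem (one_mem M) hp.mem
  sa := by rw [star_sub, star_one, hp.sa]
  idem := by rw [mul_sub, mul_one, sub_mul, one_mul, hp.idem, sub_self, sub_zero]

theorem CP.one_sub {M : VonNeumannAlgebra H} {p : H →L[ℂ] H} (hp : CP M p) : CP M (1 - p) where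
  toPj := hp.toPj.one_sub
  comm y hy := by rw [mul_sub, sub_mul, mul_one, one_mul, hp.comm y hy]

theorem CP.mul {M : VonNeumannAlgebra H} {p q : H →L[ℂ] H} (hp : CP M p) (hq : CP M q) :
    CP M (p * q) where
  mem := mul_mem hp.mem hq.mem
  sa := by rw [star_mul, hp.sa, hq.sa, hp.comm q hq.mem]
  idem := by
    rw [mul_assoc, ← mul_assoc q, hp.comm q hq.mem, mul_assoc, hq.idem, ← mul_assoc, hp.idem]
  comm y hy := by rw [← mul_assoc, hp.comm y hy, mul_assoc, hq.comm y hy, mul_assoc]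

theorem cp_one (M : VonNeumannAlgebra H) : CP M 1 where
  mem := one_mem M
  sa := star_one _
  idem := one_mul _
  comm y _ := by rw [mul_one, one_mul]

theorem cp_zero (M : VonNeumannAlgebra H) : CP M 0 where
  mem := zero_mem M
  sa := star_zero _
  idem := zero_mul _
  comm y _ := by rw [mul_zero, zero_mul]

theorem Pj.norm_le {M : VonNeumannAlgebra H} {p : H →L[ℂ] H} (hp : Pj M p) : ‖p‖ ≤ 1 :=
  norm_proj_le_one hp.sa hp.idem

/-- the comparison theorem -/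
theorem exists_cmp (M : VonNeumannAlgebra H) {e f : H →L[ℂ] H} (he : Pj M e) (hf : Pj M f) :
    ∃ v ∈ M, v * (star v * v) = v ∧ v * e = v ∧ f * v = v ∧
      (∀ m ∈ M, (f - v * star v) * m * (e - star v * v) = 0) ∧
      ∃ w, CP M w ∧ (f - v * star v) * w = 0 ∧ w * (e - star v * v) = e - star v * v ∧
        ∀ z, CP M z → z * e = e → z * w = w := by
  obtain ⟨v, hv, hvv, hvd, hfv, hmax⟩ := exists_maximal M f (1 - e) 0
    ⟨0, zero_mem M, by simp, by simp, by simp⟩ (by simp)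
  have hve : v * e = v := by
    rw [mul_sub, mul_one, sub_eq_zero] at hvd
    exact hvd.symm
  have hev : e * star v = star v := by
    have := congrArg star hve
    rwa [star_mul, he.sa] at this
  have hvf : star v * f = star v := by
    have := congrArg star hfv
    rwa [star_mul, hf.sa] at this
  have hvv' : star v * v * star v = star v := by
    have := congrArg star hvv
    rwa [star_mul, star_mul, star_star] at this
  have hE : e - star v * v ∈ M := sub_mem he.mem (mul_mem (star_mem hv) hv)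
  have hF : f - v * star v ∈ M := sub_mem hf.mem (mul_mem hv (star_mem hv))
  have key : ∀ m ∈ M, (f - v * star v) * m * (e - star v * v) = 0 := by
    intro m hm
    refine hmax _ (mul_mem (mul_mem hF hm) hE) ?_ ?_ ?_ ?_
    · rw [← mul_assoc, ← mul_assoc, mul_sub (star v), hvf, ← mul_assoc, hvv', sub_self, zero_mul,
        zero_mul]
    · rw [mul_assoc, sub_mul e, hev, hvv', sub_self, mul_zero]
    · rw [mul_assoc, mul_sub (e - star v * v), mul_one, sub_mul e, he.idem, mul_assoc (star v), hve,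
        sub_self, mul_zero]
    · rw [← mul_assoc, ← mul_assoc, mul_sub f, hf.idem, ← mul_assoc, hfv]
  obtain ⟨w, hwM, hww, hws, hwc, hwP, hwa⟩ := exists_central_support M _ hE
  refine ⟨v, hv, hvv, hve, hfv, key, w, ⟨⟨hwM, hws, hww⟩, hwc⟩, hwa _ key, hwP, ?_⟩
  intro z hz hze
  have h1 := hwa (1 - z) fun x hx => by
    have h2 : z * (e - star v * v) = e - star v * v := by
      rw [mul_sub, hze]
      nth_rw 1 [← hev]
      rw [← mul_assoc, ← mul_assoc, hze, hev]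
    rw [← (hz.one_sub).comm x hx, mul_assoc, sub_mul, one_mul, h2, sub_self, mul_zero]
  rw [sub_mul, one_mul, sub_eq_zero] at h1
  exact h1.symm

/-- weakly dense sequences -/
theorem WSep.exists_seq {M : VonNeumannAlgebra H} (hs : WSep M) (T : Set (H →L[ℂ] H))
    (hT : ∀ t ∈ T, t ∈ M ∧ ‖t‖ ≤ 1) (hne : T.Nonempty) :
    ∃ t : ℕ → (H →L[ℂ] H), (∀ n, t n ∈ T) ∧ ∀ x ∈ T, ∃ φ : ℕ → ℕ, ∀ a b : H,
      Tendsto (fun k => ⟪a, t (φ k) b⟫_ℂ) atTop (𝓝 ⟪a, x b⟫_ℂ) := by
  obtain ⟨ξ, η, h⟩ := hs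
  let Φ : (H →L[ℂ] H) → (ℕ → ℂ) := fun x n => ⟪ξ n, x (η n)⟫_ℂ
  obtain ⟨c, hcT, hcc, hcd⟩ :=
    (TopologicalSpace.IsSeparable.of_separableSpace (Φ '' T)).exists_countable_dense_subset
  obtain ⟨x0, hx0⟩ := hne
  have hcne : c.Nonempty := by
    by_contra h1
    rw [Set.not_nonempty_iff_eq_empty] at h1
    have := hcd ⟨x0, hx0, rfl⟩
    rw [h1, closure_empty] at this
    exact this
  obtain ⟨g, hg⟩ := hcc.exists_eq_range hcne
  have h1 : ∀ n, ∃ t ∈ T, Φ t = g n := fun n => hcT (by rw [hg]; exact ⟨n, rfl⟩)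
  choose t htT htg using h1
  refine ⟨t, htT, fun x hx => ?_⟩
  obtain ⟨s, hs1, hs2⟩ := mem_closure_iff_seq_limit.1 (hcd ⟨x, hx, rfl⟩)
  have h2 : ∀ k, ∃ n, g n = s k := fun k => by
    have := hs1 k
    rw [hg] at this
    exact this
  choose φ hφ using h2
  refine ⟨φ, fun a b => ?_⟩
  rw [Metric.tendsto_atTop]
  intro ε hε
  obtain ⟨n, hn⟩ := h a b (ε / 4) (by positivity)
  have h3 := tendsto_pi_nhds.1 hs2 n
  obtain ⟨K, hK⟩ := Metric.tendsto_atTop.1 h3 (ε / 4) (by positivity)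
  refine ⟨K, fun k hk => ?_⟩
  have h4 := hK k hk
  rw [← hφ, ← htg, dist_eq_norm] at h4
  have h5 := hn _ (hT _ (htT (φ k))).1
  have h6 := hn _ (hT _ hx).1
  have h7 := (hT _ (htT (φ k))).2
  have h8 := (hT _ hx).2
  rw [dist_eq_norm]
  have e : ⟪a, t (φ k) b⟫_ℂ - ⟪a, x b⟫_ℂ = (⟪a, t (φ k) b⟫_ℂ - ⟪ξ n, t (φ k) (η n)⟫_ℂ) +
      (Φ (t (φ k)) n - Φ x n) - (⟪a, x b⟫_ℂ - ⟪ξ n, x (η n)⟫_ℂ) := by
    simp only [Φ]; ring
  rw [e]
  have h9 := norm_sub_le ((⟪a, t (φ k) b⟫_ℂ - ⟪ξ n, t (φ k) (η n)⟫_ℂ) +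
      (Φ (t (φ k)) n - Φ x n)) (⟪a, x b⟫_ℂ - ⟪ξ n, x (η n)⟫_ℂ)
  have h10 := norm_add_le (⟪a, t (φ k) b⟫_ℂ - ⟪ξ n, t (φ k) (η n)⟫_ℂ) (Φ (t (φ k)) n - Φ x n)
  have h11 : ε / 4 * ‖t (φ k)‖ ≤ ε / 4 * 1 := by gcongr
  have h12 : ε / 4 * ‖x‖ ≤ ε / 4 * 1 := by gcongr
  linarith

/-- families with orthogonal ranges are countable -/
theorem WSep.countable {M : VonNeumannAlgebra H} (hs : WSep M) (S : Set (H →L[ℂ] H))
    (hS : ∀ v ∈ S, v ∈ M ∧ ‖v‖ ≤ 1) (h : S.Pairwise fun v w => star v * w = 0) :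
    S.Countable := by
  rcases S.eq_empty_or_nonempty with h0 | hne
  · rw [h0]; exact Set.countable_empty
  obtain ⟨t, htS, ht⟩ := hs.exists_seq S hS hne
  refine ((Set.countable_range t).insert 0).mono fun v hv => ?_
  by_contra hcon
  rw [Set.mem_insert_iff, not_or] at hcon
  obtain ⟨φ, hφ⟩ := ht v hv
  apply hcon.1
  ext c
  have h1 := hφ (v c) c
  have h2 : (fun k => ⟪v c, t (φ k) c⟫_ℂ) = fun _ => 0 := by
    funext k
    have h3 : star v * t (φ k) = 0 := h hv (htS _) fun e => hcon.2 ⟨φ k, e.symm⟩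
    rw [← inner_star_right]
    have h4 : (star v) (t (φ k) c) = 0 := congrArg (fun A : H →L[ℂ] H => A c) h3
    rw [h4, inner_zero_right]
  rw [h2] at h1
  have h5 := tendsto_nhds_unique h1 tendsto_const_nhds
  exact inner_self_eq_zero.1 h5

theorem WSep.isSeparable_orbit {M : VonNeumannAlgebra H} (hs : WSep M) (v : H) :
    TopologicalSpace.IsSeparable {w : H | ∃ x ∈ M, w = x v} := by
  obtain ⟨t, htS, ht⟩ := hs.exists_seq {x | x ∈ M ∧ ‖x‖ ≤ 1} (fun _ h => h)
    ⟨0, zero_mem M, by simp⟩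
  obtain ⟨p, hps, hpp, hp1, -, -, hp2⟩ := exists_proj (Set.range fun n => t n v)
  have h1 : TopologicalSpace.IsSeparable
      (closure (Submodule.span ℂ (Set.range fun n => t n v) : Set H)) :=
    ((Set.countable_range _).isSeparable.span (R := ℂ)).closure
  refine h1.mono ?_
  rintro w ⟨x, hx, rfl⟩
  have h2 : ∀ y ∈ M, ‖y‖ ≤ 1 → p (y v) = y v := by
    intro y hy hy1
    obtain ⟨φ, hφ⟩ := ht y ⟨hy, hy1⟩
    refine ext_inner_left ℂ fun a => ?_
    have h3 := hφ ((star p) a) v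
    have h4 := hφ a v
    rw [inner_star_left] at h3
    refine tendsto_nhds_unique h3 (h4.congr fun k => ?_)
    rw [inner_star_left, hp1 _ ⟨φ k, rfl⟩]
  obtain ⟨c, hc⟩ : ∃ c : ℝ, c = ‖x‖ + 1 := ⟨_, rfl⟩
  have hc0 : 0 < c := by rw [hc]; positivity
  have hcc : (c : ℂ) ≠ 0 := by exact_mod_cast hc0.ne'
  have h3 := h2 ((c : ℂ)⁻¹ • x) (vn_smul_mem M _ hx) (by
    rw [norm_smul, norm_inv, Complex.norm_real, Real.norm_of_nonneg hc0.le,
      inv_mul_le_iff₀ hc0, hc]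
    linarith)
  rw [smul_apply, map_smul] at h3
  have h4 : p (x v) = x v := smul_right_injective _ (inv_ne_zero hcc) h3
  rw [← h4]
  exact hp2 _

/-- separability in the seminorm given by finitely many vectors -/
theorem WSep.exists_dense {M : VonNeumannAlgebra H} (hs : WSep M) {k : ℕ} (η : Fin k → H) :
    ∃ y : ℕ → (H →L[ℂ] H), (∀ n, y n ∈ M) ∧ ∀ x ∈ M, ∀ ε : ℝ, 0 < ε →
      ∃ n, ∑ i, ‖(x - y n) (η i)‖ ≤ ε := by
  let Φ : (H →L[ℂ] H) → (Fin k → H) := fun x i => x (η i)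
  have h1 : TopologicalSpace.IsSeparable (Φ '' (M : Set (H →L[ℂ] H))) := by
    have h2 := TopologicalSpace.IsSeparable.univ_pi (ι := Fin k) (X := fun _ => H)
      (s := fun i => {w : H | ∃ x ∈ M, w = x (η i)}) fun i => hs.isSeparable_orbit (η i)
    refine h2.mono ?_
    rintro w ⟨x, hx, rfl⟩ i -
    exact ⟨x, hx, rfl⟩
  obtain ⟨c, hcT, hcc, hcd⟩ := h1.exists_countable_dense_subset
  have hcne : c.Nonempty := by
    by_contra h1
    rw [Set.not_nonempty_iff_eq_empty] at h1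
    have := hcd ⟨0, zero_mem M, rfl⟩
    rw [h1, closure_empty] at this
    exact this
  obtain ⟨g, hg⟩ := hcc.exists_eq_range hcne
  have h2 : ∀ n, ∃ t ∈ M, Φ t = g n := fun n => hcT (by rw [hg]; exact ⟨n, rfl⟩)
  choose y hyM hyg using h2
  refine ⟨y, hyM, fun x hx ε hε => ?_⟩
  obtain ⟨b, hb, hb2⟩ := Metric.mem_closure_iff.1 (hcd ⟨x, hx, rfl⟩) (ε / (k + 1))
    (by positivity)
  rw [hg] at hb
  obtain ⟨n, rfl⟩ := hb
  refine ⟨n, ?_⟩
  have h3 : ∀ i, ‖(x - y n) (η i)‖ ≤ ε / (k + 1) := by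
    intro i
    have h4 := dist_le_pi_dist (Φ x) (g n) i
    rw [← hyg, dist_eq_norm] at h4
    rw [← hyg] at hb2
    exact h4.trans hb2.le
  calc ∑ i, ‖(x - y n) (η i)‖ ≤ ∑ _i : Fin k, ε / (k + 1) := Finset.sum_le_sum fun i _ => h3 i
    _ = k * (ε / (k + 1)) := by simp
    _ ≤ ε := by
      rw [← mul_div_assoc, div_le_iff₀ (by positivity)]
      nlinarith

theorem WSep.mono {M Q : VonNeumannAlgebra H} (hs : WSep M) (h : Q ≤ M) : WSep Q := by
  obtain ⟨ξ, η, h1⟩ := hs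
  refine ⟨ξ, η, fun a b ε hε => ?_⟩
  obtain ⟨n, hn⟩ := h1 a b ε hε
  exact ⟨n, fun x hx => hn x (h hx)⟩

/-- exhaustion by central projections -/
theorem exists_total (M : VonNeumannAlgebra H) (P : (H →L[ℂ] H) → Prop)
    (h : ∀ z, CP M z → z ≠ 0 → ∃ z', CP M z' ∧ z' ≠ 0 ∧ z' * z = z' ∧ P z') :
    ∃ S : Set (H →L[ℂ] H), (∀ z ∈ S, CP M z ∧ P z) ∧ (S.Pairwise fun a b => a * b = 0) ∧
      ∀ v : H, (∀ z ∈ S, z v = 0) → v = 0 := by
  obtain ⟨S, -, hST, hSR, hmax⟩ := exists_max_pairwise {z | CP M z ∧ P z}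
    (fun a b => a * b = 0 ∧ b * a = 0) (fun _ _ h => h.symm) (Set.empty_subset _)
    (Set.pairwise_empty _)
  obtain ⟨e, hes, hee, he1, he2, he3, -⟩ := exists_proj {v : H | ∃ z ∈ S, z v = v}
  have hcomm : ∀ y : H →L[ℂ] H, (∀ z ∈ S, y * z = z * y) → y * e = e * y := by
    intro y hy
    refine he3 y ?_ ?_
    · rintro v ⟨z, hz, hv⟩
      refine he1 _ ⟨z, hz, ?_⟩
      have h1 : z (y v) = y (z v) := (congrArg (fun A : H →L[ℂ] H => A v) (hy z hz)).symm
      rw [h1, hv]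
    · rintro v ⟨z, hz, hv⟩
      refine he1 _ ⟨z, hz, ?_⟩
      have h0 := congrArg star (hy z hz)
      rw [star_mul, star_mul, (hST hz).1.sa] at h0
      have h1 : z ((star y) v) = (star y) (z v) := congrArg (fun A : H →L[ℂ] H => A v) h0
      rw [h1, hv]
  have heC : CP M e := by
    refine ⟨⟨vn_mem_of_commutes M fun y hy => hcomm y fun z hz => ?_, hes, hee⟩,
      fun y hy => hcomm y fun z hz => (hST hz).1.comm y hy⟩
    exact (vn_commutes M (hST hz).1.mem hy).symm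
  have hez : ∀ z ∈ S, e * z = z := by
    intro z hz
    ext v
    refine he1 _ ⟨z, hz, ?_⟩
    exact congrArg (fun A : H →L[ℂ] H => A v) (hST hz).1.idem
  have h1e : 1 - e = 0 := by
    by_contra h0
    obtain ⟨z', hz', hz0, hz1, hzP⟩ := h _ heC.one_sub h0
    have h2 : z' * e = 0 := by
      rw [mul_sub, mul_one, sub_eq_self] at hz1
      exact hz1
    have h3 : z' ∈ S := hmax z' ⟨hz', hzP⟩ fun y hy => by
      have h4 : z' * y = 0 := by rw [← hez y hy, ← mul_assoc, h2, zero_mul]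
      exact ⟨h4, by rw [hz'.comm y (hST hy).1.mem, h4]⟩
    apply hz0
    rw [← hez z' h3, hz'.comm e heC.mem, h2]
  refine ⟨S, fun z hz => hST hz, fun a ha b hb hab => (hSR ha hb hab).1, fun v hv => ?_⟩
  have h5 := he2 (InnerProductSpace.rankOne ℂ v v) (by
    rintro w ⟨z, hz, hw⟩
    rw [InnerProductSpace.rankOne_apply, ← hw, ← inner_star_left, (hST hz).1.sa, hv z hz,
      inner_zero_left, zero_smul])
  rw [sub_eq_zero] at h1e
  rw [← h1e, mul_one] at h5
  have h6 := congrArg (fun A : H →L[ℂ] H => A v) h5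
  simp only [InnerProductSpace.rankOne_apply, zero_apply, smul_eq_zero,
    inner_self_eq_zero, or_self] at h6
  exact h6

theorem sum_proj_mul {S : Set (H →L[ℂ] H)} (hS : ∀ z ∈ S, star z = z ∧ z * z = z)
    (horth : S.Pairwise fun a b => a * b = 0) {F : Finset (H →L[ℂ] H)}
    (hF : (F : Set (H →L[ℂ] H)) ⊆ S) {z : H →L[ℂ] H} (hz : z ∈ F) :
    (∑ w ∈ F, w) * z = z ∧ z * (∑ w ∈ F, w) = z := by
  constructor
  · rw [Finset.sum_mul, Finset.sum_eq_single z (fun b hb hbz => horth (hF hb) (hF hz) hbz)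
      (fun h => absurd hz h), (hS z (hF hz)).2]
  · rw [Finset.mul_sum, Finset.sum_eq_single z (fun b hb hbz => horth (hF hz) (hF hb) hbz.symm)
      (fun h => absurd hz h), (hS z (hF hz)).2]

theorem sum_proj {S : Set (H →L[ℂ] H)} (hS : ∀ z ∈ S, star z = z ∧ z * z = z)
    (horth : S.Pairwise fun a b => a * b = 0) {F : Finset (H →L[ℂ] H)}
    (hF : (F : Set (H →L[ℂ] H)) ⊆ S) :
    star (∑ w ∈ F, w) = ∑ w ∈ F, w ∧ (∑ w ∈ F, w) * (∑ w ∈ F, w) = ∑ w ∈ F, w := by
  constructor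
  · rw [star_sum]
    exact Finset.sum_congr rfl fun z hz => (hS z (hF hz)).1
  · rw [Finset.mul_sum]
    exact Finset.sum_congr rfl fun z hz => (sum_proj_mul hS horth hF hz).1

/-- finite subfamilies of a total orthogonal family of projections -/
theorem exists_finite_approx (S : Set (H →L[ℂ] H)) (hS : ∀ z ∈ S, star z = z ∧ z * z = z)
    (horth : S.Pairwise fun a b => a * b = 0) (htot : ∀ v : H, (∀ z ∈ S, z v = 0) → v = 0)
    {k : ℕ} (η : Fin k → H) {ε : ℝ} (hε : 0 < ε) :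
    ∃ F : Finset (H →L[ℂ] H), (F : Set (H →L[ℂ] H)) ⊆ S ∧
      ∀ i, ‖η i - (∑ z ∈ F, z) (η i)‖ ≤ ε := by
  classical
  obtain ⟨e, hes, hee, he1, -, -, he4⟩ := exists_proj {v : H | ∃ z ∈ S, z v = v}
  have hev : ∀ v, e v = v := by
    intro v
    rw [← sub_eq_zero]
    refine htot _ fun z hz => ?_
    have hez : e * z = z := by
      ext v
      refine he1 _ ⟨z, hz, ?_⟩
      exact congrArg (fun A : H →L[ℂ] H => A v) (hS z hz).2
    have h1 := congrArg star hez
    rw [star_mul, hes, (hS z hz).1] at h1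
    have h2 : z (e v) = z v := congrArg (fun A : H →L[ℂ] H => A v) h1
    rw [map_sub, h2, sub_self]
  have hspan : ∀ w ∈ Submodule.span ℂ {v : H | ∃ z ∈ S, z v = v},
      ∃ F : Finset (H →L[ℂ] H), (F : Set (H →L[ℂ] H)) ⊆ S ∧ ∀ G : Finset (H →L[ℂ] H), F ⊆ G →
        (G : Set (H →L[ℂ] H)) ⊆ S → (∑ z ∈ G, z) w = w := by
    intro w hw
    induction hw using Submodule.span_induction with
    | mem x hx =>
      obtain ⟨z, hz, hx⟩ := hx
      refine ⟨{z}, by simpa using hz, fun G hG hGS => ?_⟩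
      have h1 := (sum_proj_mul hS horth hGS (hG (Finset.mem_singleton_self z))).1
      have h2 : (∑ z ∈ G, z) (z x) = z x := congrArg (fun A : H →L[ℂ] H => A x) h1
      rwa [hx] at h2
    | zero => exact ⟨∅, by simp, fun G _ _ => map_zero _⟩
    | add x y _ _ hx hy =>
      obtain ⟨F₁, h1, h2⟩ := hx
      obtain ⟨F₂, h3, h4⟩ := hy
      refine ⟨F₁ ∪ F₂, by rw [Finset.coe_union]; exact Set.union_subset h1 h3, fun G hG hGS => ?_⟩
      rw [map_add, h2 G (Finset.subset_union_left.trans hG) hGS,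
        h4 G (Finset.subset_union_right.trans hG) hGS]
    | smul a x _ hx =>
      obtain ⟨F₁, h1, h2⟩ := hx
      exact ⟨F₁, h1, fun G hG hGS => by rw [map_smul, h2 G hG hGS]⟩
  have h1 : ∀ i, ∃ w : H, ‖η i - w‖ ≤ ε ∧
      ∃ F : Finset (H →L[ℂ] H), (F : Set (H →L[ℂ] H)) ⊆ S ∧ ∀ G : Finset (H →L[ℂ] H), F ⊆ G →
        (G : Set (H →L[ℂ] H)) ⊆ S → (∑ z ∈ G, z) w = w := by
    intro i
    have h2 := he4 (η i)
    rw [hev] at h2
    obtain ⟨w, hw, hd⟩ := Metric.mem_closure_iff.1 h2 ε hε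
    rw [dist_eq_norm] at hd
    exact ⟨w, hd.le, hspan w hw⟩
  choose w hw F hF hFw using h1
  have hU : ((Finset.univ.biUnion F : Finset (H →L[ℂ] H)) : Set (H →L[ℂ] H)) ⊆ S := by
    intro z hz
    rw [Finset.mem_coe, Finset.mem_biUnion] at hz
    obtain ⟨i, -, hi⟩ := hz
    exact hF i hi
  refine ⟨Finset.univ.biUnion F, hU, fun i => ?_⟩
  obtain ⟨P, hP⟩ : ∃ P, P = ∑ z ∈ Finset.univ.biUnion F, z := ⟨_, rfl⟩
  have h2 : P (w i) = w i :=
    hP ▸ hFw i _ (Finset.subset_biUnion_of_mem F (Finset.mem_univ i)) hU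
  obtain ⟨h3, h4⟩ := sum_proj hS horth hU
  rw [← hP] at h3 h4 ⊢
  have h5 : ‖1 - P‖ ≤ 1 := norm_proj_le_one (by rw [star_sub, star_one, h3])
    (by rw [mul_sub, mul_one, sub_mul, one_mul, h4, sub_self, sub_zero])
  have e : η i - P (η i) = (1 - P) (η i - w i) := by
    rw [sub_apply, one_apply_eq_self, map_sub, h2]
    abel
  rw [e]
  calc ‖(1 - P) (η i - w i)‖ ≤ ‖1 - P‖ * ‖η i - w i‖ := ContinuousLinearMap.le_opNorm _ _
    _ ≤ 1 * ε := by gcongr; exact hw i
    _ = ε := one_mul _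

theorem NoInf.isFiniteVN {M : VonNeumannAlgebra H} (h : NoInf M) : IsFiniteVN M := by
  intro v hv hv1
  have hr : Pj M (1 - v * star v) := by
    refine Pj.one_sub ⟨mul_mem hv (star_mem hv), by rw [star_mul, star_star], ?_⟩
    rw [mul_assoc, ← mul_assoc (star v), hv1, one_mul]
  have hrv : (1 - v * star v) * v = 0 := by
    rw [sub_mul, one_mul, mul_assoc, hv1, mul_one, sub_self]
  have hpow : ∀ i, star (v ^ i) * v ^ i = 1 := by
    intro i
    induction i with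
    | zero => simp
    | succ i ih =>
      rw [pow_succ, star_mul, mul_assoc, ← mul_assoc (star (v ^ i)), ih, one_mul, hv1]
  have hlt : ∀ i j, i < j →
      star (v ^ i * (1 - v * star v)) * (v ^ j * (1 - v * star v)) = 0 := by
    intro i j hij
    obtain ⟨d, rfl⟩ := Nat.exists_eq_add_of_lt hij
    rw [star_mul, hr.sa, add_assoc, pow_add, mul_assoc, mul_assoc, ← mul_assoc (star (v ^ i)),
      hpow, one_mul, pow_succ', mul_assoc, ← mul_assoc, hrv, zero_mul]
  have h0 := h _ hr ⟨fun i => v ^ i * (1 - v * star v),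
    fun i => mul_mem (pow_mem hv i) hr.mem, fun i => ?_, fun i j hij => ?_⟩
  · rw [sub_eq_zero] at h0
    exact h0.symm
  · rw [star_mul, hr.sa, mul_assoc, ← mul_assoc (star (v ^ i)), hpow, one_mul, hr.idem]
  · rcases lt_or_gt_of_ne hij with h1 | h1
    · exact hlt i j h1
    · have h2 := congrArg star (hlt j i h1)
      rwa [star_mul, star_star, star_zero] at h2

end Vale.Agent.P085Z
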