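import Vale.Agent.P085Z.Basic

set_option autoImplicit false

open scoped InnerProductSpace Topology
open Filter

namespace Vale.Agent.P085Z

open Vale.Agent.P085

variable {H : Type*} [NormedAddCommGroup H] [InnerProductSpace ℂ H] [CompleteSpace H]

/-- the diagonal amplification -/
noncomputable def diag (ι : Type*) [Fintype ι] (a : H →L[ℂ] H) :
    PiLp 2 (fun _ : ι => H) →L[ℂ] PiLp 2 (fun _ : ι => H) :=
  (PiLp.continuousLinearEquiv 2 ℂ (fun _ : ι => H)).symm.toContinuousLinearMap ∘L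
    ContinuousLinearMap.pi fun i => a ∘L PiLp.proj 2 (fun _ : ι => H) i

omit [CompleteSpace H] in
theorem diag_apply {ι : Type*} [Fintype ι] (a : H →L[ℂ] H) (x : PiLp 2 (fun _ : ι => H))
    (i : ι) : diag ι a x i = a (x i) := rfl

theorem star_diag {ι : Type*} [Fintype ι] (a : H →L[ℂ] H) : star (diag ι a) = diag ι (star a) := by
  rw [ContinuousLinearMap.star_eq_adjoint]
  symm
  rw [ContinuousLinearMap.eq_adjoint_iff]
  intro x y
  rw [PiLp.inner_apply, PiLp.inner_apply]
  exact Finset.sum_congr rfl fun i _ => inner_star_left a (x i) (y i)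

/-- the coordinate embeddings -/
noncomputable def emb {ι : Type*} [Fintype ι] [DecidableEq ι] (j : ι) :
    H →L[ℂ] PiLp 2 (fun _ : ι => H) :=
  (PiLp.continuousLinearEquiv 2 ℂ (fun _ : ι => H)).symm.toContinuousLinearMap ∘L
    ContinuousLinearMap.single ℂ (fun _ : ι => H) j

omit [CompleteSpace H] in
theorem emb_apply {ι : Type*} [Fintype ι] [DecidableEq ι] (j : ι) (v : H) (i : ι) :
    (emb j v : PiLp 2 (fun _ : ι => H)) i = (Pi.single j v : ι → H) i := rfl

omit [CompleteSpace H] in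
theorem diag_emb {ι : Type*} [Fintype ι] [DecidableEq ι] (a : H →L[ℂ] H) (j : ι) (v : H) :
    diag ι a (emb j v) = emb j (a v) := by
  ext i
  rw [diag_apply, emb_apply, emb_apply]
  by_cases h : i = j
  · subst h; simp
  · simp [h]

omit [CompleteSpace H] in
theorem sum_emb {ι : Type*} [Fintype ι] [DecidableEq ι] (x : PiLp 2 (fun _ : ι => H)) :
    ∑ j, emb j (x j) = x := by
  ext i
  rw [WithLp.ofLp_sum, Finset.sum_apply]
  simp only [emb_apply]
  rw [Finset.sum_eq_single i (fun j _ hj => Pi.single_eq_of_ne hj.symm _) (by simp)]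
  simp

/-- the density theorem of von Neumann -/
theorem exists_approx_of_bicomm (A : StarSubalgebra ℂ (H →L[ℂ] H)) {y : H →L[ℂ] H}
    (hy : ∀ c : H →L[ℂ] H, (∀ a ∈ A, a * c = c * a) → y * c = c * y) (F : Finset H) {ε : ℝ}
    (hε : 0 < ε) : ∃ a ∈ A, ∀ v ∈ F, ‖y v - a v‖ ≤ ε := by
  classical
  obtain ⟨v, hv⟩ : ∃ v : PiLp 2 (fun _ : F => H), ∀ i, v i = i.1 :=
    ⟨WithLp.toLp 2 fun i => i.1, fun _ => rfl⟩
  obtain ⟨P, -, -, h1, -, h3, h4⟩ := exists_proj {w | ∃ a ∈ A, w = diag F a v}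
  have hmul : ∀ a b : H →L[ℂ] H, diag F a (diag F b v) = diag F (a * b) v := fun a b => by
    ext i; rfl
  have hPa : ∀ a ∈ A, diag F a * P = P * diag F a := by
    intro a ha
    refine h3 _ ?_ ?_
    · rintro w ⟨b, hb, rfl⟩
      exact h1 _ ⟨a * b, mul_mem ha hb, hmul a b⟩
    · rintro w ⟨b, hb, rfl⟩
      rw [star_diag]
      exact h1 _ ⟨star a * b, mul_mem (star_mem ha) hb, hmul _ b⟩
  have hent : ∀ (i j : F) (u : H), y (P (emb j u) i) = P (emb j (y u)) i := by
    intro i j u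
    have k1 := hy (PiLp.proj 2 (fun _ : F => H) i ∘L P ∘L emb j) fun a ha => by
      ext u
      have k2 : diag F a (P (emb j u)) = P (diag F a (emb j u)) :=
        congrArg (fun T : PiLp 2 (fun _ : F => H) →L[ℂ] PiLp 2 (fun _ : F => H) => T (emb j u))
          (hPa a ha)
      rw [diag_emb] at k2
      exact congrArg (fun w : PiLp 2 (fun _ : F => H) => w i) k2
    exact congrArg (fun T : H →L[ℂ] H => T u) k1
  have hPv : P v = v := h1 _ ⟨1, one_mem A, by ext i; rfl⟩
  have hPy : P (diag F y v) = diag F y v := by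
    ext i
    rw [diag_apply]
    conv_rhs => rw [← hPv, ← sum_emb v]
    conv_lhs => rw [← sum_emb (diag F y v)]
    rw [map_sum, map_sum, WithLp.ofLp_sum, WithLp.ofLp_sum, Finset.sum_apply, Finset.sum_apply,
      map_sum]
    exact Finset.sum_congr rfl fun j _ => (hent i j (v j)).symm
  have h5 := h4 (diag F y v)
  rw [hPy] at h5
  obtain ⟨w, hw, hd⟩ := Metric.mem_closure_iff.1 h5 ε hε
  have h6 : ∃ a ∈ A, w = diag F a v := by
    clear hd
    induction hw using Submodule.span_induction with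
    | mem x hx => exact hx
    | zero => exact ⟨0, zero_mem A, by ext i; rfl⟩
    | add x x' _ _ hx hx' =>
      obtain ⟨a, ha, rfl⟩ := hx
      obtain ⟨b, hb, rfl⟩ := hx'
      exact ⟨a + b, add_mem ha hb, by ext i; rfl⟩
    | smul c x _ hx =>
      obtain ⟨a, ha, rfl⟩ := hx
      exact ⟨c • a, A.smul_mem ha c, by ext i; rfl⟩
  obtain ⟨a, ha, rfl⟩ := h6
  refine ⟨a, ha, fun u hu => ?_⟩
  have h7 := PiLp.norm_apply_le (diag F y v - diag F a v) ⟨u, hu⟩
  rw [dist_eq_norm] at hd
  have h8 : (diag F y v - diag F a v) ⟨u, hu⟩ = y u - a u := by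
    change y (v ⟨u, hu⟩) - a (v ⟨u, hu⟩) = _
    rw [hv]
  rw [h8] at h7
  exact h7.trans hd.le

/-- the double commutant theorem -/
theorem mem_of_bicomm (A : StarSubalgebra ℂ (H →L[ℂ] H))
    (hA : IsClosed {T : H →WOT[ℂ] H | T.toCLM ∈ A}) {y : H →L[ℂ] H}
    (hy : ∀ c : H →L[ℂ] H, (∀ a ∈ A, a * c = c * a) → y * c = c * y) : y ∈ A := by
  classical
  choose a ha hd using fun p : Finset H × ℕ =>
    exists_approx_of_bicomm A hy p.1 (show 0 < 1 / ((p.2 : ℝ) + 1) by positivity)
  have h1 : Tendsto (fun p => ContinuousLinearMapWOT.ofCLM (a p)) atTop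
      (𝓝 (ContinuousLinearMapWOT.ofCLM y)) := by
    rw [ContinuousLinearMapWOT.tendsto_iff_forall_inner_apply_tendsto]
    intro v u
    refine (tendsto_const_nhds (x := u)).inner (𝕜 := ℂ) ?_
    rw [Metric.tendsto_atTop]
    intro ε hε
    obtain ⟨n, hn⟩ := exists_nat_one_div_lt hε
    refine ⟨({v}, n), fun p hp => ?_⟩
    have k1 := hd p v (hp.1 (Finset.mem_singleton_self v))
    have k2 : 1 / ((p.2 : ℝ) + 1) ≤ 1 / ((n : ℝ) + 1) := Nat.one_div_le_one_div hp.2
    rw [dist_comm, dist_eq_norm]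
    exact lt_of_le_of_lt (k1.trans k2) hn
  exact hA.mem_of_tendsto h1 (Eventually.of_forall ha)

/-- a weakly closed unital star subalgebra as a von Neumann algebra -/
def ofClosed (A : StarSubalgebra ℂ (H →L[ℂ] H))
    (hA : IsClosed {T : H →WOT[ℂ] H | T.toCLM ∈ A}) : VonNeumannAlgebra H where
  toStarSubalgebra := A
  centralizer_centralizer' := by
    refine le_antisymm (fun y hy => ?_) Set.subset_centralizer_centralizer
    exact mem_of_bicomm A hA fun c hc => (hy c fun a ha => hc a ha).symm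

end Vale.Agent.P085Z
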