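import Vale.Agent.P085Z.Basic

set_option autoImplicit false

open scoped InnerProductSpace Topology
open Filter

namespace Vale.Agent.P085Z

open Vale.Agent.P085

variable {H : Type*} [NormedAddCommGroup H] [InnerProductSpace ℂ H] [CompleteSpace H]

namespace CT

theorem inner_app (x y : H →L[ℂ] H) (a b : H) : ⟪x a, y b⟫_ℂ = ⟪a, (star x * y) b⟫_ℂ := by
  rw [mul_apply_eq_comp, ContinuousLinearMap.star_eq_adjoint,
    ContinuousLinearMap.adjoint_inner_right]

theorem inner_star (x : H →L[ℂ] H) (a b : H) : ⟪x a, b⟫_ℂ = ⟪a, (star x) b⟫_ℂ := by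
  rw [ContinuousLinearMap.star_eq_adjoint, ContinuousLinearMap.adjoint_inner_right]

theorem nsq (x : H →L[ℂ] H) (a : H) : ‖x a‖ ^ 2 = (⟪a, (star x * x) a⟫_ℂ).re := by
  rw [← inner_app, ← inner_self_eq_norm_sq (𝕜 := ℂ)]; rfl

theorem nsq_eq {x y : H →L[ℂ] H} (h : star x * x = star y * y) (a : H) :
    ‖x a‖ ^ 2 = ‖y a‖ ^ 2 := by rw [nsq, nsq, h]

theorem nsq_add {x y : H →L[ℂ] H} (h : star x * y = 0) (a : H) :
    ‖(x + y) a‖ ^ 2 = ‖x a‖ ^ 2 + ‖y a‖ ^ 2 := by
  have h' : star y * x = 0 := by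
    have := congrArg star h
    simpa using this
  rw [nsq, nsq, nsq, star_add, add_mul, mul_add, mul_add, h, h']
  simp

theorem eq_zero_of_star_mul {x : H →L[ℂ] H} (h : star x * x = 0) : x = 0 :=
  (CStarRing.star_mul_self_eq_zero_iff x).1 h

theorem piso_star {v : H →L[ℂ] H} (h : v * (star v * v) = v) :
    star v * (v * star v) = star v := by
  have := congrArg star h
  simpa [mul_assoc] using this

theorem piso_norm {v : H →L[ℂ] H} (h : v * (star v * v) = v) : ‖v‖ ≤ 1 := by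
  apply norm_le_one_of_sq
  apply norm_proj_le
  rw [star_mul, star_star, mul_assoc, h]

theorem piso_add {v w : H →L[ℂ] H} (hv : v * (star v * v) = v) (hw : w * (star w * w) = w)
    (h1 : star v * w = 0) (h2 : v * star w = 0) :
    (v + w) * (star (v + w) * (v + w)) = v + w := by
  have h1' : star w * v = 0 := by
    have := congrArg star h1
    simpa using this
  have h2' : w * star v = 0 := by
    have := congrArg star h2
    simpa using this
  rw [star_add, add_mul (star v), mul_add (star v), mul_add (star w), h1, h1', add_zero, zero_add,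
    add_mul, mul_add, mul_add, hv, hw, ← mul_assoc v, h2, ← mul_assoc w, h2']
  simp

omit [CompleteSpace H] in
theorem cauchy_of_inner (a : ℕ → H) (C : ℝ) (hC : ∀ n, ‖a n‖ ≤ C)
    (h : ∀ n m, n ≤ m → ⟪a n, a m⟫_ℂ = ⟪a n, a n⟫_ℂ) : CauchySeq a := by
  have key : ∀ n m, n ≤ m → ‖a m - a n‖ ^ 2 = ‖a m‖ ^ 2 - ‖a n‖ ^ 2 := by
    intro n m hnm
    rw [norm_sub_rev, @norm_sub_sq ℂ, h n m hnm, inner_self_eq_norm_sq (𝕜 := ℂ)]
    ring
  have hmono : Monotone fun n => ‖a n‖ ^ 2 := by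
    intro n m hnm
    have := key n m hnm
    have h2 := sq_nonneg ‖a m - a n‖
    simp only
    linarith
  have hbdd : BddAbove (Set.range fun n => ‖a n‖ ^ 2) := by
    refine ⟨C ^ 2, ?_⟩
    rintro _ ⟨n, rfl⟩
    exact pow_le_pow_left₀ (norm_nonneg _) (hC n) 2
  have hc : CauchySeq fun n => ‖a n‖ ^ 2 := (tendsto_atTop_ciSup hmono hbdd).cauchySeq
  rw [Metric.cauchySeq_iff'] at hc ⊢
  intro ε hε
  obtain ⟨N, hN⟩ := hc (ε ^ 2) (by positivity)
  refine ⟨N, fun n hn => ?_⟩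
  have h1 := hN n hn
  rw [Real.dist_eq] at h1
  rw [dist_eq_norm]
  have h2 := key N n hn
  have h3 : ‖a n - a N‖ ^ 2 < ε ^ 2 := by
    rw [h2]; exact lt_of_le_of_lt (le_abs_self _) h1
  exact lt_of_pow_lt_pow_left₀ 2 hε.le h3

omit [CompleteSpace H] in
theorem lim_mul_left {v : ℕ → (H →L[ℂ] H)} {x : H →L[ℂ] H}
    (h : ∀ a, Tendsto (fun n => v n a) atTop (𝓝 (x a))) (t c : H →L[ℂ] H)
    (hc : ∀ᶠ n in atTop, t * v n = c) : t * x = c := by
  ext a
  have h1 : Tendsto (fun n => t (v n a)) atTop (𝓝 (t (x a))) := (t.continuous.tendsto _).comp (h a)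
  have h2 : Tendsto (fun n => t (v n a)) atTop (𝓝 (c a)) := by
    refine tendsto_const_nhds.congr' ?_
    filter_upwards [hc] with n hn
    rw [← hn]; rfl
  exact tendsto_nhds_unique h1 h2

omit [CompleteSpace H] in
theorem lim_fix_left {v : ℕ → (H →L[ℂ] H)} {x : H →L[ℂ] H}
    (h : ∀ a, Tendsto (fun n => v n a) atTop (𝓝 (x a))) (t : H →L[ℂ] H)
    (hc : ∀ n, t * v n = v n) : t * x = x := by
  ext a
  have h1 : Tendsto (fun n => t (v n a)) atTop (𝓝 (t (x a))) := (t.continuous.tendsto _).comp (h a)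
  have h2 : Tendsto (fun n => t (v n a)) atTop (𝓝 (x a)) := by
    refine (h a).congr fun n => ?_
    conv_lhs => rw [← hc n]
    rfl
  exact tendsto_nhds_unique h1 h2

omit [CompleteSpace H] in
theorem lim_fix_right {v : ℕ → (H →L[ℂ] H)} {x : H →L[ℂ] H}
    (h : ∀ a, Tendsto (fun n => v n a) atTop (𝓝 (x a))) (t : H →L[ℂ] H)
    (hc : ∀ n, v n * t = v n) : x * t = x := by
  ext a
  have h2 : Tendsto (fun n => v n (t a)) atTop (𝓝 (x a)) := by
    refine (h a).congr fun n => ?_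
    conv_lhs => rw [← hc n]
    rfl
  exact tendsto_nhds_unique (h (t a)) h2

end CT

open CT

/-- greedy construction of a maximal element in a class of isometric pieces which is closed
under orthogonal sums and under limits -/
theorem exists_greedy (M : VonNeumannAlgebra H) (ξ : H) (R : Set (H →L[ℂ] H))
    (hR : ∀ v ∈ R, v ∈ M ∧ v * (star v * v) = v ∧ (v ξ = 0 → v = 0)) (h0 : (0 : H →L[ℂ] H) ∈ R)
    (hadd : ∀ v ∈ R, ∀ w ∈ R, star v * w = 0 → v * star w = 0 → v + w ∈ R)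
    (hlim : ∀ (v : ℕ → (H →L[ℂ] H)) (x : H →L[ℂ] H), (∀ n, v n ∈ R) → x ∈ M →
      x * (star x * x) = x → (∀ a, Tendsto (fun n => v n a) atTop (𝓝 (x a))) →
      (∀ a, Tendsto (fun n => (star (v n)) a) atTop (𝓝 ((star x) a))) → x ∈ R) :
    ∃ v ∈ R, ∀ w ∈ R, star v * w = 0 → v * star w = 0 → w = 0 := by
  have hch : ∀ v : H →L[ℂ] H, ∃ w ∈ R, star v * w = 0 ∧ v * star w = 0 ∧
      ∀ w' ∈ R, star v * w' = 0 → v * star w' = 0 → ‖w' ξ‖ ≤ 2 * ‖w ξ‖ := by
    intro v
    set O : Set ℝ := {r | ∃ w ∈ R, star v * w = 0 ∧ v * star w = 0 ∧ r = ‖w ξ‖} with hO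
    have hne : O.Nonempty := ⟨_, 0, h0, by simp, by simp, rfl⟩
    have hbdd : BddAbove O := by
      refine ⟨‖ξ‖, ?_⟩
      rintro _ ⟨w, hw, -, -, rfl⟩
      calc ‖w ξ‖ ≤ ‖w‖ * ‖ξ‖ := w.le_opNorm ξ
        _ ≤ 1 * ‖ξ‖ := mul_le_mul_of_nonneg_right (piso_norm (hR w hw).2.1) (norm_nonneg _)
        _ = ‖ξ‖ := one_mul _
    by_cases hs : sSup O ≤ 0
    · refine ⟨0, h0, by simp, by simp, fun w' hw' h1 h2 => ?_⟩
      have := le_csSup hbdd (show ‖w' ξ‖ ∈ O from ⟨w', hw', h1, h2, rfl⟩)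
      simp only [zero_apply, norm_zero, mul_zero]
      linarith
    · push Not at hs
      obtain ⟨_, ⟨w, hw, h1, h2, rfl⟩, hlt⟩ := exists_lt_of_lt_csSup hne (half_lt_self hs)
      refine ⟨w, hw, h1, h2, fun w' hw' h1' h2' => ?_⟩
      have := le_csSup hbdd (show ‖w' ξ‖ ∈ O from ⟨w', hw', h1', h2', rfl⟩)
      linarith
  choose W hWR hW1 hW2 hW3 using hch
  let v : ℕ → (H →L[ℂ] H) := fun n => Nat.rec 0 (fun _ x => x + W x) n
  have hv0 : v 0 = 0 := rfl
  have hvs : ∀ n, v (n + 1) = v n + W (v n) := fun n => rfl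
  have hvR : ∀ n, v n ∈ R := by
    intro n
    induction n with
    | zero => rw [hv0]; exact h0
    | succ n ih => rw [hvs]; exact hadd _ ih _ (hWR _) (hW1 _) (hW2 _)
  have hp : ∀ n, v n * (star (v n) * v n) = v n := fun n => (hR _ (hvR n)).2.1
  have hext : ∀ n m, n ≤ m → star (v n) * v m = star (v n) * v n ∧
      v n * star (v m) = v n * star (v n) := by
    intro n m hnm
    induction m, hnm using Nat.le_induction with
    | base => exact ⟨rfl, rfl⟩
    | succ m hnm ih =>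
      rw [hvs, star_add, mul_add, mul_add, ih.1, ih.2]
      have e1 : star (v n) * W (v m) = 0 := by
        rw [← piso_star (hp n), ← ih.2, mul_assoc, mul_assoc, hW1, mul_zero, mul_zero]
      have e2 : v n * star (W (v m)) = 0 := by
        rw [← hp n, ← ih.1, mul_assoc, mul_assoc, hW2, mul_zero, mul_zero]
      rw [e1, e2, add_zero, add_zero]
      exact ⟨rfl, rfl⟩
  have hn1 : ∀ n, ‖v n‖ ≤ 1 := fun n => piso_norm (hp n)
  have hn2 : ∀ n, ‖star (v n)‖ ≤ 1 := fun n => by rw [norm_star]; exact hn1 n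
  have hc1 : ∀ a, CauchySeq fun n => v n a := by
    intro a
    refine cauchy_of_inner _ ‖a‖ (fun n => ?_) (fun n m hnm => ?_)
    · calc ‖v n a‖ ≤ ‖v n‖ * ‖a‖ := (v n).le_opNorm a
        _ ≤ 1 * ‖a‖ := mul_le_mul_of_nonneg_right (hn1 n) (norm_nonneg _)
        _ = ‖a‖ := one_mul _
    · rw [inner_app, inner_app, (hext n m hnm).1]
  have hc2 : ∀ a, CauchySeq fun n => star (v n) a := by
    intro a
    refine cauchy_of_inner _ ‖a‖ (fun n => ?_) (fun n m hnm => ?_)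
    · calc ‖star (v n) a‖ ≤ ‖star (v n)‖ * ‖a‖ := (star (v n)).le_opNorm a
        _ ≤ 1 * ‖a‖ := mul_le_mul_of_nonneg_right (hn2 n) (norm_nonneg _)
        _ = ‖a‖ := one_mul _
    · rw [inner_app, inner_app, star_star, (hext n m hnm).2]
  obtain ⟨x, hxM, -, hx⟩ := exists_strong_lim M (fun n => (hR _ (hvR n)).1) hn1 hc1
  obtain ⟨y, -, -, hy⟩ := exists_strong_lim M (x := fun n => star (v n))
    (fun n => star_mem (hR _ (hvR n)).1) hn2 hc2
  have hyx : star x = y := by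
    ext b
    refine ext_inner_left ℂ fun a => ?_
    rw [← inner_star]
    have h1 : Tendsto (fun n => ⟪v n a, b⟫_ℂ) atTop (𝓝 ⟪x a, b⟫_ℂ) :=
      (hx a).inner tendsto_const_nhds
    have h2 : Tendsto (fun n => ⟪v n a, b⟫_ℂ) atTop (𝓝 ⟪a, y b⟫_ℂ) := by
      refine (Filter.Tendsto.inner (𝕜 := ℂ) (tendsto_const_nhds (x := a)) (hy b)).congr fun n => ?_
      rw [inner_star]
    exact tendsto_nhds_unique h1 h2
  subst hyx
  have e1 : ∀ n, star (v n) * x = star (v n) * v n := fun n =>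
    lim_mul_left hx _ _ (by
      filter_upwards [eventually_ge_atTop n] with m hm using (hext n m hm).1)
  have e2 : ∀ n, v n * star x = v n * star (v n) := fun n =>
    lim_mul_left hy _ _ (by
      filter_upwards [eventually_ge_atTop n] with m hm using (hext n m hm).2)
  have hxp : x * (star x * x) = x := by
    refine lim_fix_right hx _ fun n => ?_
    rw [← mul_assoc, e2, mul_assoc, e1, hp]
  refine ⟨x, hlim v x hvR hxM hxp hx hy, fun w hw h1 h2 => ?_⟩
  apply (hR w hw).2.2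
  have hb : ∀ n, ‖w ξ‖ ≤ 2 * ‖v (n + 1) ξ - v n ξ‖ := by
    intro n
    have : v (n + 1) ξ - v n ξ = W (v n) ξ := by rw [hvs]; simp
    rw [this]
    refine hW3 _ w hw ?_ ?_
    · rw [← piso_star (hp n), ← e2, mul_assoc, mul_assoc, h1, mul_zero, mul_zero]
    · rw [← hp n, ← e1, mul_assoc, mul_assoc, h2, mul_zero, mul_zero]
  have ht : Tendsto (fun n => 2 * ‖v (n + 1) ξ - v n ξ‖) atTop (𝓝 (2 * ‖x ξ - x ξ‖)) :=
    ((((hx ξ).comp (tendsto_add_atTop_nat 1)).sub (hx ξ)).norm).const_mul 2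
  have := ge_of_tendsto' ht hb
  rw [sub_self, norm_zero, mul_zero] at this
  exact norm_le_zero_iff.1 this

namespace CT

theorem star_fix {x s : H →L[ℂ] H} (hs : star s = s) (h : x * s = x) : s * star x = star x := by
  have := congrArg star h
  rwa [star_mul, hs] at this

theorem star_fix' {x s : H →L[ℂ] H} (hs : star s = s) (h : s * x = x) : star x * s = star x := by
  have := congrArg star h
  rwa [star_mul, hs] at this

theorem pj_sub {M : VonNeumannAlgebra H} {s q : H →L[ℂ] H} (hs : Pj M s) (hq : Pj M q)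
    (h : q * s = q) : Pj M (s - q) where
  mem := sub_mem hs.mem hq.mem
  sa := by rw [star_sub, hs.sa, hq.sa]
  idem := by
    have h' : s * q = q := by
      have := star_fix hs.sa h
      rwa [hq.sa] at this
    rw [sub_mul, mul_sub, mul_sub, hs.idem, hq.idem, h, h']
    abel

theorem pj_init {M : VonNeumannAlgebra H} {v : H →L[ℂ] H} (hv : v ∈ M)
    (h : v * (star v * v) = v) : Pj M (star v * v) where
  mem := mul_mem (star_mem hv) hv
  sa := by rw [star_mul, star_star]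
  idem := by rw [mul_assoc, h]

theorem pj_fin {M : VonNeumannAlgebra H} {v : H →L[ℂ] H} (hv : v ∈ M)
    (h : v * (star v * v) = v) : Pj M (v * star v) where
  mem := mul_mem hv (star_mem hv)
  sa := by rw [star_mul, star_star]
  idem := by rw [mul_assoc, piso_star h]

theorem nsq_proj {p : H →L[ℂ] H} (hs : star p = p) (hp : p * p = p) (a : H) :
    ‖p a‖ ^ 2 = (⟪a, p a⟫_ℂ).re := by rw [nsq, hs, hp]

theorem exists_supp (M : VonNeumannAlgebra H) (ξ : H) :
    ∃ s, Pj M s ∧ s ξ = ξ ∧ ∀ x ∈ M, x ξ = 0 → x * s = 0 := by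
  obtain ⟨s, h1, h2, h3, h4, h5, -⟩ := exists_proj {a : H | ∃ y ∈ M.commutant, a = y ξ}
  refine ⟨s, ⟨?_, h1, h2⟩, h3 ξ ⟨1, one_mem _, rfl⟩, fun x hx hxξ => h4 x ?_⟩
  · refine vn_mem_of_commutes M fun y hy => h5 y ?_ ?_
    · rintro _ ⟨y', hy', rfl⟩
      exact h3 _ ⟨y * y', mul_mem hy hy', rfl⟩
    · rintro _ ⟨y', hy', rfl⟩
      exact h3 _ ⟨star y * y', mul_mem (star_mem hy) hy', rfl⟩
  · rintro _ ⟨y, hy, rfl⟩
    have h := vn_commutes M hx hy
    have : x (y ξ) = y (x ξ) := by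
      rw [← mul_apply_eq_comp, h, mul_apply_eq_comp]
    rw [this, hxξ, map_zero]

/-- first greedy step -/
theorem step1 {M : VonNeumannAlgebra H} (hM : IsFiniteVN M) {ξ : H} (hξ : ξ ≠ 0)
    {s : H →L[ℂ] H} (hs : Pj M s) (hsξ : s ξ = ξ) (hs0 : ∀ x ∈ M, x ξ = 0 → x * s = 0) :
    ∃ (e : H →L[ℂ] H) (ζ : H), Pj M e ∧ e ≠ 0 ∧ e * s = e ∧
      ∀ x ∈ M, x * (star x * x) = x → x * e = x → e * x = x →
        ‖x ξ‖ ^ 2 ≤ 2 * ‖(star x) ζ‖ ^ 2 := by
  set R : Set (H →L[ℂ] H) := {v | v ∈ M ∧ v * (star v * v) = v ∧ v * s = v ∧ s * v = v ∧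
    2 * ‖(star v) ξ‖ ^ 2 ≤ ‖v ξ‖ ^ 2} with hR
  obtain ⟨v, ⟨hvM, hvp, hvs, hsv, hvn⟩, hmax⟩ := exists_greedy M ξ R
    (fun v hv => ⟨hv.1, hv.2.1, fun h => by rw [← hv.2.2.1]; exact hs0 v hv.1 h⟩)
    ⟨zero_mem _, by simp, by simp, by simp, by simp⟩
    (fun v hv w hw h1 h2 => ⟨add_mem hv.1 hw.1, piso_add hv.2.1 hw.2.1 h1 h2,
      by rw [add_mul, hv.2.2.1, hw.2.2.1], by rw [mul_add, hv.2.2.2.1, hw.2.2.2.1], by
        rw [star_add, nsq_add h1, nsq_add (by rwa [star_star])]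
        have := hv.2.2.2.2
        have := hw.2.2.2.2
        linarith⟩)
    (fun v x hv hx hxp h1 h2 => ⟨hx, hxp, lim_fix_right h1 _ fun n => (hv n).2.2.1,
      lim_fix_left h1 _ fun n => (hv n).2.2.2.1,
      le_of_tendsto_of_tendsto' (((h2 ξ).norm.pow 2).const_mul 2) ((h1 ξ).norm.pow 2)
        fun n => (hv n).2.2.2.2⟩)
  have he : Pj M (s - star v * v) := pj_sub hs (pj_init hvM hvp) (by rw [mul_assoc, hvs])
  have hf : Pj M (s - v * star v) :=
    pj_sub hs (pj_fin hvM hvp) (by rw [mul_assoc, star_fix' hs.sa hsv])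
  obtain ⟨w, hwM, hwp, hwe, hfw, hw0, -⟩ := exists_cmp M he hf
  have hwne : w ≠ 0 := by
    intro hw
    subst hw
    simp only [star_zero, mul_zero, sub_zero] at hw0
    have a1 : v * (1 - s) = 0 := by rw [mul_sub, mul_one, hvs, sub_self]
    have a2 : (1 - s) * v = 0 := by rw [sub_mul, one_mul, hsv, sub_self]
    have a3 : star v * (1 - s) = 0 := by
      rw [mul_sub, mul_one, star_fix' hs.sa hsv, sub_self]
    have a4 : (1 - s) * star v = 0 := by
      rw [sub_mul, one_mul, star_fix hs.sa hvs, sub_self]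
    have a5 : (1 - s) * (1 - s) = 1 - s := by
      rw [sub_mul, one_mul, mul_sub, mul_one, hs.idem, sub_self, sub_zero]
    have a6 : star (1 - s) = 1 - s := by rw [star_sub, star_one, hs.sa]
    have b1 : (v + (1 - s)) * star (v + (1 - s)) = v * star v + (1 - s) := by
      rw [star_add, a6, add_mul, mul_add, mul_add, a1, a4, a5, add_zero, zero_add]
    have b2 : star (v + (1 - s)) * (v + (1 - s)) = star v * v + (1 - s) := by
      rw [star_add, a6, add_mul, mul_add, mul_add, a2, a3, a5, add_zero, zero_add]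
    obtain ⟨c1, c2⟩ := unitary_of_maximal M hM (V := v + (1 - s))
      (add_mem hvM (sub_mem (one_mem _) hs.mem)) (fun x hx => by
        rw [b1, b2, show 1 - (v * star v + (1 - s)) = s - v * star v by abel,
          show 1 - (star v * v + (1 - s)) = s - star v * v by abel]
        exact hw0 x hx)
    rw [b2] at c1
    rw [b1] at c2
    have d1 : star v * v = s := by
      have : star v * v = star v * v + (1 - s) - 1 + s := by abel
      rw [this, c1, sub_self, zero_add]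
    have d2 : v * star v = s := by
      have : v * star v = v * star v + (1 - s) - 1 + s := by abel
      rw [this, c2, sub_self, zero_add]
    have f1 : ‖v ξ‖ ^ 2 = ‖s ξ‖ ^ 2 := nsq_eq (by rw [d1, hs.sa, hs.idem]) ξ
    have f2 : ‖(star v) ξ‖ ^ 2 = ‖s ξ‖ ^ 2 := nsq_eq (by rw [star_star, d2, hs.sa, hs.idem]) ξ
    rw [f1, f2, hsξ] at hvn
    have : 0 < ‖ξ‖ ^ 2 := by positivity
    linarith
  have hes : (s - star v * v) * s = s - star v * v := by rw [sub_mul, hs.idem, mul_assoc, hvs]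
  have hsf : s * (s - v * star v) = s - v * star v := by
    rw [mul_sub, hs.idem, ← mul_assoc, hsv]
  have hws : w * s = w := by rw [← hwe, mul_assoc, hes]
  have hsw : s * w = w := by rw [← hfw, ← mul_assoc, hsf]
  refine ⟨star w * w, (star w) ξ, pj_init hwM hwp, fun h => hwne (eq_zero_of_star_mul h),
    by rw [mul_assoc, hws], fun x hx hxp hxe hex => ?_⟩
  have hwx : star (w * x) * (w * x) = star x * x := by
    rw [star_mul, mul_assoc, ← mul_assoc (star w), hex]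
  by_contra hlt
  push Not at hlt
  have hmem : w * x ∈ R := by
    refine ⟨mul_mem hwM hx, by rw [hwx, mul_assoc, hxp], ?_, by rw [← mul_assoc, hsw], ?_⟩
    · rw [← hxe, mul_assoc, mul_assoc, mul_assoc, hws]
    · rw [nsq_eq hwx, star_mul, mul_apply_eq_comp]
      exact hlt.le
  have hz := hmax _ hmem ?_ ?_
  · rw [hz, mul_zero] at hwx
    have hx0 := eq_zero_of_star_mul hwx.symm
    rw [hx0] at hlt
    simp at hlt
  · rw [← hfw, mul_assoc, ← mul_assoc (star v), mul_sub, star_fix' hs.sa hsv, piso_star hvp,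
      sub_self, zero_mul]
  · have g1 : star x = star w * w * star x :=
      (star_fix (pj_init hwM hwp).sa hxe).symm
    have g2 : v * star w = 0 := by
      rw [← star_fix he.sa hwe, ← mul_assoc, mul_sub, hvs, hvp, sub_self, zero_mul]
    rw [star_mul, g1, mul_assoc, mul_assoc, ← mul_assoc v, g2, zero_mul]

/-- second greedy step -/
theorem step2 {M : VonNeumannAlgebra H} {ξ : H} (ζ : H)
    {s : H →L[ℂ] H} (hs0 : ∀ x ∈ M, x ξ = 0 → x * s = 0) {e : H →L[ℂ] H} (he : Pj M e)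
    (he0 : e ≠ 0) (hes : e * s = e) :
    ∃ (p : H →L[ℂ] H) (C : ℝ), Pj M p ∧ p ≠ 0 ∧ p * e = p ∧ 0 < C ∧
      ∀ q, Pj M q → q * p = q → ‖q ζ‖ ^ 2 ≤ C * ‖q ξ‖ ^ 2 := by
  have heξ : e ξ ≠ 0 := fun h => he0 (by rw [← hes]; exact hs0 e he.mem h)
  have hpos : 0 < ‖e ξ‖ ^ 2 := by positivity
  set C : ℝ := (‖e ζ‖ ^ 2 + 1) / ‖e ξ‖ ^ 2 with hC
  have hC0 : 0 < C := by positivity
  have hC1 : C * ‖e ξ‖ ^ 2 = ‖e ζ‖ ^ 2 + 1 := by rw [hC]; field_simp
  set R : Set (H →L[ℂ] H) := {v | Pj M v ∧ v * e = v ∧ C * ‖v ξ‖ ^ 2 ≤ ‖v ζ‖ ^ 2} with hR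
  obtain ⟨g, ⟨hg, hge, hgn⟩, hmax⟩ := exists_greedy M ξ R
    (fun v hv => ⟨hv.1.mem, by rw [hv.1.sa, hv.1.idem, hv.1.idem], fun h => by
      rw [← hv.2.1, ← hes, ← mul_assoc, hv.2.1]; exact hs0 v hv.1.mem h⟩)
    ⟨⟨zero_mem _, by simp, by simp⟩, by simp, by simp⟩
    (fun v hv w hw h1 h2 => ⟨⟨add_mem hv.1.mem hw.1.mem, by rw [star_add, hv.1.sa, hw.1.sa], by
        have h3 : v * w = 0 := by rwa [hv.1.sa] at h1
        have h4 : w * v = 0 := by
          have := congrArg star h3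
          rwa [star_mul, hv.1.sa, hw.1.sa, star_zero] at this
        rw [add_mul, mul_add, mul_add, h3, h4, hv.1.idem, hw.1.idem, add_zero, zero_add]⟩,
      by rw [add_mul, hv.2.1, hw.2.1], by
        rw [nsq_add h1, nsq_add h1]
        have := hv.2.2
        have := hw.2.2
        linarith⟩)
    (fun v x hv hx hxp h1 h2 => by
      have hsa : star x = x := by
        ext a
        refine tendsto_nhds_unique (h2 a) ((h1 a).congr fun n => ?_)
        rw [(hv n).1.sa]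
      refine ⟨⟨hx, hsa, ?_⟩, lim_fix_right h1 _ fun n => (hv n).2.1,
        le_of_tendsto_of_tendsto' (((h1 ξ).norm.pow 2).const_mul C) ((h1 ζ).norm.pow 2)
          fun n => (hv n).2.2⟩
      ext b
      refine ext_inner_left ℂ fun a => ?_
      have t1 : Tendsto (fun n => ⟪v n a, v n b⟫_ℂ) atTop (𝓝 ⟪x a, x b⟫_ℂ) :=
        (h1 a).inner (h1 b)
      have t2 : Tendsto (fun n => ⟪v n a, v n b⟫_ℂ) atTop (𝓝 ⟪a, x b⟫_ℂ) := by
        refine (Filter.Tendsto.inner (𝕜 := ℂ) (tendsto_const_nhds (x := a)) (h1 b)).congr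
          fun n => ?_
        rw [inner_app, (hv n).1.sa, (hv n).1.idem]
      rw [← tendsto_nhds_unique t1 t2, inner_app, hsa])
  have hp : Pj M (e - g) := pj_sub he hg hge
  refine ⟨e - g, C, hp, fun h => ?_, by rw [sub_mul, he.idem, hge], hC0, fun q hq hqp => ?_⟩
  · rw [sub_eq_zero] at h
    rw [← h] at hgn
    linarith
  · by_contra hlt
    push Not at hlt
    have hpq : (e - g) * q = q := by
      have := star_fix hp.sa hqp
      rwa [hq.sa] at this
    have hgq : g * q = 0 := by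
      rw [← hpq, ← mul_assoc, mul_sub, hge, hg.idem, sub_self, zero_mul]
    have hmem : q ∈ R := ⟨hq, by rw [← hqp, mul_assoc, sub_mul, he.idem, hge], hlt.le⟩
    have hz := hmax q hmem (by rw [hg.sa, hgq]) (by rw [hq.sa, hgq])
    rw [hz] at hlt
    simp at hlt

omit [CompleteSpace H] in
theorem hasSum_re {f : ℕ → (H →L[ℂ] H)} {a : H →L[ℂ] H} (h : HasSum f a) (b : H) :
    HasSum (fun n => (⟪b, f n b⟫_ℂ).re) (⟪b, a b⟫_ℂ).re := by
  have h1 : HasSum (fun n => f n b) (a b) :=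
    h.mapL (ContinuousLinearMap.apply ℂ H b)
  have h2 : HasSum (fun n => ⟪b, f n b⟫_ℂ) ⟪b, a b⟫_ℂ := h1.mapL (innerSL ℂ b)
  exact Complex.hasSum_re h2

omit [CompleteSpace H] in
theorem re_le_of_le {x y : H →L[ℂ] H} (h : x ≤ y) (b : H) :
    (⟪b, x b⟫_ℂ).re ≤ (⟪b, y b⟫_ℂ).re := by
  have h1 : (y - x).IsPositive := (ContinuousLinearMap.le_def x y).1 h
  have h2 := h1.re_inner_nonneg_right b
  simp only [sub_apply, inner_sub_right, map_sub, RCLike.re_to_complex] at h2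
  linarith

/-- from isometric pieces to contractions -/
theorem step3 {M : VonNeumannAlgebra H} (hM : IsFiniteVN M) {ξ : H} {p : H →L[ℂ] H}
    (hp : Pj M p) {C : ℝ}
    (h : ∀ x ∈ M, x * (star x * x) = x → x * p = x → p * x = x →
      ‖x ξ‖ ^ 2 ≤ C * ‖(star x) ξ‖ ^ 2)
    {y : H →L[ℂ] H} (hy : y ∈ M) (hy1 : ‖y‖ ≤ 1) (hyp : y * p = y) (hpy : p * y = y) :
    ‖y ξ‖ ^ 2 ≤ C * ‖(star y) ξ‖ ^ 2 := by
  obtain ⟨u, hu, hu1, hu2, hyu⟩ := exists_unitary_polar M hM hy
  have ha0 : 0 ≤ star y * y := star_mul_self_nonneg y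
  have ha1 : star y * y ≤ 1 := by
    have := H551.one_sub_nonneg_of_norm (x := star y * y) (by rw [star_mul, star_star])
      (by rw [CStarRing.norm_star_mul_self]; nlinarith [norm_nonneg y])
    exact sub_nonneg.1 this
  obtain ⟨q, hq, hsum⟩ := exists_binary ha0 ha1
  set r := CFC.sqrt (star y * y) with hr
  have hrs : star r = r := (IsSelfAdjoint.of_nonneg (CFC.sqrt_nonneg _)).star_eq
  have hrr : r * r = star y * y := CFC.sqrt_mul_sqrt_self _ ha0
  have hys : star y = r * star u := by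
    conv_lhs => rw [hyu]
    rw [star_mul, hrs]
  have hker : ∀ n b, y b = 0 → q n b = 0 := by
    intro n b hb
    have h1 := re_le_of_le (hq n).2.2.2 b
    rw [← nsq_proj (hq n).1 (hq n).2.1] at h1
    simp only [smul_apply, mul_apply_eq_comp, hb, map_zero, smul_zero, inner_zero_right,
      Complex.zero_re] at h1
    have h2 : ‖q n b‖ ^ 2 = 0 := le_antisymm h1 (sq_nonneg _)
    exact norm_eq_zero.1 (pow_eq_zero_iff two_ne_zero |>.1 h2)
  have hker' : ∀ n (t : H →L[ℂ] H), y * t = 0 → q n * t = 0 := by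
    intro n t ht
    ext b
    exact hker n (t b) (by rw [← mul_apply_eq_comp, ht]; rfl)
  have hqM : ∀ n, q n ∈ M := fun n => (hq n).2.2.1 M (mul_mem (star_mem hy) hy)
  have hxx : ∀ n, star (u * q n) * (u * q n) = q n := fun n => by
    rw [star_mul, (hq n).1, mul_assoc, ← mul_assoc (star u), hu1, one_mul, (hq n).2.1]
  have hb : ∀ n, (⟪ξ, q n ξ⟫_ℂ).re ≤ C * (⟪(star u) ξ, q n ((star u) ξ)⟫_ℂ).re := by
    intro n
    have e1 : q n * p = q n := by
      have := hker' n (1 - p) (by rw [mul_sub, mul_one, hyp, sub_self])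
      rw [mul_sub, mul_one, sub_eq_zero] at this
      exact this.symm
    have e2 : p * (u * q n) = u * q n := by
      have h1 : y * (star u * (1 - p)) = 0 := by
        conv_lhs => rw [hyu]
        rw [mul_assoc, ← mul_assoc r, ← hys, mul_sub, mul_one, star_fix' hp.sa hpy, sub_self,
          mul_zero]
      have h2 := hker' n _ h1
      rw [mul_sub, mul_one, mul_sub, sub_eq_zero] at h2
      have h3 := congrArg star h2
      simp only [star_mul, star_star, (hq n).1, hp.sa] at h3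
      rw [← mul_assoc, ← h3]
    have := h (u * q n) (mul_mem hu (hqM n)) (by rw [hxx, mul_assoc, (hq n).2.1])
      (by rw [mul_assoc, e1]) e2
    rw [nsq, hxx, star_mul, (hq n).1, mul_apply_eq_comp, nsq_proj (hq n).1 (hq n).2.1] at this
    exact this
  have s1 := hasSum_re hsum ξ
  have s2 := (hasSum_re hsum ((star u) ξ)).mul_left C
  have key := hasSum_le (fun n => by
    have e : ∀ b : H, (⟪b, (((1 / 2 : ℂ) ^ (n + 1)) • q n) b⟫_ℂ).re =
        (1 / 2 : ℝ) ^ (n + 1) * (⟪b, q n b⟫_ℂ).re := by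
      intro b
      rw [smul_apply, inner_smul_right,
        show ((1 / 2 : ℂ) ^ (n + 1)) = (((1 / 2 : ℝ) ^ (n + 1) : ℝ) : ℂ) by push_cast; rfl,
        Complex.re_ofReal_mul]
    show (⟪ξ, (((1 / 2 : ℂ) ^ (n + 1)) • q n) ξ⟫_ℂ).re ≤
      C * (⟪(star u) ξ, (((1 / 2 : ℂ) ^ (n + 1)) • q n) ((star u) ξ)⟫_ℂ).re
    rw [e, e, mul_left_comm]
    exact mul_le_mul_of_nonneg_left (hb n) (by positivity)) s1 s2
  rw [← nsq] at key
  have e3 : ‖(star y) ξ‖ ^ 2 = (⟪(star u) ξ, (star y * y) ((star u) ξ)⟫_ℂ).re := by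
    rw [← hrr, hys, mul_apply_eq_comp, nsq, hrs]
  rw [e3]
  exact key

end CT

/-- a vector state is an approximate trace on a corner -/
theorem exists_corner {M : VonNeumannAlgebra H} (hM : IsFiniteVN M) {ξ : H} (hξ : ξ ≠ 0) :
    ∃ (p : H →L[ℂ] H) (C : ℝ), Pj M p ∧ p ≠ 0 ∧ 0 < C ∧
      (∀ x ∈ M, x * p = x → x ξ = 0 → x = 0) ∧
      ∀ y ∈ M, y * p = y → p * y = y → ‖y ξ‖ ^ 2 ≤ C * ‖(star y) ξ‖ ^ 2 := by
  obtain ⟨s, hs, hsξ, hs0⟩ := exists_supp M ξ
  obtain ⟨e, ζ, he, he0, hes, h1⟩ := step1 hM hξ hs hsξ hs0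
  obtain ⟨p, C, hp, hp0, hpe, hC, h2⟩ := step2 ζ hs0 he he0 hes
  have hep : e * p = p := by
    have := star_fix he.sa hpe
    rwa [hp.sa] at this
  have h3 : ∀ x ∈ M, x * (star x * x) = x → x * p = x → p * x = x →
      ‖x ξ‖ ^ 2 ≤ (2 * C) * ‖(star x) ξ‖ ^ 2 := by
    intro x hx hxp a1 a2
    have b1 := h1 x hx hxp (by rw [← a1, mul_assoc, hpe]) (by rw [← a2, ← mul_assoc, hep])
    have hq := pj_fin hx hxp
    have b2 := h2 _ hq (by rw [mul_assoc, star_fix' hp.sa a2])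
    have b3 : ∀ b, ‖(x * star x) b‖ ^ 2 = ‖(star x) b‖ ^ 2 := fun b =>
      nsq_eq (by rw [hq.sa, hq.idem, star_star]) b
    rw [b3, b3] at b2
    linarith
  refine ⟨p, 2 * C, hp, hp0, by positivity, fun x hx hxp hxξ => ?_, fun y hy hyp hpy => ?_⟩
  · rw [← hxp, ← hpe, ← hes, ← mul_assoc, ← mul_assoc, mul_assoc x, hpe, hxp]
    exact hs0 x hx hxξ
  · set t : ℝ := ‖y‖ + 1 with ht
    have ht0 : 0 < t := by positivity
    have hn : ‖((t⁻¹ : ℝ) : ℂ)‖ = t⁻¹ := by
      rw [Complex.norm_real, Real.norm_of_nonneg (by positivity)]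
    have := step3 hM hp h3 (y := ((t⁻¹ : ℝ) : ℂ) • y) (vn_smul_mem M _ hy)
      (by
        rw [norm_smul, hn, inv_mul_le_iff₀ ht0]
        linarith)
      (by rw [smul_mul_assoc, hyp]) (by rw [mul_smul_comm, hpy])
    rw [star_smul, smul_apply, smul_apply, norm_smul, norm_smul, norm_star, hn, mul_pow, mul_pow,
      mul_left_comm] at this
    exact le_of_mul_le_mul_left this (by positivity)

/-- a nonzero central projection is covered by finitely many subprojections of `p` -/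
theorem exists_cover {M : VonNeumannAlgebra H} (hM : NoInf M) {p : H →L[ℂ] H} (hp : Pj M p)
    (hp0 : p ≠ 0) : ∃ (k : ℕ) (u : Fin k → (H →L[ℂ] H)) (z : H →L[ℂ] H), CP M z ∧ z ≠ 0 ∧
      (∀ i, u i ∈ M ∧ u i * p = u i ∧ z * u i = u i) ∧ ∑ i, u i * star (u i) = z := by
  obtain ⟨S, -, hST, hSR, hmax⟩ := exists_max_pairwise {w : H →L[ℂ] H | w ∈ M ∧ star w * w = p}
    (fun v w => star v * w = 0) (fun x y h => by
      have := congrArg star h
      simpa using this) (S₀ := ∅) (Set.empty_subset _) (Set.pairwise_empty _)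
  have hfin : S.Finite := by
    by_contra hinf
    have hinf' : S.Infinite := hinf
    refine hp0 (hM p hp ⟨fun i => (hinf'.natEmbedding S i : H →L[ℂ] H),
      fun i => (hST (hinf'.natEmbedding S i).2).1, fun i => (hST (hinf'.natEmbedding S i).2).2,
      fun i j hij => hSR (hinf'.natEmbedding S i).2 (hinf'.natEmbedding S j).2 fun h => hij ?_⟩)
    exact (hinf'.natEmbedding S).injective (Subtype.ext h)
  have hwp : ∀ w ∈ S, w * p = w := by
    intro w hw
    have h1 : star (w * (1 - p)) * (w * (1 - p)) = 0 := by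
      rw [star_mul, mul_assoc, ← mul_assoc (star w), (hST hw).2, mul_sub, mul_one, hp.idem,
        sub_self, mul_zero]
    have h2 := eq_zero_of_star_mul h1
    rw [mul_sub, mul_one, sub_eq_zero] at h2
    exact h2.symm
  obtain ⟨k, f, hf⟩ : ∃ (k : ℕ) (f : Fin k ↪ (H →L[ℂ] H)), Set.range f = S := by
    obtain ⟨k, f, hf, hr⟩ := hfin.fin_embedding
    exact ⟨k, f, rfl⟩
  have hfS : ∀ i, f i ∈ S := fun i => hf ▸ Set.mem_range_self i
  set E : H →L[ℂ] H := ∑ i, f i * star (f i) with hE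
  have hEf : ∀ i, E * f i = f i := by
    intro i
    rw [hE, Finset.sum_mul, Finset.sum_eq_single i]
    · rw [mul_assoc, (hST (hfS i)).2, hwp _ (hfS i)]
    · intro j _ hji
      rw [mul_assoc, hSR (hfS j) (hfS i) fun h => hji (f.injective h), mul_zero]
    · intro h; exact absurd (Finset.mem_univ i) h
  have hEp : Pj M E := ⟨sum_mem fun i _ => mul_mem (hST (hfS i)).1 (star_mem (hST (hfS i)).1),
    by rw [hE, star_sum]; simp only [star_mul, star_star], by
      conv_lhs => rw [hE]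
      rw [← hE]
      conv_lhs => enter [2]; rw [hE]
      rw [Finset.mul_sum]
      simp only [← mul_assoc, hEf]
      rfl⟩
  have h1 : Pj M (1 : H →L[ℂ] H) := ⟨one_mem _, star_one _, one_mul _⟩
  have he : Pj M (1 - E) := pj_sub h1 hEp (mul_one _)
  obtain ⟨v, hvM, hvp, hvp', hev, -, z, hz, hz1, hz2, -⟩ := exists_cmp M hp he
  have hz0 : z ≠ 0 := by
    intro h
    rw [h, zero_mul, eq_comm, sub_eq_zero] at hz2
    have horth : ∀ y ∈ S, star v * y = 0 := by
      intro y hy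
      obtain ⟨i, rfl⟩ : y ∈ Set.range f := hf ▸ hy
      rw [← star_fix' he.sa hev, mul_assoc, sub_mul, one_mul, hEf, sub_self, mul_zero]
    have hvS := hmax v ⟨hvM, hz2.symm⟩ horth
    exact hp0 (hz2.trans (horth v hvS))
  have hzz : ∀ w ∈ M, z * w * star (z * w) = w * star w * z := by
    intro w hw
    rw [star_mul, hz.sa, ← hz.comm w hw, mul_assoc, ← mul_assoc z, ← hz.comm _ (star_mem hw),
      mul_assoc (star w), hz.idem, mul_assoc]
  refine ⟨k + 1, Fin.cons (z * v) fun i => z * f i, z, hz, hz0, fun i => ?_, ?_⟩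
  · refine Fin.cases ?_ (fun i => ?_) i
    · simp only [Fin.cons_zero]
      exact ⟨mul_mem hz.mem hvM, by rw [mul_assoc, hvp'], by rw [← mul_assoc, hz.idem]⟩
    · simp only [Fin.cons_succ]
      exact ⟨mul_mem hz.mem (hST (hfS i)).1, by rw [mul_assoc, hwp _ (hfS i)],
        by rw [← mul_assoc, hz.idem]⟩
  · rw [Fin.sum_univ_succ]
    simp only [Fin.cons_zero, Fin.cons_succ]
    rw [hzz v hvM, Finset.sum_congr rfl fun i _ => hzz (f i) (hST (hfS i)).1, ← Finset.sum_mul,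
      ← hE]
    rw [sub_mul, sub_mul, one_mul, sub_eq_zero, sub_eq_iff_eq_add] at hz1
    exact hz1.symm

/-- approximate traces exist -/
theorem exists_ctrace {M : VonNeumannAlgebra H} (hM : NoInf M) {z : H →L[ℂ] H} (hz : CP M z)
    (hz0 : z ≠ 0) : ∃ (k : ℕ) (η : Fin k → H) (C : ℝ), 0 < C ∧ (∀ i, z (η i) = η i) ∧
      ∑ i, ‖η i‖ ^ 2 = 1 ∧
      ∀ x ∈ M, ∑ i, ‖x (η i)‖ ^ 2 ≤ C * ∑ i, ‖(star x) (η i)‖ ^ 2 := by
  obtain ⟨a, ha⟩ : ∃ a, z a ≠ 0 := by
    by_contra h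
    push Not at h
    exact hz0 (ContinuousLinearMap.ext h)
  set ξ := z a with hξ
  have hzξ : z ξ = ξ := by rw [hξ, ← mul_apply_eq_comp, hz.idem]
  obtain ⟨p, C, hp, hp0, hC, hfaith, hcor⟩ := exists_corner hM.isFiniteVN ha
  obtain ⟨k, u, w, hw, hw0, hu, hsum⟩ := exists_cover hM hp hp0
  have hexp : ∀ b : H, w b = b → ‖b‖ ^ 2 = ∑ j, ‖(star (u j)) b‖ ^ 2 := by
    intro b hb
    simp only [nsq, star_star]
    rw [← Complex.re_sum, ← inner_sum, ← sum_apply, hsum, hb,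
      ← inner_self_eq_norm_sq (𝕜 := ℂ)]
    rfl
  have hfix : ∀ x ∈ M, ∀ i, w (x (u i ξ)) = x (u i ξ) := by
    intro x hx i
    rw [← mul_apply_eq_comp, ← hw.comm x hx, mul_apply_eq_comp, ← mul_apply_eq_comp w, (hu i).2.2]
  have hmain : ∀ x ∈ M, ∑ i, ‖x (u i ξ)‖ ^ 2 ≤ C * ∑ i, ‖(star x) (u i ξ)‖ ^ 2 := by
    intro x hx
    rw [Finset.sum_congr rfl fun i _ => hexp _ (hfix x hx i),
      Finset.sum_congr rfl fun i _ => hexp _ (hfix _ (star_mem hx) i), Finset.sum_comm,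
      Finset.mul_sum]
    refine Finset.sum_le_sum fun j _ => ?_
    rw [Finset.mul_sum]
    refine Finset.sum_le_sum fun i _ => ?_
    have := hcor (star (u j) * x * u i)
      (mul_mem (mul_mem (star_mem (hu j).1) hx) (hu i).1)
      (by rw [mul_assoc, (hu i).2.1])
      (by rw [← mul_assoc, ← mul_assoc, star_fix hp.sa (hu j).2.1])
    simpa only [star_mul, star_star, mul_apply_eq_comp] using this
  set T : ℝ := ∑ i, ‖u i ξ‖ ^ 2 with hT
  have hT0 : 0 < T := by
    refine lt_of_le_of_ne (Finset.sum_nonneg fun i _ => sq_nonneg _) fun h => hw0 ?_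
    have h1 := (Finset.sum_eq_zero_iff_of_nonneg fun i _ => sq_nonneg ‖u i ξ‖).1 h.symm
    rw [← hsum]
    refine Finset.sum_eq_zero fun i hi => ?_
    have h2 : u i ξ = 0 := norm_eq_zero.1 (pow_eq_zero_iff two_ne_zero |>.1 (h1 i hi))
    rw [hfaith (u i) (hu i).1 (hu i).2.1 h2, zero_mul]
  set c : ℂ := (((Real.sqrt T)⁻¹ : ℝ) : ℂ) with hc
  have hc2 : ‖c‖ ^ 2 = T⁻¹ := by
    rw [hc, Complex.norm_real, Real.norm_eq_abs, sq_abs, inv_pow, Real.sq_sqrt hT0.le]
  have hsc : ∀ f : Fin k → H, ∑ i, ‖c • f i‖ ^ 2 = T⁻¹ * ∑ i, ‖f i‖ ^ 2 := by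
    intro f
    rw [Finset.mul_sum]
    refine Finset.sum_congr rfl fun i _ => ?_
    rw [norm_smul, mul_pow, hc2]
  refine ⟨k, fun i => c • u i ξ, C, hC, fun i => ?_, ?_, fun x hx => ?_⟩
  · rw [map_smul, ← mul_apply_eq_comp, ← hz.comm _ (hu i).1, mul_apply_eq_comp, hzξ]
  · rw [hsc, ← hT, inv_mul_cancel₀ hT0.ne']
  · simp only [map_smul]
    rw [hsc, hsc, mul_left_comm]
    exact mul_le_mul_of_nonneg_left (hmain x hx) (by positivity)

end Vale.Agent.P085Z
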