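import Vale.Agent.P085.H551.Final
import Mathlib.Algebra.FreeAlgebra

set_option autoImplicit false

open scoped InnerProductSpace

namespace Vale.Agent.P085Z

open Vale.Agent.P085

variable {H : Type*} [NormedAddCommGroup H] [InnerProductSpace ℂ H] [CompleteSpace H]

/-- projections of `M` -/
structure Pj (M : VonNeumannAlgebra H) (p : H →L[ℂ] H) : Prop where
  mem : p ∈ M
  sa : star p = p
  idem : p * p = p

/-- central projections of `M` -/
structure CP (M : VonNeumannAlgebra H) (z : H →L[ℂ] H) : Prop extends Pj M z where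
  comm : ∀ y ∈ M, y * z = z * y

/-- the vector functionals of `M` form a norm separable set -/
def WSep (M : VonNeumannAlgebra H) : Prop :=
  ∃ ξ η : ℕ → H, ∀ (a b : H) (ε : ℝ), 0 < ε → ∃ n, ∀ x ∈ M,
    ‖⟪a, x b⟫_ℂ - ⟪ξ n, x (η n)⟫_ℂ‖ ≤ ε * ‖x‖

/-- the centre -/
def Ctr (M : VonNeumannAlgebra H) : Set (H →L[ℂ] H) := {c | c ∈ M ∧ ∀ y ∈ M, y * c = c * y}

/-- `M z` is generated by the centre, a commuting self-adjoint family and one more self-adjoint
contraction -/
def Good (M : VonNeumannAlgebra H) (z : H →L[ℂ] H) : Prop :=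
  ∃ (B : Set (H →L[ℂ] H)) (b : H →L[ℂ] H), (∀ x ∈ B, x ∈ M ∧ star x = x) ∧
    (∀ x ∈ B, ∀ y ∈ B, x * y = y * x) ∧ b ∈ M ∧ star b = b ∧ ‖b‖ ≤ 1 ∧
    ∀ N : VonNeumannAlgebra H, (∀ c ∈ Ctr M, c ∈ N) → (∀ x ∈ B, x ∈ N) → b ∈ N →
      ∀ y ∈ M, y * z ∈ N

/-- `r` has infinitely many orthogonal copies in `M` -/
def Copies (M : VonNeumannAlgebra H) (r : H →L[ℂ] H) : Prop :=
  ∃ w : ℕ → (H →L[ℂ] H), (∀ i, w i ∈ M) ∧ (∀ i, star (w i) * w i = r) ∧
    ∀ i j, i ≠ j → star (w i) * w j = 0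

/-- no nonzero projection has infinitely many orthogonal copies -/
def NoInf (M : VonNeumannAlgebra H) : Prop := ∀ r, Pj M r → Copies M r → r = 0

/-- a tracial state whose 2-norm is equivalent to the seminorm given by finitely many vectors
in the range of `z` -/
structure NTr (M : VonNeumannAlgebra H) (z : H →L[ℂ] H) (τ : Alg M →ₗ[ℂ] ℂ) {k : ℕ}
    (η : Fin k → H) (C : ℝ) : Prop where
  tr : IsTrS τ
  pos : 0 < C
  le : ∀ x : Alg M, n2 τ x ≤ C * ∑ i, ‖x.1 (η i)‖
  ge : ∀ (x : Alg M) (i : Fin k), ‖x.1 (η i)‖ ≤ C * n2 τ x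
  supp : ∀ i, z (η i) = η i

/-- iterated averages over conjugations -/
noncomputable def avgL {A : Type*} [CStarAlgebra A] : List A → A → A
  | [], a => a
  | u :: l, a => avgL l ((1 / 2 : ℂ) • (a + u * a * star u))

/-- the averaging property of a tracial state -/
def Dix {A : Type*} [CStarAlgebra A] (σ : A →ₗ[ℂ] ℂ) : Prop :=
  ∀ a : A, star a = a → ∀ ε : ℝ, 0 < ε → ∃ l : List A,
    (∀ u ∈ l, star u * u = 1 ∧ u * star u = 1) ∧ ∃ c : ℂ, n2 σ (avgL l a - c • (1 : A)) ≤ ε

/-- evaluation of a noncommutative polynomial in two variables -/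
noncomputable def ev {A : Type*} [CStarAlgebra A] (a b : A) : FreeAlgebra ℂ Bool →ₐ[ℂ] A :=
  FreeAlgebra.lift ℂ fun s : Bool => bif s then a else b

/-- the commutant of a self-adjoint set -/
def commVN (S : Set (H →L[ℂ] H)) (hS : ∀ s ∈ S, star s ∈ S) : VonNeumannAlgebra H where
  carrier := Set.centralizer S
  mul_mem' := fun hx hy => Set.mul_mem_centralizer hx hy
  one_mem' := Set.one_mem_centralizer
  add_mem' := fun hx hy => Set.add_mem_centralizer hx hy
  zero_mem' := Set.zero_mem_centralizer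
  algebraMap_mem' := fun r => Set.algebraMap_mem_centralizer r
  star_mem' := by
    intro x hx y hy
    have := congrArg star (hx (star y) (hS y hy))
    simpa using this.symm
  centralizer_centralizer' := Set.centralizer_centralizer_centralizer _

theorem mem_commVN {S : Set (H →L[ℂ] H)} {hS : ∀ s ∈ S, star s ∈ S} {x : H →L[ℂ] H} :
    x ∈ commVN S hS ↔ ∀ s ∈ S, s * x = x * s := Iff.rfl

end Vale.Agent.P085Z
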