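import Vale.Agent.P085Z.Basic
import Mathlib.Analysis.CStarAlgebra.GelfandNaimarkSegal
import Mathlib.Analysis.CStarAlgebra.Unitary.Span
import Mathlib.Analysis.Normed.Operator.Extend

set_option autoImplicit false

open scoped InnerProductSpace Topology ComplexOrder
open Filter

namespace Vale.Agent.P085Z

open Vale.Agent.P085

universe u

/-- the GNS construction -/
theorem exists_gns {A : Type u} [CStarAlgebra A] (ψ : A →ₗ[ℂ] ℂ)
    (hpos : ∀ x, 0 ≤ ψ (star x * x)) :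
    ∃ (K : Type u) (_ : NormedAddCommGroup K) (_ : InnerProductSpace ℂ K) (_ : CompleteSpace K)
      (π : A →⋆ₐ[ℂ] (K →L[ℂ] K)) (Ω : K), (∀ x, ⟪Ω, π x Ω⟫_ℂ = ψ x) ∧
      DenseRange fun x => π x Ω := by
  let _ : PartialOrder A := CStarAlgebra.spectralOrder A
  have _ : StarOrderedRing A := CStarAlgebra.spectralOrderedRing A
  have hnn : ∀ x : A, 0 ≤ x → 0 ≤ ψ x := by
    intro x hx
    obtain ⟨y, rfl⟩ := CStarAlgebra.nonneg_iff_eq_star_mul_self.1 hx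
    exact hpos y
  let f : A →ₚ[ℂ] ℂ := PositiveLinearMap.mk₀ ψ hnn
  have hf : ∀ x, f x = ψ x := fun x => rfl
  have key : ∀ x : A, f.gnsStarAlgHom x ((f.toPreGNS 1 : f.PreGNS) : f.GNS) =
      ((f.toPreGNS x : f.PreGNS) : f.GNS) := by
    intro x
    have h1 : f.gnsStarAlgHom x ((f.toPreGNS 1 : f.PreGNS) : f.GNS) =
        f.gnsNonUnitalStarAlgHom x ((f.toPreGNS 1 : f.PreGNS) : f.GNS) := rfl
    rw [h1, PositiveLinearMap.gnsNonUnitalStarAlgHom_apply_coe]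
    congr 1
    simp
  refine ⟨f.GNS, inferInstance, inferInstance, inferInstance, f.gnsStarAlgHom,
    ((f.toPreGNS 1 : f.PreGNS) : f.GNS), fun x => ?_, ?_⟩
  · rw [key, UniformSpace.Completion.inner_coe, PositiveLinearMap.preGNS_inner_def]
    simp [hf]
  · have h1 : (fun x => f.gnsStarAlgHom x ((f.toPreGNS 1 : f.PreGNS) : f.GNS)) =
        (fun y : f.PreGNS => (y : f.GNS)) ∘ f.toPreGNS := funext key
    rw [h1]
    exact UniformSpace.Completion.denseRange_coe.comp f.toPreGNS.surjective.denseRange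
      (UniformSpace.Completion.continuous_coe _)

theorem fp_gns_norm_sq {A K : Type*} [CStarAlgebra A] [NormedAddCommGroup K] [InnerProductSpace ℂ K]
    [CompleteSpace K] {ψ : A →ₗ[ℂ] ℂ} (π : A →⋆ₐ[ℂ] (K →L[ℂ] K)) {Ω : K}
    (h : ∀ x, ⟪Ω, π x Ω⟫_ℂ = ψ x) (x : A) : (ψ (star x * x)).re = ‖π x Ω‖ ^ 2 := by
  rw [← h, map_mul, map_star, mul_apply_eq_comp, ContinuousLinearMap.star_eq_adjoint,
    ContinuousLinearMap.adjoint_inner_right, inner_self_eq_norm_sq_to_K]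
  norm_cast

theorem isTrS_of_pos {A : Type u} [CStarAlgebra A] (τ : A →ₗ[ℂ] ℂ) (h1 : τ 1 = 1)
    (hpos : ∀ x, 0 ≤ τ (star x * x)) (hc : ∀ x y, τ (x * y) = τ (y * x)) : IsTrS τ := by
  obtain ⟨K, _, _, _, π, Ω, hΩ, -⟩ := exists_gns τ hpos
  have hπ : ∀ x, ‖π x‖ ≤ ‖x‖ := fun x => NonUnitalStarAlgHom.norm_apply_le π x
  have hn : ‖Ω‖ ^ 2 = 1 := by
    have := fp_gns_norm_sq π hΩ 1
    rw [star_one, one_mul, h1, map_one] at this
    simpa using this.symm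
  refine ⟨⟨h1, fun x => ?_, hc, fun x => ?_⟩, fun x => (Complex.le_def.1 (hpos x)).1,
    fun x y => ?_⟩
  · rw [← hΩ]
    calc ‖⟪Ω, π x Ω⟫_ℂ‖ ≤ ‖Ω‖ * ‖π x Ω‖ := norm_inner_le_norm _ _
      _ ≤ ‖Ω‖ * (‖x‖ * ‖Ω‖) := by
          gcongr
          exact ((π x).le_opNorm Ω).trans (by gcongr; exact hπ x)
      _ = ‖x‖ * ‖Ω‖ ^ 2 := by ring
      _ = ‖x‖ := by rw [hn, mul_one]
  · rw [← hΩ, ← hΩ, map_star, ContinuousLinearMap.star_eq_adjoint,
      ContinuousLinearMap.adjoint_inner_right, inner_conj_symm]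
  · rw [fp_gns_norm_sq π hΩ, fp_gns_norm_sq π hΩ, map_mul, mul_apply_eq_comp, ← mul_pow]
    gcongr
    exact ((π x).le_opNorm _).trans (by gcongr; exact hπ x)

/-- a fixed point theorem for uniformly bounded semigroups of uniformly invertible operators -/
theorem exists_fixed {K G : Type*} [NormedAddCommGroup K] [InnerProductSpace ℂ K]
    [CompleteSpace K] [Nonempty G] (h : G → (K →L[ℂ] K))
    (hmul : ∀ u v, ∃ w, ∀ x, h u (h v x) = h w x)
    {C : ℝ} (hC : 0 < C) (hle : ∀ u x, ‖h u x‖ ≤ C * ‖x‖) (hge : ∀ u x, ‖x‖ ≤ C * ‖h u x‖)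
    {Q : Set K} (hQ : IsClosed Q) (hconv : Convex ℝ Q) (hne : Q.Nonempty)
    (hinv : ∀ u, ∀ x ∈ Q, h u x ∈ Q) : ∃ x ∈ Q, ∀ u, h u x = x := by
  obtain ⟨T, hT⟩ : ∃ T : Set ℝ, T = {r | ∃ x ∈ Q, ∀ u, ‖h u x‖ ^ 2 ≤ r} := ⟨_, rfl⟩
  have hTne : T.Nonempty := by
    obtain ⟨x, hx⟩ := hne
    refine ⟨(C * ‖x‖) ^ 2, ?_⟩
    rw [hT]
    exact ⟨x, hx, fun u => by gcongr; exact hle u x⟩
  have hTb : BddBelow T := by
    refine ⟨0, fun r hr => ?_⟩
    rw [hT] at hr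
    obtain ⟨x, -, hx⟩ := hr
    exact (sq_nonneg _).trans (hx (Classical.arbitrary G))
  obtain ⟨m, hm⟩ : ∃ m, m = sInf T := ⟨_, rfl⟩
  have key : ∀ x ∈ Q, ∀ y ∈ Q, ∀ r s : ℝ, (∀ u, ‖h u x‖ ^ 2 ≤ r) → (∀ u, ‖h u y‖ ^ 2 ≤ s) →
      ‖x - y‖ ^ 2 ≤ 4 * C ^ 2 * ((r + s) / 2 - m) := by
    intro x hx y hy r s hr hs
    have hz : (1 / 2 : ℝ) • x + (1 / 2 : ℝ) • y ∈ Q :=
      hconv hx hy (by norm_num) (by norm_num) (by norm_num)
    have h1 : (r + s) / 2 - ‖x - y‖ ^ 2 / (4 * C ^ 2) ∈ T := by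
      rw [hT]
      refine ⟨_, hz, fun u => ?_⟩
      have e1 : h u ((1 / 2 : ℝ) • x + (1 / 2 : ℝ) • y) = (1 / 2 : ℝ) • (h u x + h u y) := by
        rw [map_add, (h u).map_smul_of_tower, (h u).map_smul_of_tower, smul_add]
      have e2 := parallelogram_law_with_norm ℂ (h u x) (h u y)
      have e3 : ‖x - y‖ ^ 2 ≤ (C * ‖h u x - h u y‖) ^ 2 := by
        rw [← map_sub]; gcongr; exact hge u _
      have e4 : ‖x - y‖ ^ 2 / (4 * C ^ 2) ≤ ‖h u x - h u y‖ ^ 2 / 4 := by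
        rw [div_le_div_iff₀ (by positivity) (by positivity)]
        nlinarith only [e3]
      rw [e1, norm_smul, Real.norm_eq_abs, abs_of_pos (by norm_num), mul_pow]
      have := hr u
      have := hs u
      nlinarith
    have h2 := csInf_le hTb h1
    rw [← hm] at h2
    have h3 : ‖x - y‖ ^ 2 / (4 * C ^ 2) ≤ (r + s) / 2 - m := by linarith
    rwa [div_le_iff₀' (by positivity)] at h3
  have hex : ∀ n : ℕ, ∃ x ∈ Q, ∀ u, ‖h u x‖ ^ 2 ≤ m + 1 / ((n : ℝ) + 1) := by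
    intro n
    have h1 : sInf T < m + 1 / ((n : ℝ) + 1) := by
      rw [← hm]; exact lt_add_of_pos_right _ (by positivity)
    obtain ⟨r, hr, hr'⟩ := exists_lt_of_csInf_lt hTne h1
    rw [hT] at hr
    obtain ⟨x, hx, hxr⟩ := hr
    exact ⟨x, hx, fun u => (hxr u).trans hr'.le⟩
  choose x hxQ hx using hex
  have hcau : CauchySeq x := by
    refine cauchySeq_of_le_tendsto_0 (fun N : ℕ => Real.sqrt (4 * C ^ 2 * (1 / ((N : ℝ) + 1))))
      (fun n k N hn hk => ?_) ?_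
    · rw [dist_eq_norm]
      apply Real.le_sqrt_of_sq_le
      refine (key _ (hxQ n) _ (hxQ k) _ _ (hx n) (hx k)).trans ?_
      have e1 : 1 / ((n : ℝ) + 1) ≤ 1 / ((N : ℝ) + 1) := Nat.one_div_le_one_div hn
      have e2 : 1 / ((k : ℝ) + 1) ≤ 1 / ((N : ℝ) + 1) := Nat.one_div_le_one_div hk
      gcongr
      linarith
    · have h1 := (tendsto_one_div_add_atTop_nhds_zero_nat (𝕜 := ℝ)).const_mul (4 * C ^ 2)
      rw [mul_zero] at h1
      have h2 := h1.sqrt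
      rwa [Real.sqrt_zero] at h2
  obtain ⟨x₀, hx₀⟩ := cauchySeq_tendsto_of_complete hcau
  have hx₀Q : x₀ ∈ Q := hQ.mem_of_tendsto hx₀ (Eventually.of_forall hxQ)
  have hx₀m : ∀ u, ‖h u x₀‖ ^ 2 ≤ m := by
    intro u
    have h1 : Tendsto (fun n => ‖h u (x n)‖ ^ 2) atTop (𝓝 (‖h u x₀‖ ^ 2)) :=
      (((h u).continuous.tendsto _).comp hx₀).norm.pow 2
    have h2 := (tendsto_one_div_add_atTop_nhds_zero_nat (𝕜 := ℝ)).const_add m
    rw [add_zero] at h2
    exact le_of_tendsto_of_tendsto' h1 h2 fun n => hx n u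
  refine ⟨x₀, hx₀Q, fun v => ?_⟩
  have h1 := key _ (hinv v _ hx₀Q) _ hx₀Q m m (fun u => by
    obtain ⟨w, hw⟩ := hmul u v
    rw [hw]; exact hx₀m w) hx₀m
  have h2 : ‖h v x₀ - x₀‖ ^ 2 ≤ 0 := by
    refine h1.trans (le_of_eq ?_)
    ring
  have h3 : ‖h v x₀ - x₀‖ = 0 := by
    nlinarith [norm_nonneg (h v x₀ - x₀)]
  exact sub_eq_zero.1 (norm_eq_zero.1 h3)

/-- conjugation by a unitary as a linear map -/
def fp_conjL {A : Type*} [CStarAlgebra A] (u : unitary A) : A →ₗ[ℂ] A where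
  toFun x := (u : A) * x * star (u : A)
  map_add' x y := by rw [mul_add, add_mul]
  map_smul' c x := by rw [mul_smul_comm, smul_mul_assoc]; rfl

theorem fp_conjL_apply {A : Type*} [CStarAlgebra A] (u : unitary A) (x : A) :
    fp_conjL u x = (u : A) * x * star (u : A) := rfl

theorem fp_conjL_mul {A : Type*} [CStarAlgebra A] (u v : unitary A) (x : A) :
    fp_conjL (u * v) x = fp_conjL u (fp_conjL v x) := by
  simp only [fp_conjL_apply, Submonoid.coe_mul, star_mul, mul_assoc]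

theorem fp_conjL_one {A : Type*} [CStarAlgebra A] (x : A) : fp_conjL (1 : unitary A) x = x := by
  simp [fp_conjL_apply]

theorem fp_conjL_map_one {A : Type*} [CStarAlgebra A] (u : unitary A) : fp_conjL u (1 : A) = 1 := by
  rw [fp_conjL_apply, mul_one]; exact Unitary.coe_mul_star_self u

theorem fp_conjL_star_mul {A : Type*} [CStarAlgebra A] (u : unitary A) (x : A) :
    star (fp_conjL u x) * fp_conjL u x = fp_conjL u (star x * x) := by
  have h : star (u : A) * (u : A) = 1 := Unitary.star_mul_self_of_mem u.2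
  simp only [fp_conjL_apply, star_mul, star_star, mul_assoc]
  rw [← mul_assoc (star (u : A)) (u : A), h, one_mul]

/-- an approximate trace is equivalent to a trace -/
theorem exists_trace_of_ctrace {A : Type u} [CStarAlgebra A] (ψ : A →ₗ[ℂ] ℂ) (h1 : ψ 1 = 1)
    (hpos : ∀ x, 0 ≤ ψ (star x * x)) {C : ℝ} (hC0 : 0 < C)
    (hC : ∀ x, (ψ (star x * x)).re ≤ C * (ψ (x * star x)).re) :
    ∃ τ : A →ₗ[ℂ] ℂ, IsTrS τ ∧ ∃ D : ℝ, 0 < D ∧
      ∀ x, (τ (star x * x)).re ≤ D * (ψ (star x * x)).re ∧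
        (ψ (star x * x)).re ≤ D * (τ (star x * x)).re := by
  obtain ⟨K, _, _, _, π, Ω, hΩ, hd⟩ := exists_gns ψ hpos
  let e : A →ₗ[ℂ] K :=
    { toFun := fun x => π x Ω
      map_add' := fun x y => by rw [map_add, add_apply]
      map_smul' := fun c x => by rw [map_smul, smul_apply]; rfl }
  have he : ∀ x, e x = π x Ω := fun x => rfl
  have hde : DenseRange e := hd
  have hconj : ∀ (u : unitary A) (x : A),
      (ψ (fp_conjL u (star x * x))).re ≤ C ^ 2 * (ψ (star x * x)).re := by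
    intro u x
    have hu : star (u : A) * (u : A) = 1 := Unitary.star_mul_self_of_mem u.2
    have e1 : fp_conjL u (star x * x) = star (x * star (u : A)) * (x * star (u : A)) := by
      simp only [fp_conjL_apply, star_mul, star_star, mul_assoc]
    have e2 : (x * star (u : A)) * star (x * star (u : A)) = star (star x) * star x := by
      rw [star_mul, star_star, star_star, mul_assoc, ← mul_assoc (star (u : A)), hu, one_mul]
    have e3 := hC (x * star (u : A))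
    have e4 := hC (star x)
    rw [e2] at e3
    rw [e1]
    nth_rewrite 2 [star_star x] at e4
    calc _ ≤ C * (ψ (star (star x) * star x)).re := e3
      _ ≤ C * (C * (ψ (star x * x)).re) := by gcongr
      _ = _ := by ring
  have hconj' : ∀ (u : unitary A) (x : A),
      (ψ (star x * x)).re ≤ C ^ 2 * (ψ (fp_conjL u (star x * x))).re := by
    intro u x
    have := hconj u⁻¹ (fp_conjL u x)
    rwa [fp_conjL_star_mul, ← fp_conjL_mul, inv_mul_cancel, fp_conjL_one] at this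
  have hb : ∀ (u : unitary A) (x : A), ‖(e ∘ₗ fp_conjL u) x‖ ≤ C * ‖e x‖ := by
    intro u x
    refine le_of_sq_le_sq ?_ (by positivity)
    rw [mul_pow, LinearMap.comp_apply, he, he, ← fp_gns_norm_sq π hΩ, ← fp_gns_norm_sq π hΩ,
      fp_conjL_star_mul]
    exact hconj u x
  obtain ⟨g, hg, hgn⟩ : ∃ g : unitary A → (K →L[ℂ] K), (∀ u x, g u (e x) = e (fp_conjL u x)) ∧
      ∀ u, ‖g u‖ ≤ C :=
    ⟨fun u => (e ∘ₗ fp_conjL u).extendOfNorm e,
      fun u x => LinearMap.extendOfNorm_eq hde ⟨C, hb u⟩ x,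
      fun u => LinearMap.opNorm_extendOfNorm_le hde hC0.le (hb u)⟩
  obtain ⟨h, hh, hhn⟩ : ∃ h : unitary A → (K →L[ℂ] K),
      (∀ u ζ x, ⟪h u ζ, e x⟫_ℂ = ⟪ζ, e (fp_conjL u x)⟫_ℂ) ∧ ∀ u, ‖h u‖ ≤ C :=
    ⟨fun u => ContinuousLinearMap.adjoint (g u),
      fun u ζ x => by rw [ContinuousLinearMap.adjoint_inner_left, hg],
      fun u => by rw [LinearIsometryEquiv.norm_map]; exact hgn u⟩
  have hext : ∀ ζ ζ' : K, (∀ x, ⟪ζ, e x⟫_ℂ = ⟪ζ', e x⟫_ℂ) → ζ = ζ' := by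
    intro ζ ζ' hζ
    refine ext_inner_right ℂ fun y => ?_
    exact hde.induction_on y (isClosed_eq (by fun_prop) (by fun_prop)) hζ
  have hmul : ∀ u v ζ, h u (h v ζ) = h (v * u) ζ := by
    intro u v ζ
    refine hext _ _ fun x => ?_
    rw [hh, hh, hh, fp_conjL_mul]
  have hone : ∀ ζ, h 1 ζ = ζ := by
    intro ζ
    refine hext _ _ fun x => ?_
    rw [hh, fp_conjL_one]
  have hle : ∀ u ζ, ‖h u ζ‖ ≤ C * ‖ζ‖ := fun u ζ =>
    ((h u).le_opNorm ζ).trans (by gcongr; exact hhn u)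
  have hge : ∀ u ζ, ‖ζ‖ ≤ C * ‖h u ζ‖ := by
    intro u ζ
    have := hle u⁻¹ (h u ζ)
    rwa [hmul, mul_inv_cancel, hone] at this
  obtain ⟨Q, hQ⟩ : ∃ Q : Set K, Q = {ζ | ⟪ζ, e 1⟫_ℂ = 1} ∩ ⋂ (u : unitary A), ⋂ (x : A),
      ({ζ | (⟪ζ, e (fp_conjL u (star x * x))⟫_ℂ).im = 0} ∩
      ({ζ | (⟪ζ, e (fp_conjL u (star x * x))⟫_ℂ).re ≤ C ^ 2 * (ψ (star x * x)).re} ∩
      {ζ | (ψ (star x * x)).re ≤ C ^ 2 * (⟪ζ, e (fp_conjL u (star x * x))⟫_ℂ).re})) := ⟨_, rfl⟩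
  have hmem : ∀ ζ, ζ ∈ Q ↔ ⟪ζ, e 1⟫_ℂ = 1 ∧ ∀ (u : unitary A) (x : A),
      (⟪ζ, e (fp_conjL u (star x * x))⟫_ℂ).im = 0 ∧
      (⟪ζ, e (fp_conjL u (star x * x))⟫_ℂ).re ≤ C ^ 2 * (ψ (star x * x)).re ∧
      (ψ (star x * x)).re ≤ C ^ 2 * (⟪ζ, e (fp_conjL u (star x * x))⟫_ℂ).re := by
    intro ζ
    rw [hQ]
    simp only [Set.mem_inter_iff, Set.mem_iInter, Set.mem_ofPred_eq]
  have hQc : IsClosed Q := by
    rw [hQ]
    refine (isClosed_eq (by fun_prop) (by fun_prop)).inter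
      (isClosed_iInter fun u => isClosed_iInter fun x =>
        (isClosed_eq (by fun_prop) (by fun_prop)).inter
          ((isClosed_le (by fun_prop) (by fun_prop)).inter
            (isClosed_le (by fun_prop) (by fun_prop))))
  have hlin : ∀ (a b : ℝ) (ζ ζ' y : K), ⟪a • ζ + b • ζ', y⟫_ℂ =
      (a : ℂ) * ⟪ζ, y⟫_ℂ + (b : ℂ) * ⟪ζ', y⟫_ℂ := by
    intro a b ζ ζ' y
    rw [inner_add_left, ← Complex.coe_smul, ← Complex.coe_smul, inner_smul_left, inner_smul_left,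
      Complex.conj_ofReal, Complex.conj_ofReal]
  have hQconv : Convex ℝ Q := by
    intro ζ hζ ζ' hζ' a b ha hb hab
    rw [hmem] at hζ hζ' ⊢
    refine ⟨?_, fun u x => ?_⟩
    · rw [hlin, hζ.1, hζ'.1, mul_one, mul_one, ← Complex.ofReal_add, hab, Complex.ofReal_one]
    · obtain ⟨p1, p2, p3⟩ := hζ.2 u x
      obtain ⟨q1, q2, q3⟩ := hζ'.2 u x
      rw [hlin, Complex.add_im, Complex.add_re, Complex.im_ofReal_mul, Complex.im_ofReal_mul,
        Complex.re_ofReal_mul, Complex.re_ofReal_mul, p1, q1]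
      have r1 := mul_le_mul_of_nonneg_left p2 ha
      have r2 := mul_le_mul_of_nonneg_left q2 hb
      have r3 := mul_le_mul_of_nonneg_left p3 ha
      have r4 := mul_le_mul_of_nonneg_left q3 hb
      have hb' : b = 1 - a := by linarith
      subst hb'
      refine ⟨by ring, by linarith, by linarith⟩
  have hQne : Q.Nonempty := by
    refine ⟨Ω, (hmem _).2 ⟨by rw [he, hΩ, h1], fun u x => ?_⟩⟩
    rw [he, hΩ]
    refine ⟨?_, hconj u x, hconj' u x⟩
    rw [← fp_conjL_star_mul]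
    exact (Complex.le_def.1 (hpos _)).2.symm
  have hinv : ∀ u, ∀ ζ ∈ Q, h u ζ ∈ Q := by
    intro v ζ hζ
    rw [hmem] at hζ ⊢
    refine ⟨by rw [hh, fp_conjL_map_one, hζ.1], fun u x => ?_⟩
    rw [hh, ← fp_conjL_mul]
    exact hζ.2 _ x
  obtain ⟨ζ, hζQ, hζ⟩ := exists_fixed h (fun u v => ⟨v * u, hmul u v⟩) hC0 hle hge hQc hQconv hQne
    hinv
  rw [hmem] at hζQ
  let τ : A →ₗ[ℂ] ℂ := innerₛₗ ℂ ζ ∘ₗ e
  have hτ : ∀ x, τ x = ⟪ζ, e x⟫_ℂ := fun x => rfl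
  have hb1 : ∀ x, (τ (star x * x)).im = 0 ∧
      (τ (star x * x)).re ≤ C ^ 2 * (ψ (star x * x)).re ∧
      (ψ (star x * x)).re ≤ C ^ 2 * (τ (star x * x)).re := by
    intro x
    have := hζQ.2 1 x
    rwa [fp_conjL_one, ← hτ] at this
  have hinvτ : ∀ (u : unitary A) (y : A), τ ((u : A) * y) = τ (y * (u : A)) := by
    intro u y
    have e1 : fp_conjL u (y * (u : A)) = (u : A) * y := by
      rw [fp_conjL_apply, mul_assoc, mul_assoc, Unitary.mul_star_self_of_mem u.2, mul_one]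
    rw [hτ, hτ, ← e1, ← hh, hζ]
  refine ⟨τ, isTrS_of_pos τ hζQ.1 (fun x => ?_) (fun x y => ?_), C ^ 2, by positivity,
    fun x => (hb1 x).2⟩
  · obtain ⟨p1, -, p3⟩ := hb1 x
    refine Complex.le_def.2 ⟨?_, p1.symm⟩
    have p4 : 0 ≤ (ψ (star x * x)).re := (Complex.le_def.1 (hpos x)).1
    have p5 : 0 < C ^ 2 := by positivity
    rw [Complex.zero_re]
    exact nonneg_of_mul_nonneg_right (p4.trans p3) p5
  · have hx : x ∈ Submodule.span ℂ (unitary A : Set A) := by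
      rw [CStarAlgebra.span_unitary]; trivial
    induction hx using Submodule.span_induction with
    | mem u hu => exact hinvτ ⟨u, hu⟩ y
    | zero => rw [zero_mul, mul_zero]
    | add a b _ _ ha hb => rw [add_mul, mul_add, map_add, map_add, ha, hb]
    | smul c a _ ha => rw [smul_mul_assoc, mul_smul_comm, map_smul, map_smul, ha]

end Vale.Agent.P085Z
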