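import Vale.Agent.P085Z.Basic

set_option autoImplicit false

open scoped InnerProductSpace Topology
open Filter

namespace Vale.Agent.P085Z

open Vale.Agent.P085 Vale.Agent.P085.H551

variable {H : Type*} [NormedAddCommGroup H] [InnerProductSpace ℂ H] [CompleteSpace H]

/-- finite partitions of unity into nonzero projections of `M` commuting with `a` -/
structure FPart (M : VonNeumannAlgebra H) (a : H →L[ℂ] H) (S : Finset (H →L[ℂ] H)) : Prop where
  pj : ∀ p ∈ S, Pj M p
  ne : ∀ p ∈ S, p ≠ 0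
  comm : ∀ p ∈ S, a * p = p * a
  orth : ∀ p ∈ S, ∀ q ∈ S, p ≠ q → p * q = 0
  sum : ∑ p ∈ S, p = 1

theorem FPart.card_le {M : VonNeumannAlgebra H}
    (hfin : FiniteDimensional ℂ (Submodule.span ℂ (M : Set (H →L[ℂ] H)))) {a : H →L[ℂ] H}
    {S : Finset (H →L[ℂ] H)} (h : FPart M a S) :
    S.card ≤ Module.finrank ℂ (Submodule.span ℂ (M : Set (H →L[ℂ] H))) := by
  classical
  let v : S → Submodule.span ℂ (M : Set (H →L[ℂ] H)) :=
    fun p => ⟨p.1, Submodule.subset_span (h.pj p.1 p.2).mem⟩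
  have hv : LinearIndependent ℂ v := by
    rw [Fintype.linearIndependent_iff]
    intro g hg i
    have h1 : ∑ j : S, g j • (j.1 : H →L[ℂ] H) = 0 := by
      have := congrArg Subtype.val hg
      simpa [v] using this
    have h2 : ∑ j : S, g j • (i.1 * j.1 : H →L[ℂ] H) = 0 := by
      have := congrArg (fun y => i.1 * y) h1
      simpa only [Finset.mul_sum, mul_smul_comm, mul_zero] using this
    rw [Finset.sum_eq_single i] at h2
    · rw [(h.pj i.1 i.2).idem] at h2
      exact (smul_eq_zero.1 h2).resolve_right (h.ne i.1 i.2)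
    · intro j _ hj
      rw [h.orth i.1 i.2 j.1 j.2 (fun e => hj (Subtype.ext e).symm), smul_zero]
    · intro hi
      exact absurd (Finset.mem_univ i) hi
  have := hv.fintype_card_le_finrank
  simpa using this

theorem FPart.split {M : VonNeumannAlgebra H} {a : H →L[ℂ] H} {S : Finset (H →L[ℂ] H)}
    (h : FPart M a S) {p q : H →L[ℂ] H} (hp : p ∈ S) (hq : Pj M q) (hqp : q * p = q)
    (hqa : a * q = q * a) (h0 : q ≠ 0) (h1 : q ≠ p) :
    ∃ T, FPart M a T ∧ T.card = S.card + 1 := by
  classical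
  have hP := h.pj p hp
  have hpq : p * q = q := by
    have := congrArg star hqp
    rwa [star_mul, hP.sa, hq.sa] at this
  have hr : Pj M (p - q) := ⟨sub_mem hP.mem hq.mem, by rw [star_sub, hP.sa, hq.sa], by
    rw [sub_mul, mul_sub, mul_sub, hP.idem, hpq, hqp, hq.idem, sub_self, sub_zero]⟩
  have hr0 : p - q ≠ 0 := fun e => h1 (sub_eq_zero.1 e).symm
  have o1 : q * (p - q) = 0 := by rw [mul_sub, hqp, hq.idem, sub_self]
  have o2 : (p - q) * q = 0 := by rw [sub_mul, hpq, hq.idem, sub_self]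
  have o3 : ∀ r ∈ S.erase p, q * r = 0 ∧ r * q = 0 ∧ (p - q) * r = 0 ∧ r * (p - q) = 0 := by
    intro r hr'
    have e1 := h.orth p hp r (Finset.mem_of_mem_erase hr') (Finset.ne_of_mem_erase hr').symm
    have e2 := h.orth r (Finset.mem_of_mem_erase hr') p hp (Finset.ne_of_mem_erase hr')
    have e3 : q * r = 0 := by rw [← hqp, mul_assoc, e1, mul_zero]
    have e4 : r * q = 0 := by rw [← hpq, ← mul_assoc, e2, zero_mul]
    exact ⟨e3, e4, by rw [sub_mul, e1, e3, sub_zero], by rw [mul_sub, e2, e4, sub_zero]⟩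
  have n1 : p - q ∉ S.erase p := fun e => hr0 (by rw [← hr.idem]; exact (o3 _ e).2.2.1)
  have n2 : q ∉ insert (p - q) (S.erase p) := by
    intro e
    rcases Finset.mem_insert.1 e with e | e
    · exact h0 (by rw [← hq.idem, ← o1, ← e])
    · exact h0 (by rw [← hq.idem]; exact (o3 _ e).1)
  refine ⟨insert q (insert (p - q) (S.erase p)), ⟨?_, ?_, ?_, ?_, ?_⟩, ?_⟩
  · intro r hr'
    rcases Finset.mem_insert.1 hr' with rfl | hr'
    · exact hq
    rcases Finset.mem_insert.1 hr' with rfl | hr'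
    · exact hr
    · exact h.pj r (Finset.mem_of_mem_erase hr')
  · intro r hr'
    rcases Finset.mem_insert.1 hr' with rfl | hr'
    · exact h0
    rcases Finset.mem_insert.1 hr' with rfl | hr'
    · exact hr0
    · exact h.ne r (Finset.mem_of_mem_erase hr')
  · intro r hr'
    rcases Finset.mem_insert.1 hr' with rfl | hr'
    · exact hqa
    rcases Finset.mem_insert.1 hr' with rfl | hr'
    · rw [mul_sub, sub_mul, h.comm p hp, hqa]
    · exact h.comm r (Finset.mem_of_mem_erase hr')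
  · intro r hr' s hs hrs
    rcases Finset.mem_insert.1 hr' with e1 | hr'
    · rcases Finset.mem_insert.1 hs with e2 | hs
      · exact absurd (e1.trans e2.symm) hrs
      rcases Finset.mem_insert.1 hs with e2 | hs
      · rw [e1, e2]; exact o1
      · rw [e1]; exact (o3 s hs).1
    rcases Finset.mem_insert.1 hr' with e1 | hr'
    · rcases Finset.mem_insert.1 hs with e2 | hs
      · rw [e1, e2]; exact o2
      rcases Finset.mem_insert.1 hs with e2 | hs
      · exact absurd (e1.trans e2.symm) hrs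
      · rw [e1]; exact (o3 s hs).2.2.1
    · rcases Finset.mem_insert.1 hs with e2 | hs
      · rw [e2]; exact (o3 r hr').2.1
      rcases Finset.mem_insert.1 hs with e2 | hs
      · rw [e2]; exact (o3 r hr').2.2.2
      · exact h.orth r (Finset.mem_of_mem_erase hr') s (Finset.mem_of_mem_erase hs) hrs
  · rw [Finset.sum_insert n2, Finset.sum_insert n1, ← h.sum, ← Finset.add_sum_erase S _ hp]
    abel
  · rw [Finset.card_insert_of_notMem n2, Finset.card_insert_of_notMem n1,
      Finset.card_erase_of_mem hp]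
    have := Finset.card_pos.2 ⟨p, hp⟩
    omega

theorem exists_fpart {M : VonNeumannAlgebra H}
    (hfin : FiniteDimensional ℂ (Submodule.span ℂ (M : Set (H →L[ℂ] H)))) (a : H →L[ℂ] H)
    (h1 : (1 : H →L[ℂ] H) ≠ 0) :
    ∃ S, FPart M a S ∧ ∀ p ∈ S, ∀ q, Pj M q → q * p = q → a * q = q * a → q = 0 ∨ q = p := by
  classical
  have hne : FPart M a {1} := by
    refine ⟨?_, ?_, ?_, ?_, by simp⟩
    · intro p hp
      rw [Finset.mem_singleton.1 hp]
      exact ⟨one_mem _, star_one _, one_mul _⟩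
    · intro p hp
      rw [Finset.mem_singleton.1 hp]
      exact h1
    · intro p hp
      rw [Finset.mem_singleton.1 hp, mul_one, one_mul]
    · intro p hp q hq hpq
      exact absurd ((Finset.mem_singleton.1 hp).trans (Finset.mem_singleton.1 hq).symm) hpq
  let P : ℕ → Prop := fun n => ∃ S, FPart M a S ∧ S.card = n
  let D := Module.finrank ℂ (Submodule.span ℂ (M : Set (H →L[ℂ] H)))
  have hP1 : P 1 := ⟨{1}, hne, by simp⟩
  have h1D : 1 ≤ D := by
    have := hne.card_le hfin
    rwa [Finset.card_singleton] at this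
  obtain ⟨S, hS, hc⟩ : P (Nat.findGreatest P D) := Nat.findGreatest_spec h1D hP1
  refine ⟨S, hS, fun p hp q hq hqp hqa => ?_⟩
  by_contra hcon
  push Not at hcon
  obtain ⟨T, hT, hTc⟩ := hS.split hp hq hqp hqa hcon.1 hcon.2
  have h2 : T.card ≤ Nat.findGreatest P D := Nat.le_findGreatest (hT.card_le hfin) ⟨T, hT, rfl⟩
  omega

theorem scal_of_min {M : VonNeumannAlgebra H} {a p : H →L[ℂ] H} (has : star a = a) (hp : Pj M p)
    (hpa : a * p = p * a)
    (hmin : ∀ q, Pj M q → q * p = q → a * q = q * a → q = 0 ∨ q = p) {y : H →L[ℂ] H}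
    (hy : y ∈ M) (hys : star y = y) (hya : a * y = y * a) (hyp : p * y = y * p) :
    ∃ c : ℂ, y * p = c • p := by
  let f : (H →L[ℂ] H) →L[ℂ] (H →L[ℂ] H) := (ContinuousLinearMap.mul ℂ (H →L[ℂ] H)).flip p
  let V : Submodule ℂ (H →L[ℂ] H) := (Submodule.span ℂ {p}).comap f.toLinearMap
  have hV : IsClosed (V : Set (H →L[ℂ] H)) :=
    (Submodule.closed_of_finiteDimensional (Submodule.span ℂ {p})).preimage f.continuous
  have hstar : ∀ s ∈ ({a, p} : Set (H →L[ℂ] H)), star s ∈ ({a, p} : Set (H →L[ℂ] H)) := by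
    rintro s (rfl | rfl)
    · exact Or.inl has
    · exact Or.inr hp.sa
  have h := mem_of_proj_mem V hV hys fun e he hee hN => by
    have h1 := mem_commVN.1 (hN (commVN {a, p} hstar) (mem_commVN.2 (by
      rintro s (rfl | rfl)
      · exact hya
      · exact hyp)))
    have hea : a * e = e * a := h1 a (Or.inl rfl)
    have hep : p * e = e * p := h1 p (Or.inr rfl)
    have hq : Pj M (e * p) := ⟨mul_mem (hN M hy) hp.mem, by rw [star_mul, he, hp.sa, hep], by
      rw [mul_assoc, ← mul_assoc p e, hep, mul_assoc, hp.idem, ← mul_assoc, hee]⟩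
    have h2 := hmin (e * p) hq (by rw [mul_assoc, hp.idem])
      (by rw [← mul_assoc, hea, mul_assoc, hpa, mul_assoc])
    change e * p ∈ Submodule.span ℂ {p}
    rcases h2 with h2 | h2
    · rw [h2]; exact zero_mem _
    · rw [h2]; exact Submodule.subset_span rfl
  have h' : y * p ∈ Submodule.span ℂ {p} := h
  obtain ⟨c, hc⟩ := Submodule.mem_span_singleton.1 h'
  exact ⟨c, hc.symm⟩

theorem corner_of_min {M : VonNeumannAlgebra H} {a p : H →L[ℂ] H} (ha : a ∈ M)
    (has : star a = a) (hp : Pj M p) (hpa : a * p = p * a)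
    (hmin : ∀ q, Pj M q → q * p = q → a * q = q * a → q = 0 ∨ q = p) {x : H →L[ℂ] H}
    (hx : x ∈ M) : ∃ c : ℂ, p * x * p = c • p := by
  obtain ⟨l, hl⟩ := scal_of_min has hp hpa hmin ha has rfl hpa.symm
  have key : ∀ y ∈ M, star y = y → ∃ c : ℂ, p * y * p = c • p := by
    intro y hy hys
    obtain ⟨c, hc⟩ := scal_of_min has hp hpa hmin (y := p * y * p)
      (mul_mem (mul_mem hp.mem hy) hp.mem)
      (by rw [star_mul, star_mul, hp.sa, hys, mul_assoc])
      (by
        rw [← mul_assoc, ← mul_assoc, hl, mul_assoc (p * y) p a, ← hpa, hl, smul_mul_assoc,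
          smul_mul_assoc, mul_smul_comm])
      (by rw [← mul_assoc, ← mul_assoc, hp.idem, mul_assoc (p * y) p p, hp.idem])
    exact ⟨c, by rw [← hc, mul_assoc (p * y) p p, hp.idem]⟩
  obtain ⟨c, hc⟩ := key (x + star x) (add_mem hx (star_mem hx))
    (by rw [star_add, star_star, add_comm])
  obtain ⟨d, hd⟩ := key (Complex.I • (x - star x)) (vn_smul_mem M _ (sub_mem hx (star_mem hx)))
    (by
      rw [star_smul, star_sub, star_star, Complex.star_def, Complex.conj_I, neg_smul, ← smul_neg,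
        neg_sub])
  refine ⟨(c - Complex.I * d) / 2, ?_⟩
  have e : x = (1 / 2 : ℂ) • ((x + star x) - Complex.I • (Complex.I • (x - star x))) := by
    rw [smul_smul, Complex.I_mul_I]
    module
  have e2 : p * x * p = (1 / 2 : ℂ) • (p * (x + star x) * p -
      Complex.I • (p * (Complex.I • (x - star x)) * p)) := by
    conv_lhs => rw [e]
    rw [mul_smul_comm, smul_mul_assoc, mul_sub, sub_mul, mul_smul_comm Complex.I p,
      smul_mul_assoc]
  rw [e2, hc, hd]
  module

theorem exists_avoid (F : Finset ℂ) {δ : ℝ} (hδ : 0 < δ) :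
    ∃ s : ℝ, 0 < s ∧ s ≤ δ ∧ (s : ℂ) ∉ F := by
  obtain ⟨s, hs, hF⟩ := (Set.Ioc_infinite hδ).exists_notMem_finset (F.image Complex.re)
  refine ⟨s, hs.1, hs.2, fun h => hF ?_⟩
  exact Finset.mem_image.2 ⟨s, h, by simp⟩

theorem exists_a {M : VonNeumannAlgebra H} {a : H →L[ℂ] H} {S : Finset (H →L[ℂ] H)}
    (hS : FPart M a S) (ha : a ∈ M) (has : star a = a)
    (hl : ∀ p ∈ S, ∃ c : ℂ, a * p = c • p) {ε : ℝ} (hε : 0 < ε) :
    ∃ a' ∈ M, star a' = a' ∧ ‖a' - a‖ ≤ ε ∧
      ∀ N : VonNeumannAlgebra H, a' ∈ N → ∀ p ∈ S, p ∈ N := by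
  classical
  choose! l hl using hl
  obtain ⟨k, hk⟩ : ∃ k : (H →L[ℂ] H) → ℕ, Set.InjOn k S := by
    refine ⟨fun p => if h : p ∈ S then (S.equivFin ⟨p, h⟩ : ℕ) else 0, fun p hp q hq e => ?_⟩
    have hp' : p ∈ S := hp
    have hq' : q ∈ S := hq
    simp only [hp', hq', dif_pos] at e
    exact congrArg Subtype.val (S.equivFin.injective (Fin.ext e))
  set d : H →L[ℂ] H := ∑ p ∈ S, (k p : ℂ) • p with hd
  obtain ⟨s, hs0, hs1, hs2⟩ := exists_avoid
    ((S ×ˢ S).image fun z => (l z.2 - l z.1) / ((k z.1 : ℂ) - k z.2))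
    (δ := ε / (‖d‖ + 1)) (by positivity)
  have hdp : ∀ p ∈ S, d * p = (k p : ℂ) • p := by
    intro p hp
    rw [hd, Finset.sum_mul, Finset.sum_eq_single p]
    · rw [smul_mul_assoc, (hS.pj p hp).idem]
    · intro q hq hqp
      rw [smul_mul_assoc, hS.orth q hq p hp hqp, smul_zero]
    · intro h
      exact absurd hp h
  have hpd : ∀ p ∈ S, p * d = (k p : ℂ) • p := by
    intro p hp
    rw [hd, Finset.mul_sum, Finset.sum_eq_single p]
    · rw [mul_smul_comm, (hS.pj p hp).idem]
    · intro q hq hqp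
      rw [mul_smul_comm, hS.orth p hp q hq hqp.symm, smul_zero]
    · intro h
      exact absurd hp h
  have hds : star d = d := by
    rw [hd, star_sum]
    refine Finset.sum_congr rfl fun p hp => ?_
    rw [star_smul, (hS.pj p hp).sa, star_natCast]
  refine ⟨a + (s : ℂ) • d, add_mem ha (vn_smul_mem M _
    (sum_mem fun p hp => vn_smul_mem M _ (hS.pj p hp).mem)), ?_, ?_, fun N hN => ?_⟩
  · rw [star_add, has, star_smul, hds, Complex.star_def, Complex.conj_ofReal]
  · rw [add_sub_cancel_left, norm_smul, Complex.norm_real, Real.norm_eq_abs, abs_of_pos hs0]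
    rw [le_div_iff₀ (by positivity)] at hs1
    nlinarith [norm_nonneg d]
  · have r1 : ∀ p ∈ S, (a + (s : ℂ) • d) * p = (l p + s * k p) • p := by
      intro p hp
      rw [add_mul, hl p hp, smul_mul_assoc, hdp p hp, smul_smul, add_smul]
    have r2 : ∀ p ∈ S, p * (a + (s : ℂ) • d) = (l p + s * k p) • p := by
      intro p hp
      rw [mul_add, ← hS.comm p hp, hl p hp, mul_smul_comm, hpd p hp, smul_smul, add_smul]
    intro p hp
    refine vn_mem_of_commutes N fun y hy => ?_
    have hc := vn_commutes N hN hy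
    have z : ∀ q ∈ S, ∀ r ∈ S, q ≠ r → q * y * r = 0 := by
      intro q hq r hr hqr
      have e1 : q * ((a + (s : ℂ) • d) * y) * r = (l q + s * k q) • (q * y * r) := by
        rw [← mul_assoc, r2 q hq, smul_mul_assoc, smul_mul_assoc]
      have e2 : q * (y * (a + (s : ℂ) • d)) * r = (l r + s * k r) • (q * y * r) := by
        rw [← mul_assoc, mul_assoc (q * y), r1 r hr, mul_smul_comm]
      rw [hc, e2] at e1
      have e3 : ((l r + s * k r) - (l q + s * k q)) • (q * y * r) = 0 := by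
        rw [sub_smul, e1, sub_self]
      refine (smul_eq_zero.1 e3).resolve_left fun e4 => hs2 ?_
      refine Finset.mem_image.2 ⟨(q, r), Finset.mem_product.2 ⟨hq, hr⟩, ?_⟩
      have e5 : (k q : ℂ) - k r ≠ 0 := by
        intro e6
        exact hqr (hk hq hr (by exact_mod_cast sub_eq_zero.1 e6))
      simp only
      rw [div_eq_iff e5]
      linear_combination e4
    have e1 : y * p = p * y * p := by
      conv_lhs => rw [← one_mul y, ← hS.sum, Finset.sum_mul, Finset.sum_mul]
      rw [Finset.sum_eq_single p (fun q hq hqp => z q hq p hp hqp) (fun h => absurd hp h)]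
    have e2 : p * y = p * y * p := by
      conv_lhs => rw [← mul_one (p * y), ← hS.sum, Finset.mul_sum]
      rw [Finset.sum_eq_single p (fun q hq hqp => z p hp q hq hqp.symm) (fun h => absurd hp h)]
    rw [e1, ← e2]

theorem exists_b {M : VonNeumannAlgebra H} (hM : IsFactor M) {a b : H →L[ℂ] H}
    {S : Finset (H →L[ℂ] H)} (hS : FPart M a S) (hb : b ∈ M) (hbs : star b = b)
    (hc : ∀ p ∈ S, ∀ x ∈ M, ∃ c : ℂ, p * x * p = c • p) (h1 : (1 : H →L[ℂ] H) ≠ 0)
    {ε : ℝ} (hε : 0 < ε) :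
    ∃ b' ∈ M, star b' = b' ∧ ‖b' - b‖ ≤ ε ∧
      ∀ N : VonNeumannAlgebra H, b' ∈ N → (∀ p ∈ S, p ∈ N) → M ≤ N := by
  classical
  obtain ⟨p0, hp0⟩ : S.Nonempty := by
    rw [Finset.nonempty_iff_ne_empty]
    intro e
    have := hS.sum
    rw [e, Finset.sum_empty] at this
    exact h1 this.symm
  have P0 := hS.pj p0 hp0
  have hv : ∀ p ∈ S, ∃ v ∈ M, v ≠ 0 ∧ p0 * v = v ∧ v * p = v := by
    intro p hp
    by_contra hcon
    push Not at hcon
    have := hM.isFac.eq_zero_or (p := p0) (hS.pj p hp).mem fun x hx => by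
      by_contra hne
      exact hcon (p0 * x * p) (mul_mem (mul_mem P0.mem hx) (hS.pj p hp).mem) hne
        (by rw [← mul_assoc, ← mul_assoc, P0.idem]) (by rw [mul_assoc, (hS.pj p hp).idem])
    rcases this with e | e
    · exact hS.ne p0 hp0 e
    · exact hS.ne p hp e
  choose! v hvM hv0 hv1 hv2 using hv
  have hvv : ∀ p ∈ S, ∃ d : ℂ, d ≠ 0 ∧ star (v p) * v p = d • p := by
    intro p hp
    obtain ⟨d, hd⟩ := hc p hp (star (v p) * v p) (mul_mem (star_mem (hvM p hp)) (hvM p hp))
    have e : p * star (v p) = star (v p) := by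
      have := congrArg star (hv2 p hp)
      rwa [star_mul, (hS.pj p hp).sa] at this
    rw [← mul_assoc, e, mul_assoc, hv2 p hp] at hd
    refine ⟨d, fun h0 => hv0 p hp ?_, hd⟩
    rw [h0, zero_smul] at hd
    exact (CStarRing.star_mul_self_eq_zero_iff _).1 hd
  have hline : ∀ p ∈ S, ∀ x ∈ M, ∃ c : ℂ, p0 * x * p = c • v p := by
    intro p hp x hx
    obtain ⟨d, hd0, hd⟩ := hvv p hp
    obtain ⟨c, hc'⟩ := hc p0 hp0 (x * star (v p)) (mul_mem hx (star_mem (hvM p hp)))
    refine ⟨d⁻¹ * c, ?_⟩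
    have e : d • (p0 * x * p) = c • v p := by
      rw [← mul_smul_comm, ← hd]
      conv_lhs => rw [← hv1 p hp]
      conv_rhs => rw [← hv1 p hp, ← smul_mul_assoc, ← hc']
      have e1 : star (p0 * v p) = star (v p) := by rw [hv1 p hp]
      rw [e1]
      noncomm_ring
    rw [← smul_smul, ← e, smul_smul, inv_mul_cancel₀ hd0, one_smul]
  choose! β hβ using fun p hp => hline p hp b hb
  set w : H →L[ℂ] H := ∑ p ∈ S.erase p0, (v p + star (v p)) with hw
  obtain ⟨s, hs0, hs1, hs2⟩ := exists_avoid (S.image fun p => -β p)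
    (δ := ε / (‖w‖ + 1)) (by positivity)
  have hws : star w = w := by
    rw [hw, star_sum]
    exact Finset.sum_congr rfl fun p _ => by rw [star_add, star_star, add_comm]
  have hwp : ∀ p ∈ S.erase p0, p0 * w * p = v p := by
    intro p hp
    have hpS := Finset.mem_of_mem_erase hp
    have z : ∀ q ∈ S.erase p0, p0 * (v q + star (v q)) = v q := by
      intro q hq
      have hqS := Finset.mem_of_mem_erase hq
      have e : v q * p0 = 0 := by
        rw [← hv2 q hqS, mul_assoc, hS.orth q hqS p0 hp0 (Finset.ne_of_mem_erase hq), mul_zero]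
      have e' := congrArg star e
      rw [star_mul, P0.sa, star_zero] at e'
      rw [mul_add, hv1 q hqS, e', add_zero]
    rw [hw, Finset.mul_sum, Finset.sum_mul, Finset.sum_eq_single p]
    · rw [z p hp, hv2 p hpS]
    · intro q hq hqp
      have hqS := Finset.mem_of_mem_erase hq
      rw [z q hq, ← hv2 q hqS, mul_assoc, hS.orth q hqS p hpS hqp, mul_zero]
    · intro h
      exact absurd hp h
  refine ⟨b + (s : ℂ) • w, add_mem hb (vn_smul_mem M _ (sum_mem fun p hp =>
    add_mem (hvM p (Finset.mem_of_mem_erase hp)) (star_mem (hvM p (Finset.mem_of_mem_erase hp))))),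
    ?_, ?_, fun N hN hP => ?_⟩
  · rw [star_add, hbs, star_smul, hws, Complex.star_def, Complex.conj_ofReal]
  · rw [add_sub_cancel_left, norm_smul, Complex.norm_real, Real.norm_eq_abs, abs_of_pos hs0]
    rw [le_div_iff₀ (by positivity)] at hs1
    nlinarith [norm_nonneg w]
  · have hvN : ∀ p ∈ S.erase p0, v p ∈ N := by
      intro p hp
      have hpS := Finset.mem_of_mem_erase hp
      have e : p0 * (b + (s : ℂ) • w) * p = (β p + s) • v p := by
        rw [mul_add, add_mul, hβ p hpS, mul_smul_comm, smul_mul_assoc, hwp p hp, add_smul]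
      have e0 : β p + s ≠ 0 := fun e1 =>
        hs2 (Finset.mem_image.2 ⟨p, hpS, by linear_combination -e1⟩)
      have e2 : v p = (β p + s)⁻¹ • (p0 * (b + (s : ℂ) • w) * p) := by
        rw [e, smul_smul, inv_mul_cancel₀ e0, one_smul]
      rw [e2]
      exact vn_smul_mem N _ (mul_mem (mul_mem (hP p0 hp0) hN) (hP p hpS))
    have hrow : ∀ p ∈ S, ∀ x ∈ M, p0 * x * p ∈ N := by
      intro p hp x hx
      by_cases e : p = p0
      · obtain ⟨c, hc'⟩ := hc p0 hp0 x hx
        rw [e, hc']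
        exact vn_smul_mem N _ (hP p0 hp0)
      · obtain ⟨c, hc'⟩ := hline p hp x hx
        rw [hc']
        exact vn_smul_mem N _ (hvN p (Finset.mem_erase.2 ⟨e, hp⟩))
    have hall : ∀ p ∈ S, ∀ q ∈ S, ∀ x ∈ M, p * x * q ∈ N := by
      intro p hp q hq x hx
      obtain ⟨d, hd0, hd⟩ := hvv p hp
      have h2 : v p ∈ N := by
        have := hrow p hp (v p) (hvM p hp)
        rwa [hv1 p hp, hv2 p hp] at this
      have h3 := hrow q hq (v p * x) (mul_mem (hvM p hp) hx)
      have e : p * x * q = d⁻¹ • (star (v p) * (p0 * (v p * x) * q)) := by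
        rw [← mul_assoc p0, hv1 p hp, ← mul_assoc, ← mul_assoc, hd, smul_mul_assoc,
          smul_mul_assoc, smul_smul, inv_mul_cancel₀ hd0, one_smul]
      rw [e]
      exact vn_smul_mem N _ (mul_mem (star_mem h2) h3)
    intro x hx
    have e : x = ∑ p ∈ S, ∑ q ∈ S, p * x * q := by
      have e1 : ∀ p ∈ S, ∑ q ∈ S, p * x * q = p * x := fun p _ => by
        rw [← Finset.mul_sum, hS.sum, mul_one]
      rw [Finset.sum_congr rfl e1, ← Finset.sum_mul, hS.sum, one_mul]
    rw [e]
    exact sum_mem fun p hp => sum_mem fun q hq => hall p hp q hq x hx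

/-- generating pairs are dense in a finite dimensional factor -/
theorem dense_pairs_fin {M : VonNeumannAlgebra H} (hM : IsFactor M)
    (hfin : FiniteDimensional ℂ (Submodule.span ℂ (M : Set (H →L[ℂ] H))))
    {a b : H →L[ℂ] H} (ha : a ∈ M) (hb : b ∈ M) (has : star a = a) (hbs : star b = b)
    {ε : ℝ} (hε : 0 < ε) :
    ∃ a' ∈ M, ∃ b' ∈ M, star a' = a' ∧ star b' = b' ∧ ‖a' - a‖ ≤ ε ∧ ‖b' - b‖ ≤ ε ∧
      Gen2 M a' b' := by
  by_cases h1 : (1 : H →L[ℂ] H) = 0
  · refine ⟨a, ha, b, hb, has, hbs, by simpa using hε.le, by simpa using hε.le,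
      fun N _ _ x _ => ?_⟩
    rw [← mul_one x, h1, mul_zero]
    exact zero_mem _
  obtain ⟨S, hS, hmin⟩ := exists_fpart hfin a h1
  obtain ⟨a', ha', has', hn, hN⟩ := exists_a hS ha has (fun p hp =>
    scal_of_min has (hS.pj p hp) (hS.comm p hp) (hmin p hp) ha has rfl (hS.comm p hp).symm) hε
  obtain ⟨b', hb', hbs', hn', hN'⟩ := exists_b hM hS hb hbs (fun p hp x hx =>
    corner_of_min ha has (hS.pj p hp) (hS.comm p hp) (hmin p hp) hx) h1 hε
  exact ⟨a', ha', b', hb', has', hbs', hn, hn', fun N h2 h3 => hN' N h3 (hN N h2)⟩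

end Vale.Agent.P085Z
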