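import Vale.Agent.P085Z.Basic
import Vale.Agent.P085Z.Inf.Geo

set_option autoImplicit false

open scoped InnerProductSpace Topology
open Filter

namespace Vale.Agent.P085Z

open Vale.Agent.P085 Vale.Agent.P085Z.Inf

variable {H : Type*} [NormedAddCommGroup H] [InnerProductSpace ℂ H] [CompleteSpace H]

/-- a sequence of projections of a commutative algebra is coded by one self-adjoint element -/
theorem Inf.exists_code (A : VonNeumannAlgebra H) (hA : ∀ x ∈ A, ∀ y ∈ A, x * y = y * x)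
    (p : ℕ → (H →L[ℂ] H)) (hp : ∀ n, Pj A (p n)) :
    ∃ a ∈ A, star a = a ∧ ∀ N : VonNeumannAlgebra H, a ∈ N → ∀ n, p n ∈ N := by
  have hq : ∀ n, star (1 - p n) = 1 - p n := fun n => by rw [star_sub, star_one, (hp n).sa]
  have hqn : ∀ n, ‖1 - p n‖ ≤ 1 := fun n => norm_pj_le (hq n) (by
    rw [mul_sub, sub_mul, sub_mul, (hp n).idem, mul_one, mul_one, one_mul, sub_self, sub_zero])
  choose X hX hXn using fun k : ℕ => exists_geo (fun n => 1 - p (n + k)) fun n => hqn _
  have hXA : ∀ k, X k ∈ A := fun k => hasSum_mem A (hX k) fun n =>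
    vn_smul_mem A _ (sub_mem (one_mem A) (hp _).mem)
  have hrec : ∀ k, X k = (1 - p k) + (1 / 4 : ℂ) • X (k + 1) := by
    intro k
    have h1 := (hX (k + 1)).const_smul (1 / 4 : ℂ)
    have h2 : HasSum (fun n => (((1 / 4 : ℝ) ^ (n + 1) : ℝ) : ℂ) • (1 - p (n + 1 + k)))
        ((1 / 4 : ℂ) • X (k + 1)) := by
      refine h1.congr_fun fun n => ?_
      rw [smul_smul, show n + (k + 1) = n + 1 + k by omega]
      congr 1
      push_cast
      ring
    have h3 := (hasSum_nat_add_iff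
      (f := fun n => (((1 / 4 : ℝ) ^ n : ℝ) : ℂ) • (1 - p (n + k))) 1).1 h2
    have h4 := (hX k).unique h3
    rw [h4, Finset.sum_range_one, pow_zero, Complex.ofReal_one, one_smul, zero_add, add_comm]
  refine ⟨X 0, hXA 0, hasSum_sa (hX 0) fun n => star_real_smul _ (hq _), fun N hN => ?_⟩
  have hdec : ∀ k, X k ∈ N → p k ∈ N := by
    intro k hk
    have hr : ‖(3 / 4 : ℂ) • X (k + 1)‖ ≤ 1 := by
      rw [norm_smul]
      have h1 : ‖(3 / 4 : ℂ)‖ = 3 / 4 := by simp
      have := hXn (k + 1)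
      rw [h1]
      linarith
    have hc : (3 / 4 : ℂ) • X (k + 1) * p k = p k * (3 / 4 : ℂ) • X (k + 1) :=
      hA _ (vn_smul_mem A _ (hXA _)) _ (hp k).mem
    refine proj_mem_of_gap N (hp k).idem (hp k).sa hc hc hr hr (X := (3 : ℂ) • X k) ?_
      (vn_smul_mem N _ hk)
    rw [hrec k, smul_add, smul_smul, mul_add, mul_smul_comm (3 : ℂ), mul_one, sub_mul, one_mul,
      show (3 : ℂ) * (1 / 4) = 3 / 4 by norm_num]
    abel
  have hall : ∀ k, X k ∈ N := by
    intro k
    induction k with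
    | zero => exact hN
    | succ k ih =>
      have e : X (k + 1) = (4 : ℂ) • (X k - (1 - p k)) := by
        rw [hrec k, add_sub_cancel_left, smul_smul]
        norm_num
      rw [e]
      exact vn_smul_mem N _ (sub_mem ih (sub_mem (one_mem N) (hdec k ih)))
  exact fun n => hdec n (hall n)

/-- a commuting family of self-adjoint elements lies in the von Neumann algebra generated by one
self-adjoint element -/
theorem exists_sa_gen {M : VonNeumannAlgebra H} (hs : WSep M) (B : Set (H →L[ℂ] H))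
    (hB : ∀ x ∈ B, x ∈ M ∧ star x = x) (hc : ∀ x ∈ B, ∀ y ∈ B, x * y = y * x) :
    ∃ a ∈ M, star a = a ∧ ∀ N : VonNeumannAlgebra H, a ∈ N → ∀ x ∈ B, x ∈ N := by
  have hle : genVN B ≤ M := genVN_le fun x hx => (hB x hx).1
  have h1 : ∀ y ∈ genVN B, y ∈ starComm B := by
    intro y hy x hx
    have h2 : x ∈ starComm B := fun s hs' => by
      rw [(hB s hs').2]; exact ⟨hc x hx s hs', hc x hx s hs'⟩
    rw [(hB x hx).2]
    exact ⟨(mem_genVN.1 hy x h2).symm, (mem_genVN.1 hy x h2).symm⟩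
  have hA : ∀ x ∈ genVN B, ∀ y ∈ genVN B, x * y = y * x :=
    fun x hx y hy => mem_genVN.1 hy x (h1 x hx)
  obtain ⟨p, hp, hd⟩ := hs.exists_seq {p | Pj (genVN B) p}
    (fun t ht => ⟨hle ht.mem, norm_pj_le ht.sa ht.idem⟩)
    ⟨0, zero_mem _, star_zero _, mul_zero _⟩
  obtain ⟨a, ha, has, hN⟩ := Inf.exists_code (genVN B) hA p hp
  refine ⟨a, hle ha, has, fun N haN x hx => ?_⟩
  refine mem_of_proj_mem N.toStarSubalgebra.toSubalgebra.toSubmodule (vn_isClosed N) (hB x hx).2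
    fun q hq1 hq2 hq3 => ?_
  obtain ⟨φ, hφ⟩ := hd q ⟨hq3 _ (subset_genVN B hx), hq1, hq2⟩
  exact mem_of_wlim N (fun k => hN N haN (φ k)) hφ

/-- a contraction with prescribed central cuts -/
theorem Inf.exists_glued (M : VonNeumannAlgebra H) (S : Set (H →L[ℂ] H)) (hS : ∀ z ∈ S, CP M z)
    (horth : S.Pairwise fun a b => a * b = 0) (b : S → (H →L[ℂ] H))
    (hb : ∀ z, b z ∈ M ∧ star (b z) = b z ∧ ‖b z‖ ≤ 1) :
    ∃ x ∈ M, star x = x ∧ ‖x‖ ≤ 1 ∧ ∀ z : S, x * z = b z * z := by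
  classical
  have hfin : ∀ u : Finset S, ∃ x ∈ M, star x = x ∧ ‖x‖ ≤ 1 ∧ ∀ z ∈ u, x * z = b z * z := by
    intro u
    induction u using Finset.induction_on with
    | empty => exact ⟨0, zero_mem _, star_zero _, by simp, by simp⟩
    | insert z u hz ih =>
      obtain ⟨x, hx, hxs, hxn, hxu⟩ := ih
      have hz' := hS z z.2
      obtain ⟨hb1, hb2, hb3⟩ := hb z
      refine ⟨x * (1 - z) + b z * z, add_mem (mul_mem hx (sub_mem (one_mem M) hz'.mem))
        (mul_mem hb1 hz'.mem), ?_, norm_glue hz'.sa hz'.idem (hz'.comm x hx) (hz'.comm _ hb1) hxn hb3,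
        fun z' hz'' => ?_⟩
      · rw [star_add, star_mul, star_mul, star_sub, star_one, hz'.sa, hxs, hb2, ← hz'.comm _ hb1,
          sub_mul, mul_sub, ← hz'.comm x hx, one_mul, mul_one]
      · rcases Finset.mem_insert.1 hz'' with rfl | h
        · rw [add_mul, mul_assoc, mul_assoc, sub_mul, one_mul, hz'.idem, sub_self, mul_zero,
            zero_add]
        · have hne : (z : H →L[ℂ] H) ≠ z' := fun e => hz (Subtype.ext e ▸ h)
          rw [add_mul, mul_assoc, mul_assoc, sub_mul, one_mul, horth z.2 z'.2 hne, sub_zero,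
            mul_zero, add_zero, hxu z' h]
  have hK : IsCompact ({A : H →WOT[ℂ] H | ‖A.toCLM‖ ≤ 1} ∩
      ({A : H →WOT[ℂ] H | A.toCLM ∈ M} ∩ {A : H →WOT[ℂ] H | star A.toCLM = A.toCLM})) :=
    isCompact_wot_ball.inter_right ((isClosed_wot_mem M).inter isClosed_wot_star)
  obtain ⟨A, ⟨h1, h2, h3⟩, h4⟩ := hK.inter_iInter_nonempty
    (fun z : S => {A : H →WOT[ℂ] H | A.toCLM * z = b z * z})
    (fun z => isClosed_wot_mul_right _ _) (fun u => by
      obtain ⟨x, hx, hxs, hxn, hxu⟩ := hfin u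
      exact ⟨ContinuousLinearMapWOT.ofCLM x, ⟨hxn, hx, hxs⟩,
        Set.mem_iInter₂.2 fun z hz => hxu z hz⟩)
  exact ⟨A.toCLM, h2, h3, h1, fun z => Set.mem_iInter.1 h4 z⟩

/-- gluing over the centre -/
theorem good_one (M : VonNeumannAlgebra H)
    (h : ∀ z, CP M z → z ≠ 0 → ∃ z', CP M z' ∧ z' ≠ 0 ∧ z' * z = z' ∧ Good M z') :
    Good M 1 := by
  obtain ⟨S, hS, horth, htot⟩ := exists_total M (Good M) h
  choose B b hB hBc hbM hbs hbn hgen using fun z : S => (hS z z.2).2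
  obtain ⟨x, hx, hxs, hxn, hxz⟩ := Inf.exists_glued M S (fun z hz => (hS z hz).1) horth b
    fun z => ⟨hbM z, hbs z, hbn z⟩
  have hC : ∀ z : S, CP M z := fun z => (hS z z.2).1
  refine ⟨{y | ∃ z : S, ∃ c ∈ B z, y = c * z}, x, ?_, ?_, hx, hxs, hxn, ?_⟩
  · rintro _ ⟨z, c, hc, rfl⟩
    refine ⟨mul_mem (hB z c hc).1 (hC z).mem, ?_⟩
    rw [star_mul, (hC z).sa, (hB z c hc).2, (hC z).comm c (hB z c hc).1]
  · rintro _ ⟨z, c, hc, rfl⟩ _ ⟨z', c', hc', rfl⟩
    have e : ∀ (u u' : S) (d d' : H →L[ℂ] H), d' ∈ M → d * u * (d' * u') = d * d' * (u * u') := by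
      intro u u' d d' hd'
      rw [mul_assoc, ← mul_assoc (u : H →L[ℂ] H), ← (hC u).comm d' hd']
      simp only [mul_assoc]
    rw [e z z' c c' (hB z' c' hc').1, e z' z c' c (hB z c hc).1]
    by_cases hzz : z = z'
    · subst hzz
      rw [hBc z c hc c' hc']
    · have hne : (z : H →L[ℂ] H) ≠ z' := fun e => hzz (Subtype.ext e)
      rw [horth z.2 z'.2 hne, horth z'.2 z.2 hne.symm, mul_zero, mul_zero]
  · intro N hCN hBN hxN y hy
    rw [mul_one]
    apply vn_mem_of_commutes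
    intro n hn
    have key : ∀ z : S, z * (n * y - y * n) = 0 := by
      intro z
      have hz := hC z
      have hzN : (z : H →L[ℂ] H) ∈ N := hCN z ⟨hz.mem, hz.comm⟩
      have hcut : ∀ c ∈ M, c * z ∈ N → ∀ s ∈ {s | ∃ m ∈ N.commutant, s = m * z}, s * c = c * s := by
        rintro c hc hcz _ ⟨m, hm, rfl⟩
        rw [mul_assoc, ← hz.comm c hc, ← vn_commutes N hcz hm, mul_assoc, vn_commutes N hzN hm]
      have hst : ∀ s ∈ {s | ∃ m ∈ N.commutant, s = m * z},
          star s ∈ {s | ∃ m ∈ N.commutant, s = m * (z : H →L[ℂ] H)} := by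
        rintro _ ⟨m, hm, rfl⟩
        exact ⟨star m, star_mem hm, by rw [star_mul, hz.sa, vn_commutes N hzN (star_mem hm)]⟩
      have h1 := hgen z (commVN _ hst)
        (fun c hc => mem_commVN.2 (hcut c hc.1 (mul_mem (hCN c hc) hzN)))
        (fun c hc => mem_commVN.2 (hcut c (hB z c hc).1 (hBN _ ⟨z, c, hc, rfl⟩)))
        (mem_commVN.2 (hcut _ (hbM z) (hxz z ▸ mul_mem hxN hzN))) y hy
      have h2 := mem_commVN.1 h1 (n * z) ⟨n, hn, rfl⟩
      have hzn := vn_commutes N hzN hn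
      have e1 : n * z * (y * z) = z * (n * y) := by
        rw [hz.comm y hy, mul_assoc, ← mul_assoc (z : H →L[ℂ] H), hz.idem, ← mul_assoc, ← hzn,
          mul_assoc]
      have e2 : y * z * (n * z) = z * (y * n) := by
        rw [← hzn, mul_assoc, ← mul_assoc (z : H →L[ℂ] H), hz.idem, ← mul_assoc, hz.comm y hy,
          mul_assoc]
      rw [mul_sub, ← e1, ← e2, h2, sub_self]
    rw [← sub_eq_zero]
    ext v
    exact htot _ fun z hz => by
      have := congrArg (fun T : H →L[ℂ] H => T v) (key ⟨z, hz⟩)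
      simpa only [mul_apply_eq_comp, zero_apply] using this

theorem single_of_good_one {M : VonNeumannAlgebra H} (hs : WSep M) (h : Good M 1) :
    IsSinglyGenerated M := by
  obtain ⟨B, b, hB, hBc, hbM, hbs, -, hgen⟩ := h
  obtain ⟨a, ha, has, hN⟩ := exists_sa_gen hs (B ∪ {c | c ∈ Ctr M ∧ star c = c})
    (by
      rintro x (hx | hx)
      · exact hB x hx
      · exact ⟨hx.1.1, hx.2⟩)
    (by
      rintro x (hx | hx) y (hy | hy)
      · exact hBc x hx y hy
      · exact hy.1.2 x (hB x hx).1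
      · exact (hx.1.2 y (hB y hy).1).symm
      · exact hy.1.2 x hx.1.1)
  refine isSinglyGenerated_of_pair M ha hbM has hbs fun N haN hbN y hy => ?_
  have hC : ∀ c ∈ Ctr M, c ∈ N := by
    intro c hc
    have hst : ∀ y ∈ M, y * star c = star c * y := by
      intro y hy
      have := congrArg star (hc.2 (star y) (star_mem hy))
      simpa only [star_mul, star_star] using this.symm
    obtain ⟨u, v, hu, hv, e, eu, ev⟩ := re_im c
    have h1 : u ∈ Ctr M := by
      rw [eu]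
      refine ⟨vn_smul_mem M _ (add_mem hc.1 (star_mem hc.1)), fun y hy => ?_⟩
      rw [mul_smul_comm, smul_mul_assoc, mul_add, add_mul, hc.2 y hy, hst y hy]
    have h2 : v ∈ Ctr M := by
      rw [ev]
      refine ⟨vn_smul_mem M _ (sub_mem (star_mem hc.1) hc.1), fun y hy => ?_⟩
      rw [mul_smul_comm, smul_mul_assoc, mul_sub, sub_mul, hc.2 y hy, hst y hy]
    rw [e]
    exact add_mem (hN N haN u (Or.inr ⟨h1, hu⟩)) (vn_smul_mem N _ (hN N haN v (Or.inr ⟨h2, hv⟩)))
  have := hgen N hC (fun x hx => hN N haN x (Or.inl hx)) hbN y hy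
  rwa [mul_one] at this

end Vale.Agent.P085Z
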