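import Vale.Agent.P085Z.Basic
import Vale.Agent.P085Z.Inf.Geo

set_option autoImplicit false

open scoped InnerProductSpace Topology
open Filter

namespace Vale.Agent.P085Z

open Vale.Agent.P085 Vale.Agent.P085Z.Inf

variable {H : Type*} [NormedAddCommGroup H] [InnerProductSpace ℂ H] [CompleteSpace H]

theorem Inf.mul_init {w r : H →L[ℂ] H} (hr : r * r = r) (hw : star w * w = r) : w * r = w := by
  have hs : star r = r := by rw [← hw, star_mul, star_star]
  have h : star (w * r - w) * (w * r - w) = 0 := by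
    rw [star_sub, star_mul, hs, sub_mul, mul_sub, mul_sub, mul_assoc r, ← mul_assoc (star w), hw,
      mul_assoc r, hw, hr, hr]
    simp
  exact sub_eq_zero.1 (CStarRing.star_mul_self_eq_zero_iff _ |>.1 h)

theorem Inf.star_orth {v w : H →L[ℂ] H} (h : star v * w = 0) : star w * v = 0 := by
  have := congrArg star h
  rwa [star_mul, star_star, star_zero] at this

/-- a maximal orthogonal family of pieces of copies of `r` exhausts the central support -/
theorem Inf.exists_family {M : VonNeumannAlgebra H} {r z : H →L[ℂ] H} (hr : Pj M r)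
    (hz : CP M z) (hrz : z * r = r) {S₀ : Set (H →L[ℂ] H)}
    (h0 : ∀ v ∈ S₀, v ∈ M ∧ v * star v * v = v ∧ v * r = v ∧ v ≠ 0)
    (h0R : S₀.Pairwise fun v w => star v * w = 0) :
    ∃ (S : Set (H →L[ℂ] H)) (z' : H →L[ℂ] H), S₀ ⊆ S ∧
      (∀ v ∈ S, v ∈ M ∧ v * star v * v = v ∧ v * r = v ∧ v ≠ 0) ∧
      (S.Pairwise fun v w => star v * w = 0) ∧ CP M z' ∧ z' * r = r ∧ z' * z = z' ∧
      ∀ D : H →L[ℂ] H, (∀ v ∈ S, D * v = 0) → D * z' = 0 := by
  obtain ⟨S, h1, h2, h3, h4⟩ := exists_max_pairwise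
    {v | v ∈ M ∧ v * star v * v = v ∧ v * r = v ∧ v ≠ 0} (fun v w => star v * w = 0)
    (fun _ _ h => Inf.star_orth h) h0 h0R
  obtain ⟨z', hz1, hz2, hz3, hz4, hz5, hz6⟩ := exists_central_support M r hr.mem
  obtain ⟨e, he1, he2, he3, he4, he5, -⟩ := exists_proj {η : H | ∃ v ∈ S, ∃ ξ, η = v ξ}
  have hev : ∀ v ∈ S, e * v = v := fun v hv => by
    ext ξ
    exact he3 _ ⟨v, hv, ξ, rfl⟩
  have hpres : ∀ y ∈ M.commutant, ∀ η ∈ {η : H | ∃ v ∈ S, ∃ ξ, η = v ξ}, e (y η) = y η := by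
    rintro y hy _ ⟨v, hv, ξ, rfl⟩
    have h5 : y (v ξ) = v (y ξ) :=
      (congrArg (fun T : H →L[ℂ] H => T ξ) (vn_commutes M (h2 hv).1 hy)).symm
    rw [h5]
    exact he3 _ ⟨v, hv, _, rfl⟩
  have heM : e ∈ M := vn_mem_of_commutes M fun y hy =>
    he5 y (hpres y hy) (hpres _ (star_mem hy))
  have hf : Pj M (1 - e) := ⟨sub_mem (one_mem M) heM, by rw [star_sub, star_one, he1], by
    rw [mul_sub, sub_mul, sub_mul, he2, mul_one, mul_one, one_mul, sub_self, sub_zero]⟩
  obtain ⟨v, hv1, hv2, hv3, hv4, hv5, -⟩ := exists_cmp M hr hf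
  have hv0 : v = 0 := by
    by_contra hne
    have hvS : v ∈ S := h4 v ⟨hv1, by rw [mul_assoc, hv2], hv3, hne⟩ fun y hy => by
      show star v * y = 0
      rw [← hv4, star_mul, hf.sa, mul_assoc, sub_mul, one_mul, hev y hy, sub_self, mul_zero]
    apply hne
    rw [← hv4, sub_mul, one_mul, hev v hvS, sub_self]
  have hez : (1 - e) * z' = 0 := hz6 _ fun m hm => by
    have := hv5 m hm
    rwa [hv0, zero_mul, mul_zero, sub_zero, sub_zero] at this
  have hzz : (1 - z) * z' = 0 := hz6 _ fun m hm => by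
    rw [sub_mul, one_mul, ← hz.comm m hm, sub_mul, mul_assoc m z, hrz, sub_self]
  refine ⟨S, z', h1, h2, h3, ⟨⟨hz1, hz3, hz2⟩, hz4⟩, hz5, ?_, fun D hD => ?_⟩
  · rw [sub_mul, one_mul, sub_eq_zero] at hzz
    rw [hz.comm z' hz1, ← hzz]
  · have h5 : D * e = 0 := he4 D (by
      rintro _ ⟨v, hv, ξ, rfl⟩
      exact congrArg (fun T : H →L[ℂ] H => T ξ) (hD v hv))
    rw [sub_mul, one_mul, sub_eq_zero] at hez
    rw [hez, ← mul_assoc, h5, zero_mul]

/-- one self-adjoint contraction codes a countable orthogonal family -/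
theorem Inf.exists_coder {M : VonNeumannAlgebra H} {r : H →L[ℂ] H} {S : Set (H →L[ℂ] H)}
    (hS : ∀ v ∈ S, v ∈ M ∧ v * star v * v = v ∧ v * r = v ∧ v ≠ 0)
    (horth : S.Pairwise fun v w => star v * w = 0) (hrS : r ∈ S) (hc : S.Countable) :
    ∃ b ∈ M, star b = b ∧ ‖b‖ ≤ 1 ∧ ∀ v ∈ S, v ≠ r → ∃ c : ℂ, c ≠ 0 ∧
      v * star v * b * r = c • v := by
  classical
  obtain ⟨f, hf⟩ := hc.exists_eq_range ⟨r, hrS⟩
  have hfS : ∀ n, f n ∈ S := fun n => hf ▸ Set.mem_range_self n
  obtain ⟨g, hg⟩ : ∃ g : ℕ → (H →L[ℂ] H), g = fun n => if f n = r then 0 else f n := ⟨_, rfl⟩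
  have hgM : ∀ n, g n ∈ M := fun n => by
    rw [hg]; dsimp only; split_ifs
    · exact zero_mem _
    · exact (hS _ (hfS n)).1
  have hgn : ∀ n, ‖g n‖ ≤ 1 := fun n => by
    rw [hg]; dsimp only; split_ifs
    · simp
    · exact norm_pi_le (hS _ (hfS n)).2.1
  obtain ⟨X, hX, hXn⟩ := exists_geo (fun n => ((1 / 2 : ℝ) : ℂ) • (g n + star (g n))) fun n => by
    rw [norm_smul, Complex.norm_real, Real.norm_of_nonneg (by norm_num)]
    have h1 := norm_add_le (g n) (star (g n))
    rw [norm_star] at h1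
    linarith [hgn n]
  have hXs : star X = X := hasSum_sa hX fun n => star_real_smul _ (star_real_smul _ (by
    rw [star_add, star_star, add_comm]))
  refine ⟨((3 / 4 : ℝ) : ℂ) • X, vn_smul_mem M _ (hasSum_mem M hX fun n => vn_smul_mem M _
    (vn_smul_mem M _ (add_mem (hgM n) (star_mem (hgM n))))), star_real_smul _ hXs, ?_,
    fun v hv hvr => ?_⟩
  · rw [norm_smul, Complex.norm_real, Real.norm_of_nonneg (by norm_num)]
    linarith
  · obtain ⟨a, ha⟩ : ∃ a : ℕ → ℝ, a = fun n => if f n = v then (1 / 4 : ℝ) ^ n * (1 / 2) else 0 :=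
      ⟨_, rfl⟩
    have ha0 : ∀ n, 0 ≤ a n := fun n => by
      rw [ha]; dsimp only; split_ifs <;> positivity
    have has : Summable a := by
      refine Summable.of_nonneg_of_le ha0 (fun n => ?_)
        (summable_geometric_of_lt_one (r := (1 / 4 : ℝ)) (by norm_num) (by norm_num))
      rw [ha]; dsimp only; split_ifs
      · exact mul_le_of_le_one_right (by positivity) (by norm_num)
      · positivity
    obtain ⟨n0, hn0⟩ : ∃ n, f n = v := by rw [hf] at hv; exact hv
    have hpos : 0 < ∑' n, a n := has.tsum_pos ha0 n0 (by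
      rw [ha]; dsimp only; rw [if_pos hn0]; positivity)
    have h1 := (hX.mul_left (v * star v)).mul_right r
    have h2 : HasSum (fun n => ((a n : ℝ) : ℂ) • v) (((∑' n, a n : ℝ) : ℂ) • v) :=
      (Complex.hasSum_ofReal.2 has.hasSum).smul_const v
    have h3 : ∀ n, v * star v * (g n + star (g n)) * r = if f n = v then v else 0 := by
      intro n
      rw [hg]; dsimp only
      by_cases h4 : f n = r
      · rw [if_pos h4, if_neg (fun h => hvr (h.symm.trans h4))]
        simp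
      · rw [if_neg h4, mul_assoc, add_mul, horth (hfS n) hrS h4, add_zero, (hS _ (hfS n)).2.2.1]
        split_ifs with h5
        · rw [h5, (hS v hv).2.1]
        · rw [mul_assoc, horth hv (hfS n) (Ne.symm h5), mul_zero]
    have h4 : v * star v * X * r = ((∑' n, a n : ℝ) : ℂ) • v := by
      refine h1.unique (h2.congr_fun fun n => ?_)
      rw [mul_smul_comm, mul_smul_comm, smul_mul_assoc, smul_mul_assoc, h3 n, ha]
      dsimp only
      split_ifs
      · rw [smul_smul]; push_cast; rfl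
      · simp
    refine ⟨((3 / 4 : ℝ) : ℂ) * ((∑' n, a n : ℝ) : ℂ), mul_ne_zero (by norm_num)
      (by exact_mod_cast hpos.ne'), ?_⟩
    rw [mul_smul_comm, smul_mul_assoc, h4, smul_smul]

/-- the corner is generated by a weakly dense sequence -/
theorem Inf.exists_corner_seq {M : VonNeumannAlgebra H} (hs : WSep M) {r : H →L[ℂ] H}
    (hr : star r = r) : ∃ t : ℕ → (H →L[ℂ] H), (∀ n, t n ∈ M ∧ star (t n) = t n) ∧
      ∀ N : VonNeumannAlgebra H, (∀ n, r * t n * r ∈ N) → ∀ y ∈ M, r * y * r ∈ N := by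
  obtain ⟨t, ht, hd⟩ := hs.exists_seq {t | t ∈ M ∧ star t = t ∧ ‖t‖ ≤ 1}
    (fun t ht => ⟨ht.1, ht.2.2⟩) ⟨0, zero_mem _, star_zero _, by simp⟩
  refine ⟨t, fun n => ⟨(ht n).1, (ht n).2.1⟩, fun N hN => ?_⟩
  have hin : ∀ (x : H →L[ℂ] H) (a b : H), ⟪a, (r * x * r) b⟫_ℂ = ⟪r a, x (r b)⟫_ℂ := by
    intro x a b
    have h1 := ContinuousLinearMap.adjoint_inner_left r (x (r b)) a
    rw [← ContinuousLinearMap.star_eq_adjoint, hr] at h1
    rw [h1]
    rfl
  have h1 : ∀ x ∈ M, star x = x → ‖x‖ ≤ 1 → r * x * r ∈ N := by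
    intro x hx hxs hxn
    obtain ⟨φ, hφ⟩ := hd x ⟨hx, hxs, hxn⟩
    refine mem_of_wlim N (l := atTop) (fun k => hN (φ k)) fun a b => ?_
    simp only [hin]
    exact hφ _ _
  have h2 : ∀ x ∈ M, star x = x → r * x * r ∈ N := by
    intro x hx hxs
    have hp : 0 < ‖x‖ + 1 := by positivity
    have h3 := h1 ((((‖x‖ + 1)⁻¹ : ℝ) : ℂ) • x) (vn_smul_mem M _ hx) (star_real_smul _ hxs) (by
      rw [norm_smul, Complex.norm_real, Real.norm_of_nonneg (by positivity),
        inv_mul_le_iff₀ hp]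
      linarith)
    have h4 := vn_smul_mem N ((‖x‖ + 1 : ℝ) : ℂ) h3
    rwa [mul_smul_comm, smul_mul_assoc, smul_smul, ← Complex.ofReal_mul, mul_inv_cancel₀ hp.ne',
      Complex.ofReal_one, one_smul] at h4
  intro y hy
  obtain ⟨u, v, hu, hv, e, eu, ev⟩ := re_im y
  have huM : u ∈ M := eu ▸ vn_smul_mem M _ (add_mem hy (star_mem hy))
  have hvM : v ∈ M := ev ▸ vn_smul_mem M _ (sub_mem (star_mem hy) hy)
  rw [e, mul_add, add_mul, mul_smul_comm, smul_mul_assoc]
  exact add_mem (h2 u huM hu) (vn_smul_mem N _ (h2 v hvM hv))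

theorem Inf.good_of_based {M : VonNeumannAlgebra H} (hs : WSep M) {r z : H →L[ℂ] H} (hr : Pj M r)
    (hr0 : r ≠ 0) {w : ℕ → (H →L[ℂ] H)} (hwM : ∀ i, w i ∈ M) (hw1 : ∀ i, star (w i) * w i = r)
    (hw2 : ∀ i j, i ≠ j → star (w i) * w j = 0) (hw0 : w 0 = r) (hz : CP M z) (hrz : z * r = r) :
    ∃ z', CP M z' ∧ z' ≠ 0 ∧ z' * z = z' ∧ Good M z' := by
  have hwr : ∀ i, w i * r = w i := fun i => Inf.mul_init hr.idem (hw1 i)
  obtain ⟨S, z', hS0, hS, horth, hz', hzr, hzz, htot⟩ := Inf.exists_family hr hz hrz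
    (S₀ := Set.range w)
    (by
      rintro _ ⟨i, rfl⟩
      refine ⟨hwM i, by rw [mul_assoc, hw1, hwr], hwr i, fun h => hr0 ?_⟩
      rw [← hw1 i, h, mul_zero])
    (by
      rintro _ ⟨i, rfl⟩ _ ⟨j, rfl⟩ hij
      exact hw2 i j fun h => hij (h ▸ rfl))
  have hwS : ∀ i, w i ∈ S := fun i => hS0 ⟨i, rfl⟩
  have hrS : r ∈ S := hw0 ▸ hwS 0
  have hcount : S.Countable :=
    hs.countable S (fun v hv => ⟨(hS v hv).1, norm_pi_le (hS v hv).2.1⟩) horth
  obtain ⟨b, hbM, hbs, hbn, hb⟩ := Inf.exists_coder hS horth hrS hcount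
  obtain ⟨t, ht, hcorner⟩ := Inf.exists_corner_seq hs hr.sa
  have hstar : ∀ v ∈ S, star v * (v * star v) = star v := fun v hv => by
    have := congrArg star (hS v hv).2.1
    rwa [star_mul, star_mul, star_star] at this
  have hmix : ∀ v ∈ S, ∀ n, v * star v * (w n * t n * star (w n)) =
      w n * t n * star (w n) * (v * star v) := by
    intro v hv n
    by_cases h : v = w n
    · rw [h, ← mul_assoc, ← mul_assoc, (hS _ (hwS n)).2.1, mul_assoc (w n * t n), hstar _ (hwS n)]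
    · have h1 := horth hv (hwS n) h
      have h2 := Inf.star_orth h1
      rw [mul_assoc (w n), mul_assoc v, ← mul_assoc (star v), h1, zero_mul, mul_zero,
        ← mul_assoc (w n), mul_assoc _ (star (w n)), ← mul_assoc (star (w n)), h2, zero_mul,
        mul_zero]
  refine ⟨z', hz', fun h => hr0 (by rw [← hzr, h, zero_mul]), hzz,
    {x | ∃ v ∈ S, x = v * star v} ∪ {x | ∃ n, x = w n * t n * star (w n)}, b, ?_, ?_, hbM, hbs, hbn,
    fun N hCN hBN hbN y hy => ?_⟩
  · rintro _ (⟨v, hv, rfl⟩ | ⟨n, rfl⟩)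
    · exact ⟨mul_mem (hS v hv).1 (star_mem (hS v hv).1), by rw [star_mul, star_star]⟩
    · exact ⟨mul_mem (mul_mem (hwM n) (ht n).1) (star_mem (hwM n)), by
        rw [star_mul, star_mul, star_star, (ht n).2, mul_assoc]⟩
  · rintro _ (⟨v, hv, rfl⟩ | ⟨n, rfl⟩) _ (⟨v', hv', rfl⟩ | ⟨m, rfl⟩)
    · by_cases h : v = v'
      · rw [h]
      · have h1 := horth hv hv' h
        have h2 := Inf.star_orth h1
        rw [mul_assoc v, ← mul_assoc (star v), h1, mul_assoc v', ← mul_assoc (star v'), h2]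
        simp
    · exact hmix v hv m
    · exact (hmix v' hv' n).symm
    · by_cases h : n = m
      · rw [h]
      · have e : ∀ i j, i ≠ j → w i * t i * star (w i) * (w j * t j * star (w j)) = 0 := by
          intro i j hij
          rw [mul_assoc (w j), mul_assoc _ (star (w i)), ← mul_assoc (star (w i)), hw2 i j hij,
            zero_mul, mul_zero]
        rw [e n m h, e m n (Ne.symm h)]
  · have hrN : r ∈ N := by
      have := hBN _ (Or.inl ⟨r, hrS, rfl⟩)
      rwa [hr.sa, hr.idem] at this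
    have hSN : ∀ v ∈ S, v ∈ N := by
      intro v hv
      by_cases h : v = r
      · rw [h]; exact hrN
      · obtain ⟨c, hc, e⟩ := hb v hv h
        have h1 := vn_smul_mem N c⁻¹ (mul_mem (mul_mem (hBN _ (Or.inl ⟨v, hv, rfl⟩)) hbN) hrN)
        rwa [e, smul_smul, inv_mul_cancel₀ hc, one_smul] at h1
    have hrr := hcorner N fun n => by
      have h1 := mul_mem (mul_mem (star_mem (hSN _ (hwS n))) (hBN _ (Or.inr ⟨n, rfl⟩)))
        (hSN _ (hwS n))
      rwa [← mul_assoc, ← mul_assoc, hw1, mul_assoc _ (star (w n)), hw1] at h1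
    have hz'N : z' ∈ N := hCN z' ⟨hz'.mem, hz'.comm⟩
    apply vn_mem_of_commutes
    intro n hn
    have h1 : ∀ v ∈ S, star v * (n * y - y * n) * z' = 0 := by
      intro v hv
      refine htot _ fun v' hv' => ?_
      have h2 : star v * y * v' ∈ N := by
        have h3 := hrr _ (mul_mem (mul_mem (star_mem (hS v hv).1) hy) (hS v' hv').1)
        have h4 : r * star v = star v := by
          have := congrArg star (hS v hv).2.2.1
          rwa [star_mul, hr.sa] at this
        rwa [← mul_assoc, ← mul_assoc, h4, mul_assoc _ v', (hS v' hv').2.2.1] at h3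
      have h5 := vn_commutes N h2 hn
      have h6 := vn_commutes N (star_mem (hSN v hv)) hn
      have h7 := vn_commutes N (hSN v' hv') hn
      rw [mul_sub, sub_mul, ← mul_assoc, h6, ← mul_assoc, mul_assoc _ n v', ← h7, ← mul_assoc, h5]
      simp only [mul_assoc, sub_self]
    have h2 : star ((n * y - y * n) * z') * z' = 0 := htot _ fun v hv =>
      Inf.star_orth (by rw [← mul_assoc]; exact h1 v hv)
    have h3 := Inf.star_orth h2
    have hzn := vn_commutes N hz'N hn
    have h4 : z' * (n * y - y * n) = (n * y - y * n) * z' := by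
      rw [mul_sub, sub_mul, ← mul_assoc, hzn, mul_assoc, ← hz'.comm y hy, ← mul_assoc z',
        ← hz'.comm y hy, mul_assoc y z', hzn]
      simp only [mul_assoc]
    rw [hz'.sa, ← mul_assoc, h4, mul_assoc, hz'.idem, sub_mul, sub_eq_zero] at h3
    rw [← mul_assoc, h3, mul_assoc, ← hzn, mul_assoc]

/-- the central support of a projection with infinitely many orthogonal copies is good -/
theorem good_of_copies {M : VonNeumannAlgebra H} (hs : WSep M) {r z : H →L[ℂ] H} (hr : Pj M r)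
    (hr0 : r ≠ 0) (hc : Copies M r) (hz : CP M z) (hrz : z * r = r) :
    ∃ z', CP M z' ∧ z' ≠ 0 ∧ z' * z = z' ∧ Good M z' := by
  obtain ⟨w, hwM, hw1, hw2⟩ := hc
  have hwr : w 0 * r = w 0 := Inf.mul_init hr.idem (hw1 0)
  have e : ∀ i j, star (w i * star (w 0)) * (w j * star (w 0)) =
      w 0 * (star (w i) * w j) * star (w 0) := by
    intro i j
    rw [star_mul, star_star]
    simp only [mul_assoc]
  refine Inf.good_of_based hs (r := w 0 * star (w 0)) (w := fun i => w i * star (w 0))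
    ⟨mul_mem (hwM 0) (star_mem (hwM 0)), by rw [star_mul, star_star], ?_⟩ (fun h => hr0 ?_)
    (fun i => mul_mem (hwM i) (star_mem (hwM 0))) (fun i => by rw [e, hw1, hwr])
    (fun i j hij => by rw [e, hw2 i j hij, mul_zero, zero_mul]) rfl hz ?_
  · rw [← mul_assoc, mul_assoc (w 0), hw1, hwr]
  · rw [← hr.idem]
    nth_rewrite 1 [← hw1 0]
    rw [← hw1 0, mul_assoc, ← mul_assoc (w 0), h, zero_mul, mul_zero]
  · rw [← mul_assoc, ← hz.comm _ (hwM 0)]
    nth_rewrite 1 [← hwr]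
    rw [mul_assoc (w 0), hz.comm r hr.mem, hrz, hwr]

end Vale.Agent.P085Z
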