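import Vale.Agent.P085Z.FP
import Vale.Agent.P085Z.FinDim
import Vale.Agent.P085Z.Poly

set_option autoImplicit false

open scoped InnerProductSpace Topology ComplexOrder
open Filter

namespace Vale.Agent.P085Z

open Vale.Agent.P085 Vale.Agent.P085.H551

universe u

theorem countable_closure {A : Type*} [Monoid A] {T : Set A} (hT : T.Countable) :
    (Submonoid.closure T : Set A).Countable := by
  have : Countable T := hT.to_subtype
  refine (Set.countable_range fun l : List T => (l.map Subtype.val).prod).mono fun a ha => ?_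
  obtain ⟨l, hl, rfl⟩ := Submonoid.exists_list_of_mem_closure ha
  refine ⟨l.pmap Subtype.mk hl, ?_⟩
  simp only [List.map_pmap, List.pmap_eq_map, List.map_id']

theorem isSeparable_adjoin {A : Type*} [CStarAlgebra A] {T : Set A} (hT : T.Countable) :
    TopologicalSpace.IsSeparable (StarAlgebra.adjoin ℂ T : Set A) := by
  have h1 : (T ∪ star T).Countable := by
    refine hT.union ?_
    have : star T = star '' T := by
      ext x
      simp only [Set.mem_star, Set.mem_image]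
      exact ⟨fun h => ⟨star x, h, star_star x⟩, by rintro ⟨y, hy, rfl⟩; rwa [star_star]⟩
    rw [this]
    exact hT.image _
  have h2 := (countable_closure h1).isSeparable.span (R := ℂ)
  rw [← StarAlgebra.adjoin_eq_span] at h2
  exact h2

theorem n2_comp {A B : Type*} [CStarAlgebra A] [CStarAlgebra B] (σ : A →ₗ[ℂ] ℂ)
    (j : B →⋆ₐ[ℂ] A) (x : B) : n2 (σ ∘ₗ (j : B →ₐ[ℂ] A).toLinearMap) x = n2 σ (j x) := by
  unfold n2
  have : (σ ∘ₗ (j : B →ₐ[ℂ] A).toLinearMap) (star x * x) = σ (j (star x * x)) := rfl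
  rw [this, map_mul, map_star]

theorem isTrS_comp {A B : Type*} [CStarAlgebra A] [CStarAlgebra B] {σ : A →ₗ[ℂ] ℂ}
    (hσ : IsTrS σ) (j : B →⋆ₐ[ℂ] A) : IsTrS (σ ∘ₗ (j : B →ₐ[ℂ] A).toLinearMap) := by
  have e : ∀ x, (σ ∘ₗ (j : B →ₐ[ℂ] A).toLinearMap) x = σ (j x) := fun _ => rfl
  have hn : ∀ x, ‖j x‖ ≤ ‖x‖ := fun x => NonUnitalStarAlgHom.norm_apply_le j x
  refine ⟨⟨?_, fun x => ?_, fun x y => ?_, fun x => ?_⟩, fun x => ?_, fun x y => ?_⟩
  · rw [e, map_one, hσ.one]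
  · rw [e]; exact (hσ.norm_le _).trans (hn x)
  · rw [e, e, map_mul j, map_mul j, hσ.comm]
  · rw [e, e, map_star, hσ.star_eq]
  · rw [e, map_mul, map_star]; exact hσ.nonneg _
  · rw [e, e, map_mul j, map_star j, map_mul j, map_mul j, map_star j]
    refine (hσ.mul_le _ _).trans ?_
    have := hσ.nonneg (j y)
    have := hn x
    gcongr

theorem star_half_add {A : Type*} [CStarAlgebra A] (d : A) :
    star ((1 / 2 : ℂ) • (d + star d)) = (1 / 2 : ℂ) • (d + star d) := by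
  rw [star_smul, star_add, star_star, add_comm]
  simp

theorem norm_sub_half_add {A : Type*} [CStarAlgebra A] {b : A} (hb : star b = b) (d : A) :
    ‖b - (1 / 2 : ℂ) • (d + star d)‖ ≤ ‖b - d‖ := by
  have e : b - (1 / 2 : ℂ) • (d + star d) = (1 / 2 : ℂ) • ((b - d) + star (b - d)) := by
    rw [star_sub, hb]; module
  rw [e, norm_smul]
  have h1 : ‖(1 / 2 : ℂ)‖ = 1 / 2 := by simp
  have h2 := norm_add_le (b - d) (star (b - d))
  rw [norm_star] at h2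
  rw [h1]; linarith

/-- separable subalgebras with the averaging property -/
theorem exists_sep_dix {A : Type u} [CStarAlgebra A] {σ : A →ₗ[ℂ] ℂ} (hσ : IsTrS σ) (hD : Dix σ)
    (S : Set A) (hS : S.Countable) :
    ∃ (B : Type u) (_ : CStarAlgebra B) (_ : TopologicalSpace.SeparableSpace B)
      (j : B →⋆ₐ[ℂ] A), (∀ x, ‖j x‖ = ‖x‖) ∧ S ⊆ Set.range j ∧
      IsTrS (σ ∘ₗ (j : B →ₐ[ℂ] A).toLinearMap) ∧ Dix (σ ∘ₗ (j : B →ₐ[ℂ] A).toLinearMap) := by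
  choose L hL c hc using fun (d : A) (n : ℕ) =>
    hD ((1 / 2 : ℂ) • (d + star d)) (star_half_add d) (1 / ((n : ℝ) + 1)) (by positivity)
  choose! D hDc hDd using fun (T : Set A) (hT : T.Countable) => isSeparable_adjoin hT
  obtain ⟨T, hT0, hTs⟩ : ∃ T : ℕ → Set A, T 0 = S ∧ ∀ n, T (n + 1) =
      T n ∪ D (T n) ∪ ⋃ d ∈ D (T n), ⋃ k : ℕ, {u | u ∈ L d k} :=
    ⟨fun n => Nat.rec S (fun _ X => X ∪ D X ∪ ⋃ d ∈ D X, ⋃ k : ℕ, {u | u ∈ L d k}) n, rfl,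
      fun _ => rfl⟩
  have hTc : ∀ n, (T n).Countable := by
    intro n
    induction n with
    | zero => rw [hT0]; exact hS
    | succ n ih =>
      rw [hTs]
      refine (ih.union (hDc _ ih)).union ((hDc _ ih).biUnion fun d _ => ?_)
      exact Set.countable_iUnion fun k => (List.finite_toSet (L d k)).countable
  have hTm : Monotone T := monotone_nat_of_le_succ fun n => by
    rw [hTs]
    exact Set.subset_union_left.trans Set.subset_union_left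
  have hU : (⋃ n, T n).Countable := Set.countable_iUnion hTc
  have hadj : ∀ x ∈ StarAlgebra.adjoin ℂ (⋃ n, T n), ∃ n, x ∈ StarAlgebra.adjoin ℂ (T n) := by
    intro x hx
    induction hx using StarAlgebra.adjoin_induction with
    | mem x hx =>
      obtain ⟨n, hn⟩ := Set.mem_iUnion.1 hx
      exact ⟨n, StarAlgebra.subset_adjoin ℂ _ hn⟩
    | algebraMap r => exact ⟨0, algebraMap_mem _ r⟩
    | add x y _ _ hx hy =>
      obtain ⟨n, hn⟩ := hx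
      obtain ⟨m, hm⟩ := hy
      exact ⟨max n m, add_mem (StarAlgebra.adjoin_mono (hTm (le_max_left n m)) hn)
        (StarAlgebra.adjoin_mono (hTm (le_max_right n m)) hm)⟩
    | mul x y _ _ hx hy =>
      obtain ⟨n, hn⟩ := hx
      obtain ⟨m, hm⟩ := hy
      exact ⟨max n m, mul_mem (StarAlgebra.adjoin_mono (hTm (le_max_left n m)) hn)
        (StarAlgebra.adjoin_mono (hTm (le_max_right n m)) hm)⟩
    | star x _ hx =>
      obtain ⟨n, hn⟩ := hx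
      exact ⟨n, star_mem hn⟩
  let B : StarSubalgebra ℂ A := (StarAlgebra.adjoin ℂ (⋃ n, T n)).topologicalClosure
  have hBc : IsClosed (B : Set A) := StarSubalgebra.isClosed_topologicalClosure _
  have hTB : ∀ n, T n ⊆ B := fun n x hx =>
    StarSubalgebra.le_topologicalClosure _
      (StarAlgebra.subset_adjoin ℂ _ (Set.mem_iUnion.2 ⟨n, hx⟩))
  have hsep : TopologicalSpace.SeparableSpace B :=
    TopologicalSpace.IsSeparable.separableSpace (s := (B : Set A)) (isSeparable_adjoin hU).closure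
  refine ⟨B, inferInstance, hsep, B.subtype, fun _ => rfl, fun x hx => ?_,
    isTrS_comp hσ B.subtype, ?_⟩
  · exact ⟨⟨x, hTB 0 (hT0 ▸ hx)⟩, rfl⟩
  · intro b hb ε hε
    obtain ⟨x, hx, hbx⟩ := Metric.mem_closure_iff.1 (show b.1 ∈ closure _ from b.2) (ε / 4)
      (by positivity)
    obtain ⟨n, hn⟩ := hadj x hx
    obtain ⟨d, hd, hxd⟩ := Metric.mem_closure_iff.1 (hDd _ (hTc n) hn) (ε / 4) (by positivity)
    obtain ⟨k, hk⟩ := exists_nat_one_div_lt (show 0 < ε / 2 by positivity)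
    have hLB : ∀ u ∈ L d k, u ∈ B := fun u hu => hTB (n + 1) (by
      rw [hTs]
      exact Or.inr (Set.mem_biUnion hd (Set.mem_iUnion.2 ⟨k, hu⟩)))
    have hmap : ((L d k).pmap Subtype.mk hLB : List B).map B.subtype = L d k := by
      simp only [List.map_pmap, StarSubalgebra.subtype_apply, List.pmap_eq_map, List.map_id']
    refine ⟨(L d k).pmap Subtype.mk hLB, fun u hu => ?_, c d k, ?_⟩
    · have h1 : u.1 ∈ L d k := by
        rw [← hmap]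
        exact List.mem_map_of_mem (f := B.subtype) hu
      exact ⟨Subtype.ext (hL d k _ h1).1, Subtype.ext (hL d k _ h1).2⟩
    · rw [n2_comp, map_sub, map_avgL, hmap, map_smul, map_one]
      have hb' : star b.1 = b.1 := congrArg Subtype.val hb
      have h1 := n2_triangle hσ (avgL (L d k) (B.subtype b))
        (avgL (L d k) ((1 / 2 : ℂ) • (d + star d))) (c d k • (1 : A))
      rw [← avgL_sub] at h1
      have h2 := n2_avgL_le hσ (hL d k) (B.subtype b - (1 / 2 : ℂ) • (d + star d))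
      have h3 := n2_le_norm hσ (B.subtype b - (1 / 2 : ℂ) • (d + star d))
      have h4 : ‖B.subtype b - (1 / 2 : ℂ) • (d + star d)‖ ≤ ‖b.1 - d‖ := norm_sub_half_add hb' d
      have h5 := dist_triangle b.1 x d
      rw [dist_eq_norm] at h5
      have h6 := hc d k
      linarith

section gns

variable {A K : Type*} [CStarAlgebra A] [NormedAddCommGroup K] [InnerProductSpace ℂ K]
  [CompleteSpace K] {σ : A →ₗ[ℂ] ℂ}

theorem gns_norm (hσ : IsTrS σ) (π : A →⋆ₐ[ℂ] (K →L[ℂ] K)) (Ω : K)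
    (hΩ : ∀ x, ⟪Ω, π x Ω⟫_ℂ = σ x) (x : A) : ‖π x Ω‖ = n2 σ x := by
  have h1 := hΩ (star x * x)
  rw [tr_star_mul_self hσ, map_mul, map_star] at h1
  have h2 : (star (π x) * π x) Ω = (star (π x)) (π x Ω) := rfl
  rw [h2, inner_star_right, inner_self_eq_norm_sq_to_K] at h1
  have h3 : ‖π x Ω‖ ^ 2 = n2 σ x ^ 2 := by
    apply Complex.ofReal_injective
    rw [← h1]; push_cast; rfl
  exact (sq_eq_sq₀ (norm_nonneg _) (n2_nonneg _)).1 h3

/-- right multiplications -/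
theorem exists_right (hσ : IsTrS σ) (π : A →⋆ₐ[ℂ] (K →L[ℂ] K)) (Ω : K)
    (hΩ : ∀ x, ⟪Ω, π x Ω⟫_ℂ = σ x) (hd : DenseRange fun x => π x Ω) (a : A) :
    ∃ ρ : K →L[ℂ] K, ‖ρ‖ ≤ ‖a‖ ∧ ρ Ω = π a Ω ∧ (∀ x, ρ (π x Ω) = π (x * a) Ω) ∧
      (∀ y ∈ genVN (Set.range π), y * ρ = ρ * y) ∧
      ∀ ζ, ⟪Ω, ρ ζ⟫_ℂ = ⟪π (star a) Ω, ζ⟫_ℂ := by
  let e : A →ₗ[ℂ] K :=
    { toFun := fun x => π x Ω
      map_add' := fun x y => by rw [map_add]; rfl
      map_smul' := fun c x => by rw [map_smul]; rfl }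
  let f : A →ₗ[ℂ] K := e ∘ₗ LinearMap.mulRight ℂ a
  have hb : ∀ x, ‖f x‖ ≤ ‖a‖ * ‖e x‖ := by
    intro x
    change ‖π (x * a) Ω‖ ≤ ‖a‖ * ‖π x Ω‖
    rw [gns_norm hσ π Ω hΩ, gns_norm hσ π Ω hΩ, ← n2_star hσ, star_mul, ← n2_star hσ x,
      ← norm_star a]
    exact n2_mul_le hσ _ _
  have hd' : DenseRange e := hd
  have h1 : ∀ x, f.extendOfNorm e (π x Ω) = π (x * a) Ω := fun x =>
    LinearMap.extendOfNorm_eq hd' ⟨_, hb⟩ x
  have h2 : ∀ b, f.extendOfNorm e * π b = π b * f.extendOfNorm e := by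
    intro b
    ext ζ
    refine hd.induction_on (p := fun ζ => (f.extendOfNorm e * π b) ζ =
      (π b * f.extendOfNorm e) ζ) ζ (isClosed_eq (by fun_prop) (by fun_prop)) fun x => ?_
    have h3 : π b (π x Ω) = π (b * x) Ω := by rw [map_mul]; rfl
    have h4 : π b (π (x * a) Ω) = π (b * (x * a)) Ω := by rw [map_mul π b]; rfl
    change f.extendOfNorm e (π b (π x Ω)) = π b (f.extendOfNorm e (π x Ω))
    rw [h3, h1, h1, h4, mul_assoc]
  refine ⟨f.extendOfNorm e, LinearMap.opNorm_extendOfNorm_le hd' (norm_nonneg _) hb, ?_, h1,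
    fun y hy => ?_, fun ζ => ?_⟩
  · have h3 := h1 1
    rwa [map_one, one_mul] at h3
  · refine (mem_genVN.1 hy _ ?_).symm
    rintro s ⟨b, rfl⟩
    exact ⟨h2 b, by rw [← map_star]; exact h2 _⟩
  · refine hd.induction_on (p := fun ζ => ⟪Ω, f.extendOfNorm e ζ⟫_ℂ = ⟪π (star a) Ω, ζ⟫_ℂ) ζ
      (isClosed_eq (by fun_prop) (by fun_prop)) fun x => ?_
    rw [h1, hΩ, map_star, inner_star_left, hσ.comm, ← hΩ, map_mul]
    rfl

theorem gns_faithful (hσ : IsTrS σ) (π : A →⋆ₐ[ℂ] (K →L[ℂ] K)) (Ω : K)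
    (hΩ : ∀ x, ⟪Ω, π x Ω⟫_ℂ = σ x) (hd : DenseRange fun x => π x Ω) {y : K →L[ℂ] K}
    (hy : y ∈ genVN (Set.range π)) (h : y Ω = 0) : y = 0 := by
  ext ζ
  refine hd.induction_on (p := fun ζ => y ζ = (0 : K →L[ℂ] K) ζ) ζ
    (isClosed_eq (by fun_prop) (by fun_prop)) fun a => ?_
  obtain ⟨ρ, -, h1, -, h2, -⟩ := exists_right hσ π Ω hΩ hd a
  have h3 : y (ρ Ω) = ρ (y Ω) := congrArg (fun T : K →L[ℂ] K => T Ω) (h2 y hy)
  rw [← h1, h3, h, map_zero]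
  rfl

theorem gns_star_le (hσ : IsTrS σ) (π : A →⋆ₐ[ℂ] (K →L[ℂ] K)) (Ω : K)
    (hΩ : ∀ x, ⟪Ω, π x Ω⟫_ℂ = σ x) (hd : DenseRange fun x => π x Ω) {y : K →L[ℂ] K}
    (hy : y ∈ genVN (Set.range π)) : ‖(star y) Ω‖ ≤ ‖y Ω‖ := by
  have h1 : ∀ ζ, ‖⟪(star y) Ω, ζ⟫_ℂ‖ ≤ ‖ζ‖ * ‖y Ω‖ := by
    intro ζ
    refine hd.induction_on (p := fun ζ => ‖⟪(star y) Ω, ζ⟫_ℂ‖ ≤ ‖ζ‖ * ‖y Ω‖) ζ
      (isClosed_le (by fun_prop) (by fun_prop)) fun a => ?_
    obtain ⟨ρ, -, h1, -, h2, h4⟩ := exists_right hσ π Ω hΩ hd a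
    have h3 : y (ρ Ω) = ρ (y Ω) := congrArg (fun T : K →L[ℂ] K => T Ω) (h2 y hy)
    rw [inner_star_left, ← h1, h3, h4, h1, gns_norm hσ π Ω hΩ, ← n2_star hσ,
      ← gns_norm hσ π Ω hΩ]
    exact norm_inner_le_norm _ _
  have h2 := h1 ((star y) Ω)
  rw [inner_self_eq_norm_sq_to_K, norm_pow, RCLike.norm_ofReal, abs_norm] at h2
  rcases (norm_nonneg ((star y) Ω)).eq_or_lt with h3 | h3
  · rw [← h3]; exact norm_nonneg _
  · rw [sq] at h2
    exact le_of_mul_le_mul_left h2 h3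

theorem gns_avg (hσ : IsTrS σ) (π : A →⋆ₐ[ℂ] (K →L[ℂ] K)) (Ω : K)
    (hΩ : ∀ x, ⟪Ω, π x Ω⟫_ℂ = σ x) (hd : DenseRange fun x => π x Ω) {z : K →L[ℂ] K}
    (hz : z ∈ genVN (Set.range π)) (hz' : ∀ a, π a * z = z * π a) {l : List A}
    (hl : ∀ u ∈ l, star u * u = 1 ∧ u * star u = 1) (a : A) :
    ‖z Ω - π (avgL l a) Ω‖ ≤ ‖z Ω - π a Ω‖ := by
  induction l generalizing a with
  | nil => exact le_rfl
  | cons u l ih =>
    refine (ih (fun v hv => hl v (List.mem_cons_of_mem _ hv)) _).trans ?_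
    obtain ⟨hu1, hu2⟩ := hl u List.mem_cons_self
    obtain ⟨ρ, hρ, h1, h2, h3, -⟩ := exists_right hσ π Ω hΩ hd (star u)
    have hu : ‖u‖ ≤ 1 := norm_unitary_le hu1
    have hπ : ‖π u‖ ≤ 1 := (NonUnitalStarAlgHom.norm_apply_le π u).trans hu
    rw [norm_star] at hρ
    have k1 : π u (ρ (z Ω)) = z Ω := by
      have e1 : z (ρ Ω) = ρ (z Ω) := congrArg (fun T : K →L[ℂ] K => T Ω) (h3 z hz)
      have e2 : π u (z (π (star u) Ω)) = z (π u (π (star u) Ω)) :=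
        congrArg (fun T : K →L[ℂ] K => T (π (star u) Ω)) (hz' u)
      have e3 : π u (π (star u) Ω) = π (u * star u) Ω := by rw [map_mul]; rfl
      rw [← e1, h1, e2, e3, hu2, map_one]
      rfl
    have k2 : π u (ρ (π a Ω)) = π (u * a * star u) Ω := by
      rw [h2, mul_assoc, map_mul π u]; rfl
    have k3 : z Ω - π ((1 / 2 : ℂ) • (a + u * a * star u)) Ω =
        (1 / 2 : ℂ) • ((z Ω - π a Ω) + π u (ρ (z Ω - π a Ω))) := by
      rw [map_sub, map_sub, k1, k2, map_smul, map_add, smul_apply, add_apply]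
      module
    have k4 : ‖π u (ρ (z Ω - π a Ω))‖ ≤ ‖z Ω - π a Ω‖ := by
      calc ‖π u (ρ (z Ω - π a Ω))‖ ≤ ‖π u‖ * (‖ρ‖ * ‖z Ω - π a Ω‖) :=
            ((π u).le_opNorm _).trans (by gcongr; exact ρ.le_opNorm _)
        _ ≤ 1 * (1 * ‖z Ω - π a Ω‖) := by gcongr; exact hρ.trans hu
        _ = _ := by ring
    rw [k3, norm_smul]
    have h5 : ‖(1 / 2 : ℂ)‖ = 1 / 2 := by simp
    have h6 := norm_add_le (z Ω - π a Ω) (π u (ρ (z Ω - π a Ω)))
    rw [h5]; linarith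

theorem gns_scalar (hσ : IsTrS σ) (hD : Dix σ) (π : A →⋆ₐ[ℂ] (K →L[ℂ] K)) (Ω : K)
    (hΩ : ∀ x, ⟪Ω, π x Ω⟫_ℂ = σ x) (hd : DenseRange fun x => π x Ω) {z : K →L[ℂ] K}
    (hz : z ∈ genVN (Set.range π)) (hz' : ∀ a, π a * z = z * π a) (hzs : star z = z) :
    ∃ c : ℂ, z = c • (1 : K →L[ℂ] K) := by
  have hπ : ∀ a, π a ∈ genVN (Set.range π) := fun a => subset_genVN _ ⟨a, rfl⟩
  have h1 : z Ω ∈ closure ((Submodule.span ℂ {Ω} : Submodule ℂ K) : Set K) := by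
    rw [Metric.mem_closure_iff]
    intro ε hε
    obtain ⟨a, ha⟩ := hd.exists_dist_lt (z Ω) (show 0 < ε / 2 by positivity)
    rw [dist_eq_norm] at ha
    obtain ⟨l, hl, c, hc⟩ := hD _ (star_half_add a) (ε / 2) (by positivity)
    refine ⟨c • Ω, Submodule.mem_span_singleton.2 ⟨c, rfl⟩, ?_⟩
    have k1 := gns_avg hσ π Ω hΩ hd hz hz' hl ((1 / 2 : ℂ) • (a + star a))
    have k2 := gns_star_le hσ π Ω hΩ hd (sub_mem hz (hπ a))
    have k3 : z Ω - π ((1 / 2 : ℂ) • (a + star a)) Ω =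
        (1 / 2 : ℂ) • ((z Ω - π a Ω) + (star (z - π a)) Ω) := by
      rw [star_sub, hzs, map_smul, map_add, map_star, smul_apply, add_apply, sub_apply]
      module
    rw [k3, norm_smul] at k1
    have h5 : ‖(1 / 2 : ℂ)‖ = 1 / 2 := by simp
    have h6 := norm_add_le (z Ω - π a Ω) ((star (z - π a)) Ω)
    rw [sub_apply] at k2
    rw [← gns_norm hσ π Ω hΩ, map_sub, map_smul, map_one, sub_apply, smul_apply,
      one_apply_eq_self] at hc
    have h7 := dist_triangle (z Ω) (π (avgL l ((1 / 2 : ℂ) • (a + star a))) Ω) (c • Ω)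
    rw [dist_eq_norm (z Ω) (π _ Ω), dist_eq_norm (π _ Ω)] at h7
    rw [h5] at k1
    linarith
  rw [(Submodule.span ℂ {Ω}).closed_of_finiteDimensional.closure_eq] at h1
  obtain ⟨c, hc⟩ := Submodule.mem_span_singleton.1 h1
  refine ⟨c, sub_eq_zero.1 (gns_faithful hσ π Ω hΩ hd
    (sub_mem hz (vn_smul_mem _ _ (one_mem _))) ?_)⟩
  rw [sub_apply, smul_apply, one_apply_eq_self, hc, sub_self]

/-- the GNS representation of a tracial state with the averaging property generates a finite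
factor -/
theorem gns_factor (hσ : IsTrS σ) (hD : Dix σ)
    (π : A →⋆ₐ[ℂ] (K →L[ℂ] K)) (Ω : K) (hΩ : ∀ x, ⟪Ω, π x Ω⟫_ℂ = σ x)
    (hd : DenseRange fun x => π x Ω) :
    IsTraceVectors (genVN (Set.range π)) (fun n => if n = 0 then Ω else 0) ∧
      IsFactor (genVN (Set.range π)) := by
  have hπ : ∀ a, π a ∈ genVN (Set.range π) := fun a => subset_genVN _ ⟨a, rfl⟩
  have hsum : ∀ y : K →L[ℂ] K, ∑' n : ℕ, ‖y (if n = 0 then Ω else 0)‖ ^ 2 = ‖y Ω‖ ^ 2 := by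
    intro y
    rw [tsum_eq_single 0 fun n hn => by simp [hn]]
    simp
  refine ⟨⟨?_, fun y hy => ?_, fun y hy h => ?_⟩, fun z hz hz' => ?_⟩
  · have h1 : ‖Ω‖ = 1 := by
      have h2 := gns_norm hσ π Ω hΩ 1
      rwa [map_one, n2_one hσ] at h2
    have h2 := hasSum_single (f := fun n : ℕ => ‖(if n = 0 then Ω else 0 : K)‖ ^ 2) 0
      fun n hn => by simp [hn]
    simpa [h1] using h2
  · rw [hsum, hsum]
    have h1 := gns_star_le hσ π Ω hΩ hd hy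
    have h2 := gns_star_le hσ π Ω hΩ hd (star_mem hy)
    rw [star_star] at h2
    rw [le_antisymm h1 h2]
  · exact gns_faithful hσ π Ω hΩ hd hy (by simpa using h 0)
  · have hc : ∀ a, π a * z = z * π a := fun a => vn_commutes _ (hπ a) hz'
    have hc' : ∀ a, π a * star z = star z * π a := fun a => vn_commutes _ (hπ a) (star_mem hz')
    obtain ⟨c₁, h1⟩ := gns_scalar hσ hD π Ω hΩ hd (z := z + star z) (add_mem hz (star_mem hz))
      (fun a => by rw [mul_add, add_mul, hc, hc']) (by rw [star_add, star_star, add_comm])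
    obtain ⟨c₂, h2⟩ := gns_scalar hσ hD π Ω hΩ hd (z := Complex.I • (z - star z))
      (vn_smul_mem _ _ (sub_mem hz (star_mem hz)))
      (fun a => by rw [mul_smul_comm, smul_mul_assoc, mul_sub, sub_mul, hc, hc'])
      (by rw [star_smul, star_sub, star_star, RCLike.star_def, Complex.conj_I, neg_smul,
        ← smul_neg, neg_sub])
    refine ⟨(1 / 2) * (c₁ - Complex.I * c₂), ?_⟩
    rw [mul_smul, sub_smul, mul_smul, ← h1, ← h2, smul_smul, Complex.I_mul_I]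
    module

end gns

theorem exists_scaled_pair {K : Type*} [NormedAddCommGroup K] [InnerProductSpace ℂ K]
    [CompleteSpace K] {g a : K →L[ℂ] K} (ha : ‖a‖ ≤ 1) {δ : ℝ} (hδ : 0 < δ) (h : ‖g - a‖ ≤ δ) :
    ‖(((1 + δ)⁻¹ : ℝ) : ℂ) • g‖ ≤ 1 ∧ ‖(((1 + δ)⁻¹ : ℝ) : ℂ) • g - a‖ ≤ 2 * δ := by
  have h1 : ‖g‖ ≤ 1 + δ := by
    have := norm_add_le (g - a) a
    rw [sub_add_cancel] at this
    linarith
  have h0 : 0 < 1 + δ := by linarith
  constructor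
  · rw [norm_smul, Complex.norm_real, Real.norm_of_nonneg (by positivity), inv_mul_le_iff₀ h0]
    linarith
  · have e : (((1 + δ)⁻¹ : ℝ) : ℂ) • g - a = (g - a) - ((δ * (1 + δ)⁻¹ : ℝ) : ℂ) • g := by
      have e1 : ((1 + δ)⁻¹ : ℝ) = 1 - δ * (1 + δ)⁻¹ := by field_simp; ring
      nth_rw 1 [e1]
      push_cast
      module
    rw [e]
    have h2 : ‖((δ * (1 + δ)⁻¹ : ℝ) : ℂ) • g‖ ≤ δ := by
      rw [norm_smul, Complex.norm_real, Real.norm_of_nonneg (by positivity), mul_assoc]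
      have : (1 + δ)⁻¹ * ‖g‖ ≤ 1 := by rw [inv_mul_le_iff₀ h0]; linarith
      nlinarith
    have h3 := norm_sub_le (g - a) (((δ * (1 + δ)⁻¹ : ℝ) : ℂ) • g)
    linarith

theorem local_gen_sep {A : Type u} [CStarAlgebra A] [TopologicalSpace.SeparableSpace A]
    {σ : A →ₗ[ℂ] ℂ} (hσ : IsTrS σ) (hD : Dix σ)
    {a₀ b₀ : A} (has : star a₀ = a₀) (ha : ‖a₀‖ ≤ 1) (hbs : star b₀ = b₀) (hb : ‖b₀‖ ≤ 1)
    (y : A) {ε : ℝ} (hε : 0 < ε) :
    ∃ (a b : A) (q : FreeAlgebra ℂ Bool), star a = a ∧ ‖a‖ ≤ 1 ∧ star b = b ∧ ‖b‖ ≤ 1 ∧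
      n2 σ (a - a₀) ≤ ε ∧ n2 σ (b - b₀) ≤ ε ∧ n2 σ (y - ev a b q) ≤ ε := by
  obtain ⟨K, _, _, _, π, Ω, hΩ, hd⟩ := exists_gns σ fun x => by
    rw [tr_star_mul_self hσ]; exact Complex.zero_le_real.2 (sq_nonneg _)
  have hn : ∀ x, ‖π x‖ ≤ ‖x‖ := fun x => NonUnitalStarAlgHom.norm_apply_le π x
  have hcont : Continuous fun x => π x Ω := by
    refine (LipschitzWith.of_dist_le_mul (K := 1) fun x y => ?_).continuous
    rw [dist_eq_norm, dist_eq_norm, ← sub_apply, ← map_sub, gns_norm hσ π Ω hΩ, NNReal.coe_one,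
      one_mul]
    exact n2_le_norm hσ _
  have : TopologicalSpace.SeparableSpace K := hd.separableSpace hcont
  obtain ⟨tv, hfac⟩ := gns_factor hσ hD π Ω hΩ hd
  obtain ⟨N, hN⟩ : ∃ N, N = genVN (Set.range π) := ⟨_, rfl⟩
  rw [← hN] at tv hfac
  have hπ : ∀ a, π a ∈ N := fun a => hN ▸ subset_genVN _ ⟨a, rfl⟩
  have hδ : 0 < ε / 4 := by positivity
  obtain ⟨g₁, hg₁, g₂, hg₂, hs₁, hs₂, hd₁, hd₂, hgen⟩ : ∃ a' ∈ N, ∃ b' ∈ N, star a' = a' ∧
      star b' = b' ∧ ‖a' - π a₀‖ ≤ ε / 4 ∧ ‖b' - π b₀‖ ≤ ε / 4 ∧ Gen2 N a' b' := by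
    by_cases hfin : FiniteDimensional ℂ (Submodule.span ℂ (N : Set (K →L[ℂ] K)))
    · exact dense_pairs_fin hfac hfin (hπ a₀) (hπ b₀) (by rw [← map_star, has])
        (by rw [← map_star, hbs]) hδ
    · exact dense_pairs ⟨hfac, hfin, _, tv⟩ (hπ a₀) (hπ b₀) (by rw [← map_star, has])
        (by rw [← map_star, hbs]) hδ
  obtain ⟨k1, k2⟩ := exists_scaled_pair ((hn a₀).trans ha) hδ hd₁
  obtain ⟨k3, k4⟩ := exists_scaled_pair ((hn b₀).trans hb) hδ hd₂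
  obtain ⟨s, hs⟩ : ∃ s : ℂ, s = (((1 + ε / 4)⁻¹ : ℝ) : ℂ) := ⟨_, rfl⟩
  rw [← hs] at k1 k2 k3 k4
  have hs0 : s ≠ 0 := by
    rw [hs]
    exact Complex.ofReal_ne_zero.2 (by positivity)
  have hss : star s = s := by rw [hs]; exact Complex.conj_ofReal _
  have hs₁' : star (s • g₁) = s • g₁ := by rw [star_smul, hss, hs₁]
  have hs₂' : star (s • g₂) = s • g₂ := by rw [star_smul, hss, hs₂]
  have hgen' : Gen2 N (s • g₁) (s • g₂) := by
    intro P h1 h2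
    refine hgen P ?_ ?_
    · have := vn_smul_mem P s⁻¹ h1
      rwa [smul_smul, inv_mul_cancel₀ hs0, one_smul] at this
    · have := vn_smul_mem P s⁻¹ h2
      rwa [smul_smul, inv_mul_cancel₀ hs0, one_smul] at this
  obtain ⟨q, hq⟩ := exists_poly_approx hs₁' hs₂' hgen' (hπ y) Ω (show 0 < ε / 2 by positivity)
  have hτ := isTrS_trA tv
  have hn2 : ∀ x : Alg N, n2 (trA tv) x = ‖x.1 Ω‖ := by
    intro x
    rw [n2_trA, nrm, tsum_eq_single 0 fun n hn => by simp [hn]]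
    simp
  obtain ⟨C, hC0, hC⟩ := ev_lip hτ q
  let φ : A →⋆ₐ[ℂ] Alg N := π.codRestrict N.toStarSubalgebra hπ
  have hφ : ∀ x, (φ x).1 = π x := fun _ => rfl
  have hφn : ∀ x, n2 (trA tv) (φ x) = n2 σ x := fun x => by
    rw [hn2, hφ, gns_norm hσ π Ω hΩ]
  obtain ⟨κ, hκ⟩ : ∃ κ : ℝ, κ = ε / (4 * (C + 1)) := ⟨_, rfl⟩
  have hκ0 : 0 < κ := by rw [hκ]; positivity
  have hκ1 : (C + 1) * κ = ε / 4 := by rw [hκ]; field_simp
  have happ : ∀ g : Alg N, star g = g → ‖g‖ ≤ 1 →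
      ∃ c : A, star c = c ∧ ‖c‖ ≤ 1 ∧ n2 (trA tv) (φ c - g) ≤ κ := by
    intro g hgs hg
    obtain ⟨x, hx⟩ := hd.exists_dist_lt (g.1 Ω) hκ0
    obtain ⟨c, hc1, hc2, hc3⟩ := exists_clip φ hτ x hgs hg
    refine ⟨c, hc1, hc2, hc3.trans ?_⟩
    rw [hn2]
    rw [dist_comm, dist_eq_norm] at hx
    exact hx.le
  let G₁ : Alg N := ⟨s • g₁, vn_smul_mem N _ hg₁⟩
  let G₂ : Alg N := ⟨s • g₂, vn_smul_mem N _ hg₂⟩
  obtain ⟨a, ha1, ha2, ha3⟩ := happ G₁ (Subtype.ext hs₁') k1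
  obtain ⟨b, hb1, hb2, hb3⟩ := happ G₂ (Subtype.ext hs₂') k3
  have hκ2 : κ ≤ ε / 4 := by nlinarith
  refine ⟨a, b, q, ha1, ha2, hb1, hb2, ?_, ?_, ?_⟩
  · rw [← hφn, map_sub]
    have h1 := n2_triangle hτ (φ a) G₁ (φ a₀)
    have h2 : n2 (trA tv) (G₁ - φ a₀) ≤ 2 * (ε / 4) := (n2_le_norm hτ _).trans k2
    linarith
  · rw [← hφn, map_sub]
    have h1 := n2_triangle hτ (φ b) G₂ (φ b₀)
    have h2 : n2 (trA tv) (G₂ - φ b₀) ≤ 2 * (ε / 4) := (n2_le_norm hτ _).trans k4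
    linarith
  · rw [← hφn, map_sub, map_ev]
    have h1 := n2_triangle hτ (φ y) (ev G₁ G₂ q) (ev (φ a) (φ b) q)
    have h2 : n2 (trA tv) (φ y - ev G₁ G₂ q) ≤ ε / 2 := by
      rw [hn2]
      have h3 : (ev G₁ G₂ q).1 = ev (s • g₁) (s • g₂) q :=
        map_ev N.toStarSubalgebra.subtype G₁ G₂ q
      have h4 : (φ y - ev G₁ G₂ q).1 = π y - ev (s • g₁) (s • g₂) q := by
        rw [← h3]; rfl
      rw [h4, sub_apply]
      exact hq
    have h3 := hC (φ a) (φ b) G₁ G₂ ((hn a).trans ha2) ((hn b).trans hb2) k1 k3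
    rw [n2_sub_comm (ev G₁ G₂ q)] at h1
    have h4 : C * (n2 (trA tv) (φ a - G₁) + n2 (trA tv) (φ b - G₂)) ≤ C * (κ + κ) := by gcongr
    nlinarith

/-- the local statement -/
theorem local_gen {A : Type u} [CStarAlgebra A] {σ : A →ₗ[ℂ] ℂ} (hσ : IsTrS σ) (hD : Dix σ)
    {a₀ b₀ : A} (has : star a₀ = a₀) (ha : ‖a₀‖ ≤ 1) (hbs : star b₀ = b₀) (hb : ‖b₀‖ ≤ 1)
    (y : A) {ε : ℝ} (hε : 0 < ε) :
    ∃ (a b : A) (q : FreeAlgebra ℂ Bool), star a = a ∧ ‖a‖ ≤ 1 ∧ star b = b ∧ ‖b‖ ≤ 1 ∧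
      n2 σ (a - a₀) ≤ ε ∧ n2 σ (b - b₀) ≤ ε ∧ n2 σ (y - ev a b q) ≤ ε := by
  obtain ⟨B, _, _, j, hj, hS, hτ, hD'⟩ := exists_sep_dix hσ hD {a₀, b₀, y}
    (Set.toFinite _).countable
  obtain ⟨a₁, rfl⟩ := hS (show a₀ ∈ _ by simp)
  obtain ⟨b₁, rfl⟩ := hS (show b₀ ∈ _ by simp)
  obtain ⟨y₁, rfl⟩ := hS (show y ∈ _ by simp)
  have hsa : ∀ x, star (j x) = j x → star x = x := by
    intro x hx
    rw [← sub_eq_zero, ← norm_eq_zero, ← hj, map_sub, map_star, hx, sub_self, norm_zero]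
  obtain ⟨a, b, q, h1, h2, h3, h4, h5, h6, h7⟩ := local_gen_sep hτ hD' (hsa _ has) (hj a₁ ▸ ha)
    (hsa _ hbs) (hj b₁ ▸ hb) y₁ hε
  rw [n2_comp, map_sub] at h5 h6 h7
  rw [map_ev] at h7
  exact ⟨j a, j b, q, by rw [← map_star, h1], (hj a).symm ▸ h2, by rw [← map_star, h3],
    (hj b).symm ▸ h4, h5, h6, h7⟩

end Vale.Agent.P085Z
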