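import Vale.Agent.P085Z.Baire
import Vale.Agent.P085Z.CTrace
import Vale.Agent.P085Z.Inf
import Vale.Agent.P085Z.Glue

set_option autoImplicit false

open scoped InnerProductSpace Topology ComplexOrder
open Filter

namespace Vale.Agent.P085Z

open Vale.Agent.P085

variable {H : Type*} [NormedAddCommGroup H] [InnerProductSpace ℂ H] [CompleteSpace H]

theorem exists_ntr {M : VonNeumannAlgebra H} (hM : NoInf M) {z : H →L[ℂ] H} (hz : CP M z)
    (hz0 : z ≠ 0) : ∃ (τ : Alg M →ₗ[ℂ] ℂ) (k : ℕ) (η : Fin k → H) (C : ℝ), NTr M z τ η C := by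
  obtain ⟨k, η, C, hC, h1, h2, h3⟩ := exists_ctrace hM hz hz0
  let ψ : Alg M →ₗ[ℂ] ℂ :=
    { toFun := fun x => ∑ i, ⟪η i, x.1 (η i)⟫_ℂ
      map_add' := fun x y => by
        rw [← Finset.sum_add_distrib]
        exact Finset.sum_congr rfl fun i _ => inner_add_right _ _ _
      map_smul' := fun c x => by
        rw [RingHom.id_apply, smul_eq_mul, Finset.mul_sum]
        exact Finset.sum_congr rfl fun i _ => inner_smul_right _ _ _ }
  have hψ : ∀ x : Alg M, ψ (star x * x) = ((∑ i, ‖x.1 (η i)‖ ^ 2 : ℝ) : ℂ) := by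
    intro x
    rw [Complex.ofReal_sum]
    change ∑ i, ⟪η i, (star x.1) (x.1 (η i))⟫_ℂ = _
    refine Finset.sum_congr rfl fun i _ => ?_
    rw [inner_star_right, inner_self_eq_norm_sq_to_K]
    push_cast; rfl
  have hψ' : ∀ x : Alg M, (ψ (star x * x)).re = ∑ i, ‖x.1 (η i)‖ ^ 2 := fun x => by
    rw [hψ, Complex.ofReal_re]
  obtain ⟨τ, hτ, D, hD, h4⟩ := exists_trace_of_ctrace ψ (by
      have k1 := hψ 1
      rw [star_one, one_mul] at k1
      rw [k1]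
      have k2 : ∑ i, ‖(1 : Alg M).1 (η i)‖ ^ 2 = 1 := h2
      rw [k2, Complex.ofReal_one])
    (fun x => by
      rw [hψ]
      exact Complex.zero_le_real.2 (Finset.sum_nonneg fun i _ => sq_nonneg _)) hC (fun x => by
      have k1 := hψ' (star x)
      rw [star_star] at k1
      rw [hψ', k1]
      exact h3 x.1 x.2)
  have hs : Real.sqrt D ^ 2 = D := Real.sq_sqrt hD.le
  refine ⟨τ, k, η, Real.sqrt D, hτ, Real.sqrt_pos.2 hD, fun x => ?_, fun x i => ?_, h1⟩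
  · refine le_of_sq_le_sq ?_ (by positivity)
    rw [mul_pow, hs, n2_sq hτ]
    refine (h4 x).1.trans ?_
    rw [hψ']
    gcongr
    exact Finset.sum_sq_le_sq_sum_of_nonneg fun i _ => norm_nonneg _
  · refine le_of_sq_le_sq ?_ (mul_nonneg (Real.sqrt_nonneg _) (n2_nonneg _))
    rw [mul_pow, hs, n2_sq hτ]
    refine le_trans ?_ (h4 x).2
    rw [hψ']
    exact Finset.single_le_sum (f := fun i => ‖x.1 (η i)‖ ^ 2) (fun i _ => sq_nonneg _)
      (Finset.mem_univ i)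

theorem exists_good {M : VonNeumannAlgebra H} (hs : WSep M) {z : H →L[ℂ] H} (hz : CP M z)
    (hz0 : z ≠ 0) : ∃ z', CP M z' ∧ z' ≠ 0 ∧ z' * z = z' ∧ Good M z' := by
  by_cases hr : ∃ r, Pj M r ∧ r ≠ 0 ∧ Copies M r ∧ z * r = r
  · obtain ⟨r, h1, h2, h3, h4⟩ := hr
    exact good_of_copies hs h1 h2 h3 hz h4
  have hp := hz.one_sub
  have hzp : z * (1 - z) = 0 := by rw [mul_sub, mul_one, hz.idem, sub_self]
  have hpz : (1 - z) * z = 0 := by rw [sub_mul, one_mul, hz.idem, sub_self]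
  obtain ⟨Q, hQ⟩ : ∃ Q : VonNeumannAlgebra H,
      ∀ x, x ∈ Q ↔ x ∈ M ∧ ∀ m ∈ M, m * (1 - z) * x = x * (m * (1 - z)) := by
    refine ⟨commVN ((M.commutant : Set (H →L[ℂ] H)) ∪ {s | ∃ m ∈ M, s = m * (1 - z)}) ?_,
      fun x => ?_⟩
    · rintro s (hs | ⟨m, hm, rfl⟩)
      · exact Or.inl (star_mem hs)
      · exact Or.inr ⟨star m, star_mem hm, by rw [star_mul, hp.sa, hp.comm _ (star_mem hm)]⟩
    · rw [mem_commVN]
      constructor
      · intro h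
        exact ⟨vn_mem_of_commutes M fun y hy => h y (Or.inl hy),
          fun m hm => h _ (Or.inr ⟨m, hm, rfl⟩)⟩
      · rintro ⟨h1, h2⟩ s (hs | ⟨m, hm, rfl⟩)
        · exact (vn_commutes M h1 hs).symm
        · exact h2 m hm
  have hQM : Q ≤ M := fun x hx => ((hQ x).1 hx).1
  have hyz : ∀ y ∈ M, y * z ∈ Q := fun y hy => (hQ _).2 ⟨mul_mem hy hz.mem, fun m hm => by
    rw [hz.comm y hy, mul_assoc, ← mul_assoc (1 - z), hpz, zero_mul, mul_zero, ← hz.comm y hy,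
      hp.comm m hm, mul_assoc, ← mul_assoc z, hzp, zero_mul, mul_zero]⟩
  have hzQ : CP Q z := ⟨⟨by simpa using hyz 1 (one_mem M), hz.sa, hz.idem⟩,
    fun y hy => hz.comm y (hQM hy)⟩
  have hctr : ∀ c ∈ Q, (∀ y ∈ Q, y * c = c * y) → ∀ y ∈ M, y * c = c * y := by
    intro c hc h y hy
    have e : y = y * z + y * (1 - z) := by rw [← mul_add, add_sub_cancel, mul_one]
    rw [e, add_mul, mul_add, h _ (hyz y hy), ((hQ c).1 hc).2 y hy]
  have hNo : NoInf Q := by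
    rintro r hrQ ⟨w, hw, hw1, hw2⟩
    have hrM : r ∈ M := hQM hrQ.mem
    have h1 : z * r = 0 := by
      by_contra h0
      refine hr ⟨z * r, ⟨mul_mem hz.mem hrM, ?_, ?_⟩, h0,
        ⟨fun i => z * w i, fun i => mul_mem hz.mem (hQM (hw i)), fun i => ?_, fun i j hij => ?_⟩,
        by rw [← mul_assoc, hz.idem]⟩
      · rw [star_mul, hrQ.sa, hz.sa, hz.comm r hrM]
      · rw [mul_assoc, ← mul_assoc r, hz.comm r hrM, mul_assoc, hrQ.idem, ← mul_assoc, hz.idem]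
      · rw [star_mul, hz.sa, mul_assoc, ← mul_assoc z, hz.idem, ← mul_assoc,
          hz.comm _ (star_mem (hQM (hw i))), mul_assoc, hw1]
      · rw [star_mul, hz.sa, mul_assoc, ← mul_assoc z, hz.idem, ← mul_assoc,
          hz.comm _ (star_mem (hQM (hw i))), mul_assoc, hw2 i j hij, mul_zero]
    have h2 : w 0 * (1 - z) * star (w 1) = 0 := by
      rw [((hQ _).1 (star_mem (hw 1))).2 _ (hQM (hw 0)), ← mul_assoc, hw2 1 0 (by norm_num),
        zero_mul]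
    have h3 : r * (1 - z) * r = 0 := by
      nth_rw 1 [← hw1 0]
      rw [← hw1 1, mul_assoc (star (w 0)), mul_assoc (star (w 0)), ← mul_assoc (w 0 * (1 - z)), h2,
        zero_mul, mul_zero]
    rw [mul_assoc, sub_mul, one_mul, h1, sub_zero, hrQ.idem] at h3
    exact h3
  obtain ⟨τ, k, η, C, hτ⟩ := exists_ntr hNo hzQ hz0
  obtain ⟨z', hz', h0, h1, B, b, hB, hBc, hb, hbs, hb1, hgen⟩ := good_of_ntr (hs.mono hQM) hzQ hτ
  have h2 : z * z' = z' := by rw [hz'.comm z hzQ.mem, h1]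
  refine ⟨z', ⟨⟨hQM hz'.mem, hz'.sa, hz'.idem⟩, hctr z' hz'.mem hz'.comm⟩, h0, h1, B, b,
    fun x hx => ⟨hQM (hB x hx).1, (hB x hx).2⟩, hBc, hQM hb, hbs, hb1,
    fun N hN hBN hbN y hy => ?_⟩
  have h3 := hgen N (fun c hc => hN c ⟨hQM hc.1, hctr c hc.1 hc.2⟩) hBN hbN _ (hyz y hy)
  rwa [mul_assoc, h2] at h3

theorem isSinglyGenerated_of_wsep {M : VonNeumannAlgebra H} (hs : WSep M) :
    IsSinglyGenerated M :=
  single_of_good_one hs (good_one M fun _ hz hz0 => exists_good hs hz hz0)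

theorem wsep_of_separable [TopologicalSpace.SeparableSpace H] (M : VonNeumannAlgebra H) :
    WSep M := by
  obtain ⟨u, hu⟩ := TopologicalSpace.exists_dense_seq H
  refine ⟨fun n => u n.unpair.1, fun n => u n.unpair.2, fun a b ε hε => ?_⟩
  obtain ⟨L, hL⟩ : ∃ L : ℝ, L = ‖a‖ + ‖b‖ + 1 := ⟨_, rfl⟩
  have hL0 : 0 < L := by rw [hL]; positivity
  obtain ⟨δ, hδ⟩ : ∃ δ : ℝ, δ = min 1 (ε / L) := ⟨_, rfl⟩
  have hδ0 : 0 < δ := by rw [hδ]; positivity
  have hδ1 : δ ≤ 1 := hδ ▸ min_le_left _ _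
  have hδ2 : δ * L ≤ ε := by
    rw [← le_div_iff₀ hL0, hδ]; exact min_le_right _ _
  obtain ⟨i, hi⟩ := hu.exists_dist_lt a hδ0
  obtain ⟨j, hj⟩ := hu.exists_dist_lt b hδ0
  rw [dist_eq_norm] at hi hj
  refine ⟨Nat.pair i j, fun x _ => ?_⟩
  simp only [Nat.unpair_pair]
  have e : ⟪a, x b⟫_ℂ - ⟪u i, x (u j)⟫_ℂ = ⟪a, x (b - u j)⟫_ℂ + ⟪a - u i, x (u j)⟫_ℂ := by
    rw [map_sub, inner_sub_right, inner_sub_left]; ring
  have h1 : ‖u j‖ ≤ ‖b‖ + 1 := by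
    have := norm_sub_le b (b - u j)
    rw [sub_sub_cancel] at this
    linarith
  have h2 : ‖⟪a, x (b - u j)⟫_ℂ‖ ≤ ‖a‖ * (‖x‖ * δ) := by
    refine (norm_inner_le_norm _ _).trans ?_
    gcongr
    exact (x.le_opNorm _).trans (by gcongr)
  have h3 : ‖⟪a - u i, x (u j)⟫_ℂ‖ ≤ δ * (‖x‖ * (‖b‖ + 1)) := by
    refine (norm_inner_le_norm _ _).trans ?_
    gcongr
    exact (x.le_opNorm _).trans (by gcongr)
  rw [e]
  calc _ ≤ ‖a‖ * (‖x‖ * δ) + δ * (‖x‖ * (‖b‖ + 1)) := (norm_add_le _ _).trans (add_le_add h2 h3)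
    _ = δ * L * ‖x‖ := by rw [hL]; ring
    _ ≤ ε * ‖x‖ := by gcongr

theorem wsep_of_isSeparable (M : VonNeumannAlgebra H)
    (h : TopologicalSpace.IsSeparable {f : StrongDual ℂ M.toStarSubalgebra |
      ∃ ξ η : H, ∀ x : M.toStarSubalgebra, f x = ⟪ξ, x.1 η⟫_ℂ}) : WSep M := by
  have hf : ∀ ξ η : H, ∃ f : StrongDual ℂ M.toStarSubalgebra,
      ∀ x : M.toStarSubalgebra, f x = ⟪ξ, x.1 η⟫_ℂ := fun ξ η =>
    ⟨innerSL ℂ ξ ∘L ContinuousLinearMap.apply ℂ H η ∘L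
      (Subalgebra.toSubmodule M.toStarSubalgebra.toSubalgebra).subtypeL, fun _ => rfl⟩
  obtain ⟨c, hcT, hcc, hcd⟩ := h.exists_countable_dense_subset
  have hcne : c.Nonempty := by
    by_contra h1
    rw [Set.not_nonempty_iff_eq_empty] at h1
    obtain ⟨f, hf0⟩ := hf 0 0
    have := hcd ⟨0, 0, hf0⟩
    rw [h1, closure_empty] at this
    exact this
  obtain ⟨g, hg⟩ := hcc.exists_eq_range hcne
  have h1 : ∀ n, ∃ ξ η : H, ∀ x : M.toStarSubalgebra, g n x = ⟪ξ, x.1 η⟫_ℂ :=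
    fun n => hcT (by rw [hg]; exact ⟨n, rfl⟩)
  choose ξ η hξ using h1
  refine ⟨ξ, η, fun a b ε hε => ?_⟩
  obtain ⟨f, hf0⟩ := hf a b
  obtain ⟨f', hf', hd⟩ := Metric.mem_closure_iff.1 (hcd ⟨a, b, hf0⟩) ε hε
  rw [hg] at hf'
  obtain ⟨n, rfl⟩ := hf'
  refine ⟨n, fun x hx => ?_⟩
  rw [dist_eq_norm] at hd
  have h2 := (f - g n).le_opNorm ⟨x, hx⟩
  rw [sub_apply, hf0, hξ] at h2
  refine h2.trans ?_
  have h3 : ‖(⟨x, hx⟩ : M.toStarSubalgebra)‖ = ‖x‖ := rfl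
  rw [h3]
  gcongr

end Vale.Agent.P085Z
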